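import Vale.Agent.P132.BasicAlg

/-!
# P132, step 0: the fixed points of `σ` in the bicentralizer are scalars, and `bFacts`
-/

noncomputable section

namespace P132

open Filter Topology Complex ComplexConjugate
open scoped InnerProductSpace

variable {H : Type*} [NormedAddCommGroup H] [InnerProductSpace ℂ H] [CompleteSpace H]
variable {S : Std H} (D : Modular S)

lemma isClosed_vN (M : VonNeumannAlgebra H) : IsClosed (M : Set (H →L[ℂ] H)) := by
  rw [← M.centralizer_centralizer]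
  exact Set.isClosed_centralizer _

/-- The fixed points of `σ` in `B`, as a `*`-subalgebra. -/
def fixedB : StarSubalgebra ℂ (H →L[ℂ] H) where
  carrier := {x | x ∈ S.B ∧ ∀ t, D.σ t x = x}
  mul_mem' := fun ha hb => ⟨mul_mem_B D ha.1 hb.1, fun t => by rw [D.σ_mul, ha.2, hb.2]⟩
  one_mem' := ⟨one_mem_B, fun t => D.σ_one t⟩
  add_mem' := fun ha hb => ⟨add_mem_B ha.1 hb.1, fun t => by rw [D.σ_add, ha.2, hb.2]⟩
  zero_mem' := ⟨⟨zero_mem _, fun w _ v => by simp⟩, fun t => by simp [Modular.σ]⟩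
  algebraMap_mem' := fun c => by
    rw [Algebra.algebraMap_eq_smul_one]
    exact ⟨smul_mem_B c one_mem_B, fun t => by rw [D.σ_smul, D.σ_one]⟩
  star_mem' := fun ha => ⟨star_mem_B D ha.1, fun t => by rw [D.σ_star, ha.2]⟩

lemma mem_fixedB {x : H →L[ℂ] H} : x ∈ fixedB D ↔ x ∈ S.B ∧ ∀ t, D.σ t x = x := Iff.rfl

lemma isClosed_fixedB : IsClosed (fixedB D : Set (H →L[ℂ] H)) := by
  refine isClosed_iff_clusterPt.2 fun x hx => ?_
  have hx' : x ∈ closure (fixedB D : Set (H →L[ℂ] H)) := mem_closure_iff_clusterPt.2 hx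
  have hxM : x ∈ S.M :=
    (isClosed_vN S.M).closure_subset_iff.2 (fun y hy => ((mem_fixedB D).1 hy).1.1) hx'
  refine ⟨sot_closed_B D hxM fun ε hε => ?_, fun t => ?_⟩
  · obtain ⟨y, hy, hxy⟩ := Metric.mem_closure_iff.1 hx' ε hε
    refine ⟨y, hy.1, (((x - y).le_opNorm _).trans_eq (by rw [S.norm_Ω, mul_one])).trans ?_⟩
    rw [dist_eq_norm] at hxy
    exact hxy.le
  · have hc : IsClosed {z : H →L[ℂ] H | D.σ t z = z} :=
      isClosed_eq ((continuous_const.mul continuous_id).mul continuous_const) continuous_id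
    exact hc.closure_subset_iff.2 (fun y hy => ((mem_fixedB D).1 hy).2 t) hx'

instance : Fact (IsClosed (fixedB D : Set (H →L[ℂ] H))) := ⟨isClosed_fixedB D⟩

lemma cfc_mem_fixedB (f : ℝ → ℝ) {a : H →L[ℂ] H} (ha : a ∈ fixedB D) :
    cfc f a ∈ fixedB D :=
  cfc_mem (𝕜' := ℂ) (hs := isClosed_fixedB D) f ha

/-- The support projection of a self-adjoint element of `fixedB`. -/
lemma exists_support {a : H →L[ℂ] H} (ha : a ∈ fixedB D) (has : IsSelfAdjoint a) :
    ∃ p ∈ fixedB D, IsStarProjection p ∧ p * a = a ∧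
      ∀ b : H →L[ℂ] H, b * a = 0 → b * p = 0 := by
  set K : Submodule ℂ H := (LinearMap.range (a : H →ₗ[ℂ] H)).topologicalClosure
  have : CompleteSpace K := (Submodule.isClosed_topologicalClosure _).completeSpace_coe
  set p := K.starProjection with hp
  let f : ℕ → ℝ → ℝ := fun k t => |t| / (|t| + 1 / (k + 1))
  have hpos : ∀ (k : ℕ) (t : ℝ), 0 < |t| + 1 / ((k : ℝ) + 1) := fun k t => by positivity
  have hfc : ∀ k, Continuous (f k) := fun k =>
    continuous_abs.div (continuous_abs.add continuous_const) fun t => (hpos k t).ne'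
  set F : ℕ → H →L[ℂ] H := fun k => cfc (f k) a
  have hF : ∀ k, F k ∈ fixedB D := fun k => cfc_mem_fixedB D _ ha
  have hF1 : ∀ k, ‖F k‖ ≤ 1 := fun k => norm_cfc_le zero_le_one fun t _ => by
    rw [Real.norm_eq_abs, abs_div, abs_abs, abs_of_pos (hpos k t)]
    exact (div_le_one (hpos k t)).2 (le_add_of_nonneg_right (by positivity))
  -- `F k` is close to `1` on the range of `a`
  have hrange : ∀ k, ‖F k * a - a‖ ≤ 1 / ((k : ℝ) + 1) := by
    intro k
    have h1 : F k * a - a = cfc (fun t => f k t * t - t) a := by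
      rw [cfc_sub (fun t => f k t * t) (fun t => t) a ((hfc k).mul continuous_id).continuousOn,
        cfc_mul (f k) (fun t => t) a (hfc k).continuousOn, cfc_id' ℝ a]
    rw [h1]
    refine norm_cfc_le (by positivity) fun t _ => ?_
    have he : f k t * t - t = -(t * (1 / ((k : ℝ) + 1)) / (|t| + 1 / ((k : ℝ) + 1))) := by
      simp only [f]
      field_simp [(hpos k t).ne']
      ring
    rw [Real.norm_eq_abs, he, abs_neg, abs_div, abs_mul, abs_of_pos (hpos k t),
      abs_of_pos (show (0 : ℝ) < 1 / ((k : ℝ) + 1) by positivity), div_le_iff₀ (hpos k t)]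
    have h0 : (0 : ℝ) < 1 / ((k : ℝ) + 1) := by positivity
    nlinarith
  have hlimK : ∀ u ∈ K, Tendsto (fun k => F k u) atTop (𝓝 u) := by
    intro u hu
    rw [Metric.tendsto_atTop]
    intro ε hε
    obtain ⟨z, ⟨v, rfl⟩, hz⟩ := Metric.mem_closure_iff.1 hu (ε / 4) (by positivity)
    have h0 : Tendsto (fun k : ℕ => 1 / ((k : ℝ) + 1) * ‖v‖) atTop (𝓝 0) := by
      simpa using tendsto_one_div_add_atTop_nhds_zero_nat.mul_const ‖v‖
    obtain ⟨N, hN⟩ := Metric.tendsto_atTop.1 h0 (ε / 4) (by positivity)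
    refine ⟨N, fun k hk => ?_⟩
    rw [dist_eq_norm] at hz ⊢
    have h1 : ‖F k (u - a v)‖ ≤ ε / 4 := ((F k).le_of_opNorm_le (hF1 k) _).trans (by
      rw [one_mul]; exact hz.le)
    have h2 : ‖(F k * a - a) v‖ ≤ ε / 4 := by
      refine (((F k * a - a)).le_of_opNorm_le (hrange k) _).trans ?_
      have := hN k hk
      rw [dist_zero_right, Real.norm_eq_abs] at this
      exact (le_abs_self _).trans this.le
    have h3 : F k u - u = F k (u - a v) + (F k * a - a) v - (u - a v) := by simp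
    have h4 : ‖u - a v‖ < ε / 4 := hz
    rw [h3]
    exact (norm_sub_le _ _).trans_lt ((add_le_add (norm_add_le _ _) le_rfl).trans_lt (by linarith))
  -- `F k` vanishes on the kernel of `a`
  have hker : ∀ w ∈ Kᗮ, ∀ k, F k w = 0 := by
    intro w hw k
    have haw : a w = 0 := by
      refine ext_inner_left ℂ fun v => ?_
      rw [inner_zero_right]
      have h := (Submodule.mem_orthogonal _ _).1 hw (a v)
        ((LinearMap.range (a : H →ₗ[ℂ] H)).le_topologicalClosure ⟨v, rfl⟩)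
      rwa [← has.adjoint_eq, ContinuousLinearMap.adjoint_inner_left] at h
    -- kill `F k w` through `|F k w|² = ⟪w, F k ² w⟫`
    have h2 : F k * F k = cfc (fun t => t / (|t| + 1 / ((k : ℝ) + 1)) ^ 2) a * a := by
      rw [← cfc_mul (f k) (f k) a (hfc k).continuousOn (hfc k).continuousOn]
      conv_rhs => arg 2; rw [← cfc_id' ℝ a]
      rw [← cfc_mul (fun t => t / (|t| + 1 / ((k : ℝ) + 1)) ^ 2) (fun t => t) a
        ((continuous_id.div ((continuous_abs.add continuous_const).pow 2)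
          fun t => pow_ne_zero 2 (hpos k t).ne').continuousOn) continuousOn_id]
      refine cfc_congr fun t _ => ?_
      simp only [f]
      rw [div_mul_div_comm, abs_mul_abs_self, sq]
      ring
    have hsa : IsSelfAdjoint (F k) := cfc_predicate _ _
    have h3 : (F k * F k) w = 0 := by
      rw [h2]
      change (cfc _ a) (a w) = 0
      rw [haw, map_zero]
    have h4 : ⟪F k w, F k w⟫_ℂ = 0 := by
      nth_rw 1 [← hsa.adjoint_eq]
      rw [ContinuousLinearMap.adjoint_inner_left, show F k (F k w) = (F k * F k) w from rfl, h3,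
        inner_zero_right]
    exact inner_self_eq_zero.1 h4
  have hlim : ∀ v, Tendsto (fun k => F k v) atTop (𝓝 (p v)) := by
    intro v
    have hv : ∀ k, F k v = F k (p v) := fun k => by
      have := hker (v - p v) (K.sub_starProjection_mem_orthogonal v) k
      rwa [map_sub, sub_eq_zero] at this
    simpa only [hv] using hlimK (p v) (K.starProjection_apply_mem v)
  have hpM : p ∈ S.M := (vN_mem_iff _).2 fun y hy v => by
    refine tendsto_nhds_unique (((y.continuous.tendsto _).comp (hlim v))) ?_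
    refine (hlim (y v)).congr fun k => ?_
    exact ((vN_mem_iff _).1 (hF k).1.1 y hy v).symm
  refine ⟨p, ⟨sot_closed_B D hpM fun ε hε => ?_, fun t => ?_⟩, isStarProjection_starProjection, ?_, ?_⟩
  · obtain ⟨N, hN⟩ := Metric.tendsto_atTop.1 (hlim S.Ω) ε hε
    refine ⟨F N, (hF N).1, ?_⟩
    have := hN N le_rfl
    rw [dist_eq_norm, norm_sub_rev] at this
    exact this.le
  · ext v
    refine tendsto_nhds_unique (((D.U t).continuous.tendsto _).comp (hlim (D.U (-t) v))) ?_
    refine (hlim v).congr fun k => ?_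
    exact (congr($((hF k).2 t) v)).symm
  · ext v
    exact Submodule.starProjection_eq_self_iff.2
      ((LinearMap.range (a : H →ₗ[ℂ] H)).le_topologicalClosure ⟨v, rfl⟩)
  · intro b hb
    ext v
    have hK : K ≤ LinearMap.ker (b : H →ₗ[ℂ] H) := by
      refine Submodule.topologicalClosure_minimal _ ?_ b.isClosed_ker
      rintro _ ⟨u, rfl⟩
      exact congr($hb u)
    exact hK (K.starProjection_apply_mem v)

variable {D}

lemma φ_comm_of_fixed {p : H →L[ℂ] H} (hp : p ∈ S.M) (hfix : ∀ t, D.σ t p = p)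
    {y : H →L[ℂ] H} (hy : y ∈ S.M) : S.φ (p * y) = S.φ (y * p) :=
  D.kms p (fun _ => p) (differentiable_const p) (fun _ => hp) (fun t => (hfix t).symm) y hy

lemma exists_orthogonal_isometries (h : Homog S) : ∃ s₁ ∈ S.M, ∃ s₂ ∈ S.M,
    star s₁ * s₁ = 1 ∧ star s₂ * s₂ = 1 ∧ star s₂ * s₁ = 0 := by
  obtain ⟨p, hpM, hp, hp0, hp1⟩ := h.nontrivial
  obtain ⟨s₁, h1, h11, h12⟩ := h.equiv_one p hpM hp hp0
  obtain ⟨s₂, h2, h21, h22⟩ := h.equiv_one (1 - p) (sub_mem (one_mem _) hpM) hp.one_sub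
    (sub_ne_zero.2 (Ne.symm hp1))
  refine ⟨s₁, h1, s₂, h2, h11, h21, ?_⟩
  have e1 : s₁ = p * s₁ := by rw [← h12, mul_assoc, h11, mul_one]
  have e2 : star s₂ = star s₂ * (1 - p) := by rw [← h22, ← mul_assoc, h21, one_mul]
  rw [e1, e2, mul_assoc, ← mul_assoc (1 - p), sub_mul 1 p p, one_mul, hp.isIdempotentElem.eq,
    sub_self, zero_mul, mul_zero]

lemma norm_le_one_of_star_mul_self {w : H →L[ℂ] H} (h : star w * w = 1) : ‖w‖ ≤ 1 := by
  refine ContinuousLinearMap.opNorm_le_bound _ zero_le_one fun v => le_of_eq ?_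
  rw [one_mul, ← sq_eq_sq₀ (norm_nonneg _) (norm_nonneg _), ← inner_self_eq_norm_sq (𝕜 := ℂ),
    ← inner_self_eq_norm_sq (𝕜 := ℂ) v, ← ContinuousLinearMap.adjoint_inner_right,
    ← ContinuousLinearMap.star_eq_adjoint, show star w (w v) = (star w * w) v from rfl, h]
  rfl

/-- A fixed projection in `B` of mass at least one half is trivial. -/
lemma false_of_fixed_projection (h : Homog S) {p : H →L[ℂ] H} (hpB : p ∈ S.B)
    (hp : IsStarProjection p) (hfix : ∀ t, D.σ t p = p) (hp0 : p ≠ 0) (hq0 : 1 - p ≠ 0)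
    (hle : ‖(1 - p) S.Ω‖ ≤ ‖p S.Ω‖) : False := by
  have hpM : p ∈ S.M := hpB.1
  have hqM : 1 - p ∈ S.M := sub_mem (one_mem _) hpM
  set q := 1 - p
  have hq : IsStarProjection q := hp.one_sub
  obtain ⟨s₁, hs₁, s₂, hs₂, h11, h22, h21⟩ := exists_orthogonal_isometries h
  obtain ⟨w, hwM, hw1, hwp⟩ := h.equiv_one p hpM hp hp0
  obtain ⟨w', hw'M, hw'1, hw'q⟩ := h.equiv_one q hqM hq hq0
  set α := ‖p S.Ω‖ ^ 2
  set β := ‖q S.Ω‖ ^ 2
  have hn : ∀ (r : H →L[ℂ] H), IsStarProjection r →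
      (S.φ r = (‖r S.Ω‖ ^ 2 : ℝ)) ∧ ∀ z, z * star z = r →
        ‖star z S.Ω‖ = ‖r S.Ω‖ := by
    intro r hr
    have e : S.φ r = (‖r S.Ω‖ ^ 2 : ℝ) := by
      conv_lhs => rw [← hr.isIdempotentElem.eq]; arg 2; arg 1; rw [← hr.isSelfAdjoint.star_eq]
      rw [S.φ_star_mul, inner_self_eq_norm_sq_to_K]; simp
    refine ⟨e, fun z hz => ?_⟩
    have h2 : ((‖star z S.Ω‖ ^ 2 : ℝ) : ℂ) = (‖r S.Ω‖ ^ 2 : ℝ) := by
      rw [← e, ← hz]
      nth_rw 2 [← star_star z]
      rw [S.φ_star_mul, inner_self_eq_norm_sq_to_K]; simp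
    exact (pow_left_inj₀ (norm_nonneg _) (norm_nonneg _) two_ne_zero).1 (by exact_mod_cast h2)
  have hαβ : α + β = 1 := by
    have h1 : S.φ p + S.φ q = 1 := by
      rw [← S.φ_add, show p + q = 1 from add_sub_cancel p 1]
      simp [Std.φ, inner_self_eq_norm_sq_to_K, S.norm_Ω]
    rw [(hn p hp).1, (hn q hq).1] at h1
    exact_mod_cast h1
  have hβ : 0 < β := by
    refine pow_pos (norm_pos_iff.2 fun h0 => hq0 (S.separating q hqM h0)) 2
  have hα : 0 < α := by
    refine pow_pos (norm_pos_iff.2 fun h0 => hp0 (S.separating p hpM h0)) 2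
  have hβα : β ≤ α := pow_le_pow_left₀ (norm_nonneg _) hle 2
  set a : ℂ := (((Real.sqrt α)⁻¹ : ℝ) : ℂ) with ha
  set b : ℂ := ((Real.sqrt (1 - β / α) : ℝ) : ℂ) with hb
  have hb0 : 0 ≤ 1 - β / α := sub_nonneg.2 ((div_le_one hα).2 hβα)
  have hna : ‖a‖ ^ 2 = α⁻¹ := by
    rw [ha, Complex.norm_real, Real.norm_of_nonneg (inv_nonneg.2 (Real.sqrt_nonneg _)), inv_pow,
      Real.sq_sqrt hα.le]
  have haa : conj a * a = ((α⁻¹ : ℝ) : ℂ) := by
    rw [← Complex.normSq_eq_conj_mul_self, Complex.normSq_eq_norm_sq, hna]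
  have hnorm : ∀ s : H →L[ℂ] H, star s * s = 1 → ∀ v, ‖s v‖ = ‖v‖ := by
    intro s hs v
    rw [← sq_eq_sq₀ (norm_nonneg _) (norm_nonneg _), ← inner_self_eq_norm_sq (𝕜 := ℂ),
      ← inner_self_eq_norm_sq (𝕜 := ℂ) v, ← ContinuousLinearMap.adjoint_inner_right,
      ← ContinuousLinearMap.star_eq_adjoint, show star s (s v) = (star s * s) v from rfl, hs]
    rfl
  let ξ : Fin 1 → H := ![a • star w S.Ω]
  let η : Fin 2 → H := ![a • s₁ (star w' S.Ω), b • s₂ S.Ω]
  have hξ : (∑ i, ‖ξ i‖ ^ 2) = 1 := by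
    simp only [ξ, Fin.sum_univ_one, Matrix.cons_val_zero]
    rw [norm_smul, mul_pow, hna, (hn p hp).2 w hwp]
    exact inv_mul_cancel₀ hα.ne'
  have hη : (∑ j, ‖η j‖ ^ 2) = 1 := by
    simp only [η, Fin.sum_univ_two, Matrix.cons_val_zero, Matrix.cons_val_one]
    rw [norm_smul, norm_smul, mul_pow, mul_pow, hna, hnorm s₁ h11, hnorm s₂ h22,
      (hn q hq).2 w' hw'q, hb, Complex.norm_real, Real.norm_of_nonneg (Real.sqrt_nonneg _),
      Real.sq_sqrt hb0, S.norm_Ω]
    change α⁻¹ * β + _ = 1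
    field_simp
    ring
  choose u huM hu1 hu2 hu using fun n : ℕ =>
    h.homog 1 2 ξ η hξ hη (1 / ((n : ℝ) + 1)) (by positivity)
  set v : ℕ → H →L[ℂ] H := fun n => w * star (u n) * s₁ * star w'
  have hvM : ∀ n, v n ∈ S.M := fun n =>
    mul_mem (mul_mem (mul_mem hwM (star_mem (huM n))) hs₁) (star_mem hw'M)
  have hnu : ∀ n, ‖star (u n)‖ ≤ 1 := fun n =>
    (norm_star _).trans_le (norm_le_one_of_star_mul_self (hu1 n))
  have hnw' : ‖star w'‖ ≤ 1 := (norm_star _).trans_le (norm_le_one_of_star_mul_self hw'1)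
  have hv1 : ∀ n, ‖v n‖ ≤ 1 := fun n => by
    refine (norm_mul_le _ _).trans (mul_le_one₀ ?_ (norm_nonneg _) hnw')
    refine (norm_mul_le _ _).trans (mul_le_one₀ ?_ (norm_nonneg _) (norm_le_one_of_star_mul_self h11))
    exact (norm_mul_le _ _).trans
      (mul_le_one₀ (norm_le_one_of_star_mul_self hw1) (norm_nonneg _) (hnu n))
  have hpw : p * w = w := by rw [← hwp, mul_assoc, hw1, mul_one]
  have hqw' : star w' * q = star w' := by rw [← hw'q, ← mul_assoc, hw'1, one_mul]
  have hpv : ∀ n, p * v n = v n := fun n => by simp only [v, ← mul_assoc, hpw]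
  have hvq : ∀ n, v n * q = v n := fun n => by simp only [v, mul_assoc, hqw']
  have hcomm : ∀ n, p * v n - v n * p = v n := fun n => by
    have : v n * p = 0 := by
      rw [show p = 1 - q from (sub_sub_cancel 1 p).symm, mul_sub, mul_one, hvq, sub_self]
    rw [hpv, this, sub_zero]
  have hcentral : AsympCentralizes S.M S.φ v := by
    refine ⟨hvM, ⟨1, hv1⟩, fun ε hε => ?_⟩
    obtain ⟨N, hN⟩ := exists_nat_gt (1 / ε)
    refine ⟨N, fun n hn y hy => ?_⟩
    set Y := s₁ * star w' * y * w * star (u n) with hY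
    have hYM : Y ∈ S.M :=
      mul_mem (mul_mem (mul_mem (mul_mem hs₁ (star_mem hw'M)) hy) hwM) (star_mem (huM n))
    have hYn : ‖Y‖ ≤ ‖y‖ := by
      refine (norm_mul_le _ _).trans ((mul_le_of_le_one_right (norm_nonneg _) (hnu n)).trans ?_)
      refine (norm_mul_le _ _).trans
        ((mul_le_of_le_one_right (norm_nonneg _) (norm_le_one_of_star_mul_self hw1)).trans ?_)
      refine (norm_mul_le _ _).trans (mul_le_of_le_one_left (norm_nonneg _) ?_)
      exact (norm_mul_le _ _).trans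
        (mul_le_one₀ (norm_le_one_of_star_mul_self h11) (norm_nonneg _) hnw')
    have e1 : ∑ i, ⟪ξ i, (star (u n) * Y * u n) (ξ i)⟫_ℂ
        = ((α⁻¹ : ℝ) : ℂ) * S.φ (v n * y) := by
      simp only [ξ, Fin.sum_univ_one, Matrix.cons_val_zero, map_smul, inner_smul_left,
        inner_smul_right]
      rw [← mul_assoc, mul_comm a, haa]
      congr 1
      have hconj : star (u n) * Y * u n = star (u n) * s₁ * star w' * y * w := by
        simp only [hY, mul_assoc, hu1, mul_one]
      rw [hconj, show ⟪star w S.Ω, (star (u n) * s₁ * star w' * y * w) (star w S.Ω)⟫_ℂ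
        = S.φ (w * (star (u n) * s₁ * star w' * y * w) * star w) from by
          simp [Std.φ, ContinuousLinearMap.star_eq_adjoint, ContinuousLinearMap.adjoint_inner_left]]
      calc S.φ (w * (star (u n) * s₁ * star w' * y * w) * star w)
          = S.φ (v n * y * (w * star w)) := by simp only [v, mul_assoc]
        _ = S.φ (p * (v n * y)) := by
            rw [hwp, φ_comm_of_fixed hpM hfix (mul_mem (hvM n) hy)]
        _ = _ := by rw [← mul_assoc, hpv]
    have e2 : ∑ j, ⟪η j, Y (η j)⟫_ℂ = ((α⁻¹ : ℝ) : ℂ) * S.φ (y * v n) := by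
      simp only [η, Fin.sum_univ_two, Matrix.cons_val_zero, Matrix.cons_val_one, map_smul,
        inner_smul_left, inner_smul_right]
      have hz : ⟪s₂ S.Ω, Y (s₂ S.Ω)⟫_ℂ = 0 := by
        have h0 : ∀ x, ⟪s₂ S.Ω, s₁ x⟫_ℂ = 0 := fun x => by
          rw [← ContinuousLinearMap.adjoint_inner_right, ← ContinuousLinearMap.star_eq_adjoint,
            show star s₂ (s₁ x) = (star s₂ * s₁) x from rfl, h21]
          simp
        exact h0 _
      rw [hz, mul_zero, mul_zero, add_zero, ← mul_assoc, mul_comm a, haa]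
      congr 1
      rw [show ⟪s₁ (star w' S.Ω), Y (s₁ (star w' S.Ω))⟫_ℂ
        = S.φ (w' * star s₁ * Y * s₁ * star w') from by
          simp only [Std.φ, ContinuousLinearMap.comp_apply,
            ContinuousLinearMap.star_eq_adjoint, ContinuousLinearMap.mul_def]
          rw [← ContinuousLinearMap.adjoint_inner_left w', ContinuousLinearMap.adjoint_inner_right]]
      have hqfix : ∀ t, D.σ t q = q := fun t => by rw [D.σ_sub, D.σ_one, hfix]
      calc S.φ (w' * star s₁ * Y * s₁ * star w')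
          = S.φ ((w' * star w') * (y * v n)) := by
            simp only [hY, v, mul_assoc]
            rw [← mul_assoc (star s₁) s₁, h11, one_mul]
        _ = S.φ (y * (v n * q)) := by
            rw [hw'q, φ_comm_of_fixed hqM hqfix (mul_mem hy (hvM n)), mul_assoc]
        _ = _ := by rw [hvq]
    have h := hu n Y hYM
    rw [e1, e2, ← mul_sub, norm_mul, Complex.norm_real, Real.norm_of_nonneg (inv_nonneg.2 hα.le),
      inv_mul_le_iff₀ hα, norm_sub_rev] at h
    refine h.trans ?_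
    have hα1 : α ≤ 1 := by linarith
    have h3 : 1 / ((n : ℝ) + 1) ≤ ε := by
      rw [div_le_iff₀ (by positivity)]
      rw [div_lt_iff₀ hε] at hN
      have : (N : ℝ) ≤ n := by exact_mod_cast hn
      nlinarith
    refine (mul_le_of_le_one_left (by positivity) hα1).trans ?_
    exact mul_le_mul h3 hYn (norm_nonneg _) hε.le
  have hlim := hpB.2 v hcentral S.Ω
  simp only [hcomm] at hlim
  have hvn : ∀ n, ‖v n S.Ω‖ = ‖q S.Ω‖ := fun n => by
    rw [show v n S.Ω = w (star (u n) (s₁ (star w' S.Ω))) from rfl, hnorm w hw1,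
      hnorm (star (u n)) (by rw [star_star]; exact hu2 n), hnorm s₁ h11, (hn q hq).2 w' hw'q]
  have := tendsto_zero_iff_norm_tendsto_zero.1 hlim
  simp only [hvn, tendsto_const_nhds_iff] at this
  exact hq0 (S.separating q hqM (norm_eq_zero.1 this))

lemma fixed_scalar_selfAdjoint (h : Homog S) {x : H →L[ℂ] H} (hx : x ∈ fixedB D)
    (hxs : IsSelfAdjoint x) : x ∈ scalars H := by
  have : Nontrivial (H →L[ℂ] H) := ⟨⟨1, 0, fun e => by
    have h0 : (1 : H →L[ℂ] H) S.Ω = (0 : H →L[ℂ] H) S.Ω := by rw [e]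
    have h1 := S.norm_Ω
    simp at h0
    simp [h0] at h1⟩⟩
  by_cases hs : (spectrum ℝ x).Subsingleton
  · obtain ⟨c, hc⟩ := ContinuousFunctionalCalculus.spectrum_nonempty (R := ℝ) x hxs
    refine ⟨(c : ℂ), ?_⟩
    have h2 : x = cfc (fun _ : ℝ => c) x := by
      conv_lhs => rw [← cfc_id' ℝ x]
      exact cfc_congr fun t ht => hs ht hc
    rw [cfc_const c x] at h2
    rw [h2, Algebra.algebraMap_eq_smul_one]
    ext v
    simp
  · obtain ⟨t₁, ht₁, t₂, ht₂, hne⟩ := Set.not_subsingleton_iff.1 hs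
    exfalso
    wlog hlt : t₁ < t₂ generalizing t₁ t₂
    · exact this t₂ ht₂ t₁ ht₁ hne.symm (lt_of_le_of_ne (not_lt.1 hlt) hne.symm)
    set m := (t₁ + t₂) / 2
    set a := cfc (fun t => max (t - m) 0) x with ha
    set b := cfc (fun t => max (m - t) 0) x with hb
    have hne0 : ∀ (f : ℝ → ℝ), Continuous f → ∀ t ∈ spectrum ℝ x, f t ≠ 0 → cfc f x ≠ 0 := by
      intro f hf t ht hft h0
      rw [← cfc_const_zero ℝ x] at h0
      exact hft (eqOn_of_cfc_eq_cfc h0 hf.continuousOn continuousOn_const hxs ht)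
    have hba : b * a = 0 := by
      rw [ha, hb, ← cfc_mul _ _ x (by fun_prop) (by fun_prop), ← cfc_const_zero ℝ x]
      refine cfc_congr fun t _ => ?_
      rcases le_total t m with h' | h' <;> simp [h']
    obtain ⟨p, hp, hpp, hpa, hpb⟩ := exists_support D (cfc_mem_fixedB D _ hx : a ∈ fixedB D)
      (cfc_predicate _ _)
    have hp0 : p ≠ 0 := fun h0 => by
      rw [h0, zero_mul] at hpa
      refine hne0 _ (by fun_prop) t₂ ht₂ ?_ hpa.symm
      have : m < t₂ := by simp only [m]; linarith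
      simp; linarith
    have hp1 : 1 - p ≠ 0 := fun h0 => by
      have h1 := hpb b hba
      rw [← sub_eq_zero.1 h0, mul_one] at h1
      refine hne0 _ (by fun_prop) t₁ ht₁ ?_ h1
      have : t₁ < m := by simp only [m]; linarith
      simp; linarith
    have hq : (1 : H →L[ℂ] H) - p ∈ fixedB D := sub_mem (one_mem _) hp
    rcases le_total ‖(1 - p) S.Ω‖ ‖p S.Ω‖ with hle | hle
    · exact false_of_fixed_projection h hp.1 hpp hp.2 hp0 hp1 hle
    · exact false_of_fixed_projection h hq.1 hpp.one_sub hq.2 hp1 (by rwa [sub_sub_cancel])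
        (by rwa [sub_sub_cancel])

lemma fixed_scalar (h : Homog S) {x : H →L[ℂ] H} (hx : x ∈ S.B) (hfix : ∀ t, D.σ t x = x) :
    x ∈ scalars H := by
  have hxF : x ∈ fixedB D := ⟨hx, hfix⟩
  obtain ⟨c₁, hc₁⟩ := fixed_scalar_selfAdjoint h (x := x + star x) (add_mem hxF (star_mem hxF))
    (IsSelfAdjoint.add_star_self x)
  obtain ⟨c₂, hc₂⟩ := fixed_scalar_selfAdjoint h (D := D) (x := (I : ℂ) • (x - star x))
    ((fixedB D).smul_mem (sub_mem hxF (star_mem hxF)) I) (by
      rw [IsSelfAdjoint, star_smul, star_sub, star_star, RCLike.star_def, Complex.conj_I,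
        neg_smul, ← smul_neg, neg_sub])
  refine ⟨(1 / 2 : ℂ) * (c₁ - I * c₂), ?_⟩
  simp only at hc₁ hc₂ ⊢
  rw [← smul_smul, sub_smul, ← smul_smul I, hc₁, hc₂, smul_smul, I_mul_I, neg_one_smul]
  module

variable (D)

/-- Step 0 of the proof. -/
theorem bFacts (h : Homog S) : BFacts D where
  subset := fun _ hx => hx.1
  one := one_mem_B
  add := fun _ hx _ hy => add_mem_B hx hy
  smul := fun c _ hx => smul_mem_B c hx
  mul := fun _ hx _ hy => mul_mem_B D hx hy
  star_mem := fun _ hx => star_mem_B D hx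
  sot_closed := fun _ hx h' => sot_closed_B D hx h'
  σ_mem := fun t _ hx => σ_mem_B D t hx
  fixed := fun _ hx hfix => fixed_scalar h hx hfix

end P132
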