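import Vale.Agent.P132.Core.Limit
import Vale.Agent.P132.Core.Detect
import Vale.Agent.P132.Core.Reduce

/-!
# P132, Route B: the bicentralizer flow is ergodic

A flow-fixed unitary of `B` commutes with every smoothed self-adjoint element of `M`.
-/

noncomputable section

namespace P132

open Filter Topology Complex
open scoped InnerProductSpace ComplexConjugate

variable {H : Type*} [NormedAddCommGroup H] [InnerProductSpace ℂ H] [CompleteSpace H]
variable {S : Std H}

/-- The orbit of a smoothed self-adjoint element. -/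
def Core.Orbit.ofSmooth (D : Modular S) {b : H →L[ℂ] H} (hb : b ∈ S.M) (hsa : IsSelfAdjoint b)
    {m : ℝ} (hm : 0 < m) : Core.Orbit D where
  a := D.smooth m b
  mem := D.smooth_mem m hb
  sa := by rw [IsSelfAdjoint, D.star_smooth hm, hsa.star_eq]
  F z := D.twistExt m 0 z b
  F_diff := D.differentiable_twistExt hm 0 b
  F_mem z := D.twistExt_mem m 0 z hb
  F_real t := (D.σ_twist hm 0 t b).symm
  B := Real.exp (m ^ 2) * ‖b‖
  F_bound z hz := by
    rw [D.twistExt_zero_w]
    refine (D.norm_twist_le hm 0 z b).trans
      (mul_le_mul_of_nonneg_right (Real.exp_le_exp.2 ?_) (norm_nonneg b))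
    exact mul_le_of_le_one_right (sq_nonneg m) ((sq_abs z.im).symm.trans_le
      (pow_le_one₀ (abs_nonneg _) hz))

/-- Route B: a flow-fixed element of the bicentralizer is a scalar. -/
theorem routeB (D : Modular S) : GoalRouteB D := by
  refine routeB_of_comm D fun F u hu hiso hfix b hb hsa m hm => ?_
  set o := Core.Orbit.ofSmooth D hb hsa hm
  have h0 : o.comm u 0 = 0 := by
    refine Core.detect (o.continuous_comm u) (o.norm_comm_le u) fun g hg hr t t' => ?_
    obtain ⟨W, rfl, hχ⟩ := Core.Window.exists_of hg hr
    exact o.psi_comm_eq_zero W hu.1 (F.keyFix hu hfix) hiso hχ (t, t')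
  have h1 : (D.smooth m b * u - u * D.smooth m b) S.Ω = 0 := by
    simpa [Core.Orbit.comm, o, Core.Orbit.ofSmooth, mul_apply_eq_comp] using h0
  have hM := sub_mem (mul_mem (D.smooth_mem m hb) hu.1) (mul_mem hu.1 (D.smooth_mem m hb))
  exact (sub_eq_zero.1 (S.separating _ hM h1)).symm

end P132
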