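import Vale.Agent.P132.Sigma

/-!
# P132: elementary estimates, scaling isometries and tuples of isometries

`Scal ρ ε v`: `v` is an isometry of `M` with `v φ ≈ ρ φ v`.  `Tuple ρ ε s`: Cuntz isometries with
`φ ≈ ∑ ρ_k φ (s_k* · s_k)`; their matrix units carry matrices over `M` into `M`.
-/

noncomputable section

namespace P132

open Filter Topology Complex
open scoped InnerProductSpace ComplexConjugate

variable {H : Type*} [NormedAddCommGroup H] [InnerProductSpace ℂ H] [CompleteSpace H]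

namespace Std

variable {S : Std H}

lemma smul_mem_M (c : ℂ) {a : H →L[ℂ] H} (ha : a ∈ S.M) : c • a ∈ S.M :=
  S.M.toStarSubalgebra.smul_mem ha c

lemma φ_sub (a b : H →L[ℂ] H) : S.φ (a - b) = S.φ a - S.φ b := by
  simp [Std.φ]

lemma φ_add (a b : H →L[ℂ] H) : S.φ (a + b) = S.φ a + S.φ b := by
  simp [Std.φ]

lemma φ_smul (c : ℂ) (a : H →L[ℂ] H) : S.φ (c • a) = c * S.φ a := by
  simp [Std.φ]

lemma φ_sum {ι : Type*} (s : Finset ι) (a : ι → H →L[ℂ] H) :
    S.φ (∑ i ∈ s, a i) = ∑ i ∈ s, S.φ (a i) := by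
  simp [Std.φ]

lemma φ_star (a : H →L[ℂ] H) : S.φ (star a) = conj (S.φ a) := by
  rw [Std.φ, Std.φ, ContinuousLinearMap.star_eq_adjoint, ContinuousLinearMap.adjoint_inner_right,
    inner_conj_symm]

lemma φ_star_mul (a b : H →L[ℂ] H) : S.φ (star a * b) = ⟪a S.Ω, b S.Ω⟫_ℂ := by
  rw [Std.φ, mul_apply_eq_comp, ContinuousLinearMap.star_eq_adjoint,
    ContinuousLinearMap.adjoint_inner_right]

lemma φ_star_mul_self (a : H →L[ℂ] H) : S.φ (star a * a) = ((‖a S.Ω‖ ^ 2 : ℝ) : ℂ) := by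
  rw [φ_star_mul, inner_self_eq_norm_sq_to_K]; norm_cast

lemma norm_apply_Ω_le (a : H →L[ℂ] H) : ‖a S.Ω‖ ≤ ‖a‖ := by
  simpa [S.norm_Ω] using a.le_opNorm S.Ω

lemma norm_φ_le (a : H →L[ℂ] H) : ‖S.φ a‖ ≤ ‖a‖ :=
  (norm_inner_le_norm _ _).trans (by rw [S.norm_Ω, one_mul]; exact norm_apply_Ω_le a)

lemma φ_one : S.φ 1 = 1 := by
  simp [Std.φ, S.norm_Ω]

lemma eq_of_Ω {a b : H →L[ℂ] H} (ha : a ∈ S.M) (hb : b ∈ S.M) (h : a S.Ω = b S.Ω) : a = b :=
  sub_eq_zero.1 (S.separating _ (sub_mem ha hb) (by simp [h]))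

/-- nearly centralizing elements act boundedly on the right, up to the error -/
lemma norm_mul_Ω_sq_le {η C : ℝ} {a w : H →L[ℂ] H} (ha : a ∈ S.M) (hw : w ∈ S.M)
    (hη : 0 ≤ η) (hc : S.NearlyCentral η w) (hwC : ‖w‖ ≤ C) :
    ‖(a * w) S.Ω‖ ^ 2 ≤ C ^ 2 * ‖a‖ * ‖a S.Ω‖ + η * C * ‖a‖ ^ 2 := by
  have hC : 0 ≤ C := (norm_nonneg _).trans hwC
  have h := hc (star w * (star a * a)) (mul_mem (star_mem hw) (mul_mem (star_mem ha) ha))
  have e1 : S.φ (star w * (star a * a) * w) = ((‖(a * w) S.Ω‖ ^ 2 : ℝ) : ℂ) := by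
    rw [← φ_star_mul_self, star_mul]
    simp only [mul_assoc]
  have e2 : ‖S.φ (w * (star w * (star a * a)))‖ ≤ C ^ 2 * ‖a‖ * ‖a S.Ω‖ := by
    have e3 : w * (star w * (star a * a)) = star (w * star w) * (star a * a) := by
      rw [star_mul, star_star, mul_assoc]
    rw [e3, φ_star_mul]
    refine (norm_inner_le_norm _ _).trans ?_
    have h1 : ‖(w * star w) S.Ω‖ ≤ C ^ 2 := by
      refine (norm_apply_Ω_le _).trans ((norm_mul_le _ _).trans ?_)
      rw [norm_star, sq]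
      exact mul_le_mul hwC hwC (norm_nonneg _) hC
    have h2 : ‖(star a * a) S.Ω‖ ≤ ‖a‖ * ‖a S.Ω‖ := by
      rw [mul_apply_eq_comp]
      refine ((star a).le_opNorm _).trans ?_
      rw [norm_star]
    calc ‖(w * star w) S.Ω‖ * ‖(star a * a) S.Ω‖ ≤ C ^ 2 * (‖a‖ * ‖a S.Ω‖) :=
          mul_le_mul h1 h2 (norm_nonneg _) (sq_nonneg C)
      _ = C ^ 2 * ‖a‖ * ‖a S.Ω‖ := by ring
  have e4 : ‖star w * (star a * a)‖ ≤ C * ‖a‖ ^ 2 := by
    refine (norm_mul_le _ _).trans ?_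
    rw [norm_star, CStarRing.norm_star_mul_self, ← sq]
    exact mul_le_mul_of_nonneg_right hwC (sq_nonneg _)
  have h3 := norm_le_insert' (S.φ (star w * (star a * a) * w)) (S.φ (w * (star w * (star a * a))))
  rw [e1, Complex.norm_real, Real.norm_of_nonneg (sq_nonneg _)] at h3
  rw [e1] at h
  have h5 := mul_le_mul_of_nonneg_left e4 hη
  linarith

end Std

namespace Modular

variable {S : Std H} (D : Modular S)
include D

lemma dense_J_orbit : Dense {v : H | ∃ z ∈ S.M, D.J (z S.Ω) = v} := by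
  have hd : Dense (D.J '' {v : H | ∃ z ∈ S.M, z S.Ω = v}) :=
    (D.J.surjective.denseRange).dense_image D.J.continuous S.cyclic
  refine hd.mono ?_
  rintro _ ⟨_, ⟨z, hz, rfl⟩, rfl⟩
  exact ⟨z, hz, rfl⟩

lemma apply_J {a z : H →L[ℂ] H} (ha : a ∈ S.M) (hz : z ∈ S.M) :
    a (D.J (z S.Ω)) = D.J (z (D.J (a S.Ω))) := by
  have h := D.J_commutant a ha z hz S.Ω
  rwa [D.J_Ω] at h

/-- small at `Ω` implies small at every vector, uniformly on bounded sets -/
lemma small_apply (ξ : H) (C : ℝ) {ε : ℝ} (hε : 0 < ε) :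
    ∃ δ > 0, ∀ a ∈ S.M, ‖a‖ ≤ C → ‖a S.Ω‖ ≤ δ → ‖a ξ‖ ≤ ε := by
  obtain ⟨v, ⟨z, hz, rfl⟩, hv⟩ :=
    Metric.mem_closure_iff.1 (D.dense_J_orbit ξ) (ε / (2 * (|C| + 1))) (by positivity)
  refine ⟨ε / (2 * (‖z‖ + 1)), by positivity, fun a ha haC haΩ => ?_⟩
  have h1 : ‖a (ξ - D.J (z S.Ω))‖ ≤ ε / 2 := by
    refine (a.le_opNorm _).trans ?_
    rw [dist_eq_norm] at hv
    refine (mul_le_mul (haC.trans ((le_abs_self C).trans (by linarith : |C| ≤ |C| + 1))) hv.le
      (norm_nonneg _) (by positivity)).trans (le_of_eq ?_)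
    field_simp
  have h2 : ‖a (D.J (z S.Ω))‖ ≤ ε / 2 := by
    rw [D.apply_J ha hz, LinearIsometryEquiv.norm_map]
    refine (z.le_opNorm _).trans ?_
    rw [LinearIsometryEquiv.norm_map]
    refine (mul_le_mul (by linarith : ‖z‖ ≤ ‖z‖ + 1) haΩ (norm_nonneg _) (by positivity)).trans
      (le_of_eq ?_)
    field_simp
  have h3 := norm_add_le (a (ξ - D.J (z S.Ω))) (a (D.J (z S.Ω)))
  rw [← map_add, sub_add_cancel] at h3
  linarith

lemma tendsto_apply {a : ℕ → H →L[ℂ] H} {C : ℝ} (ha : ∀ n, a n ∈ S.M) (hC : ∀ n, ‖a n‖ ≤ C)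
    (h : Tendsto (fun n => ‖a n S.Ω‖) atTop (𝓝 0)) (ξ : H) :
    Tendsto (fun n => a n ξ) atTop (𝓝 0) := by
  rw [NormedAddGroup.tendsto_nhds_zero]
  intro ε hε
  obtain ⟨δ, hδ, hd⟩ := D.small_apply ξ C (half_pos hε)
  filter_upwards [h.eventually (ge_mem_nhds hδ)] with n hn
  exact (hd _ (ha n) (hC n) hn).trans_lt (half_lt_self hε)

/-- a bounded sequence of `M` which is Cauchy at `Ω` converges strongly in `M` -/
lemma exists_limit {a : ℕ → H →L[ℂ] H} {C : ℝ} (ha : ∀ n, a n ∈ S.M) (hC : ∀ n, ‖a n‖ ≤ C)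
    (h : CauchySeq fun n => a n S.Ω) :
    ∃ b ∈ S.M, ‖b‖ ≤ C ∧ ∀ ξ, Tendsto (fun n => a n ξ) atTop (𝓝 (b ξ)) := by
  have hC0 : 0 ≤ C := (norm_nonneg _).trans (hC 0)
  have hcs : ∀ ξ, CauchySeq fun n => a n ξ := by
    intro ξ
    rw [Metric.cauchySeq_iff]
    intro ε hε
    obtain ⟨δ, hδ, hd⟩ := D.small_apply ξ (2 * C) (half_pos hε)
    obtain ⟨N, hN⟩ := Metric.cauchySeq_iff.1 h δ hδ
    refine ⟨N, fun m hm n hn => ?_⟩
    rw [dist_eq_norm, ← sub_apply]
    refine (hd _ (sub_mem (ha m) (ha n)) ((norm_sub_le _ _).trans (by linarith [hC m, hC n]))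
      ?_).trans_lt (half_lt_self hε)
    rw [sub_apply, ← dist_eq_norm]
    exact (hN m hm n hn).le
  choose g hg using fun ξ => cauchySeq_tendsto_of_complete (hcs ξ)
  let L : H →ₗ[ℂ] H :=
    { toFun := g
      map_add' := fun v w => tendsto_nhds_unique (hg (v + w)) (by simpa using (hg v).add (hg w))
      map_smul' := fun c v =>
        tendsto_nhds_unique (hg (c • v)) (by simpa using (hg v).const_smul c) }
  have hLb : ∀ v, ‖L v‖ ≤ C * ‖v‖ := fun v =>
    le_of_tendsto (hg v).norm (Eventually.of_forall fun n =>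
      ((a n).le_opNorm v).trans (mul_le_mul_of_nonneg_right (hC n) (norm_nonneg _)))
  refine ⟨L.mkContinuous C hLb, ?_, L.mkContinuous_norm_le hC0 hLb, hg⟩
  rw [← SetLike.mem_coe, ← S.M.centralizer_centralizer]
  intro y hy
  refine ContinuousLinearMap.ext fun v => ?_
  refine tendsto_nhds_unique ((y.continuous.tendsto _).comp (hg v)) ?_
  exact (hg (y v)).congr fun n => congrArg (fun f : H →L[ℂ] H => f v) (hy _ (ha n))

omit D in
/-- uniform form of membership in the bicentralizer -/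
lemma B_uniform {x : H →L[ℂ] H} (hx : x ∈ S.B) (C : ℝ) {ε : ℝ} (hε : 0 < ε) :
    ∃ η > 0, ∀ w ∈ S.M, ‖w‖ ≤ C → S.NearlyCentral η w → ‖(x * w - w * x) S.Ω‖ ≤ ε := by
  by_contra hcon
  push Not at hcon
  choose w hwM hwC hwc hbad using fun n : ℕ => hcon (1 / (n + 1)) (by positivity)
  have hcent : AsympCentralizes S.M S.φ w := by
    refine ⟨hwM, ⟨C, hwC⟩, fun δ hδ => ?_⟩
    obtain ⟨N, hN⟩ := exists_nat_one_div_lt hδ
    refine ⟨N, fun n hn y hy => (hwc n y hy).trans ?_⟩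
    refine mul_le_mul_of_nonneg_right (le_trans ?_ hN.le) (norm_nonneg _)
    exact one_div_le_one_div_of_le (by positivity) (by exact_mod_cast Nat.succ_le_succ hn)
  have h := (hx.2 w hcent S.Ω).norm
  rw [norm_zero] at h
  obtain ⟨N, hN⟩ := eventually_atTop.1 (h.eventually (gt_mem_nhds hε))
  exact absurd (hN N le_rfl) (not_lt.2 (hbad N).le)

lemma mem_B {x : H →L[ℂ] H} (hx : x ∈ S.M)
    (h : ∀ C : ℝ, ∀ ε > 0, ∃ η > 0, ∀ w ∈ S.M, ‖w‖ ≤ C → S.NearlyCentral η w →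
      ‖(x * w - w * x) S.Ω‖ ≤ ε) : x ∈ S.B := by
  refine ⟨hx, fun w hw ξ => ?_⟩
  obtain ⟨hwM, ⟨C, hC⟩, hcen⟩ := hw
  refine D.tendsto_apply (a := fun n => x * w n - w n * x) (C := 2 * ‖x‖ * C)
    (fun n => sub_mem (mul_mem hx (hwM n)) (mul_mem (hwM n) hx)) (fun n => ?_) ?_ ξ
  · refine (norm_sub_le _ _).trans ?_
    have h1 := (norm_mul_le x (w n)).trans (mul_le_mul_of_nonneg_left (hC n) (norm_nonneg x))
    have h2 := (norm_mul_le (w n) x).trans (mul_le_mul_of_nonneg_right (hC n) (norm_nonneg x))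
    linarith
  · rw [NormedAddGroup.tendsto_nhds_zero]
    intro ε hε
    obtain ⟨η, hη, hd⟩ := h C (ε / 2) (half_pos hε)
    obtain ⟨N, hN⟩ := hcen η hη
    filter_upwards [eventually_ge_atTop N] with n hn
    rw [norm_norm]
    exact (hd _ (hwM n) (hC n) (hN n hn)).trans_lt (half_lt_self hε)

end Modular

/-! ### Scaling isometries -/

/-- `v` is an isometry of `M` with `v φ ≈ ρ φ v`. -/
structure Scal (S : Std H) (ρ ε : ℝ) (v : H →L[ℂ] H) : Prop where
  mem : v ∈ S.M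
  iso : star v * v = 1
  approx : ∀ y ∈ S.M, ‖S.φ (y * star v) - ρ * S.φ (star v * y)‖ ≤ ε * ‖y‖

lemma norm_le_one_of_iso {v : H →L[ℂ] H} (h : star v * v = 1) : ‖v‖ ≤ 1 := by
  have h1 := CStarRing.norm_star_mul_self (x := v)
  rw [h] at h1
  have h2 : ‖(1 : H →L[ℂ] H)‖ ≤ 1 := ContinuousLinearMap.norm_id_le
  nlinarith [norm_nonneg v]

namespace Scal

variable {S : Std H} {ρ ε ρ' ε' : ℝ} {v v' : H →L[ℂ] H}

lemma mono (h : Scal S ρ ε v) (he : ε ≤ ε') : Scal S ρ ε' v :=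
  ⟨h.mem, h.iso, fun y hy => (h.approx y hy).trans (mul_le_mul_of_nonneg_right he (norm_nonneg _))⟩

lemma norm_le (h : Scal S ρ ε v) : ‖v‖ ≤ 1 := norm_le_one_of_iso h.iso

lemma norm_star_le (h : Scal S ρ ε v) : ‖star v‖ ≤ 1 := (norm_star v).le.trans h.norm_le

lemma norm_apply (h : Scal S ρ ε v) (ξ : H) : ‖v ξ‖ = ‖ξ‖ := by
  have h1 : ⟪v ξ, v ξ⟫_ℂ = ⟪ξ, ξ⟫_ℂ := by
    rw [← ContinuousLinearMap.adjoint_inner_right, ← ContinuousLinearMap.star_eq_adjoint,
      ← mul_apply_eq_comp, h.iso]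
    rfl
  rw [inner_self_eq_norm_sq_to_K, inner_self_eq_norm_sq_to_K] at h1
  norm_cast at h1
  exact (sq_eq_sq₀ (norm_nonneg _) (norm_nonneg _)).1 h1

lemma norm_star_apply_le (h : Scal S ρ ε v) (ξ : H) : ‖star v ξ‖ ≤ ‖ξ‖ :=
  ((star v).le_opNorm ξ).trans (mul_le_of_le_one_left (norm_nonneg _) h.norm_star_le)

lemma approx' (h : Scal S ρ ε v) {y : H →L[ℂ] H} (hy : y ∈ S.M) :
    ‖S.φ (v * y) - ρ * S.φ (y * v)‖ ≤ ε * ‖y‖ := by
  have h1 := h.approx (star y) (star_mem hy)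
  rw [← star_mul, ← star_mul, Std.φ_star, Std.φ_star, norm_star] at h1
  have e : S.φ (v * y) - ρ * S.φ (y * v) =
      conj (conj (S.φ (v * y)) - ρ * conj (S.φ (y * v))) := by simp
  rw [e, RCLike.norm_conj]
  exact h1

/-- right multiplication by `v*` is bounded below -/
lemma le_norm_mul_star (h : Scal S ρ ε v) (hε : 0 ≤ ε) {a : H →L[ℂ] H} (ha : a ∈ S.M) :
    ρ * ‖a S.Ω‖ ^ 2 ≤ ‖(a * star v) S.Ω‖ ^ 2 + ε * ‖a‖ ^ 2 := by
  have h1 := h.approx' (y := star a * a * star v)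
    (mul_mem (mul_mem (star_mem ha) ha) (star_mem h.mem))
  rw [show v * (star a * a * star v) = star (a * star v) * (a * star v) by
      rw [star_mul, star_star]; simp only [mul_assoc],
    mul_assoc (star a * a), h.iso, mul_one, Std.φ_star_mul_self, Std.φ_star_mul_self,
    ← Complex.ofReal_mul, ← Complex.ofReal_sub, Complex.norm_real, Real.norm_eq_abs] at h1
  have h2 : ‖star a * a * star v‖ ≤ ‖a‖ ^ 2 := by
    refine (norm_mul_le _ _).trans ?_
    rw [CStarRing.norm_star_mul_self, ← sq]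
    exact mul_le_of_le_one_right (sq_nonneg _) h.norm_star_le
  have h3 := mul_le_mul_of_nonneg_left h2 hε
  linarith [(abs_le.1 h1).1]

/-- right multiplication by `v` is bounded, up to the error -/
lemma norm_mul_le (h : Scal S ρ ε v) (hε : 0 ≤ ε) {a : H →L[ℂ] H} (ha : a ∈ S.M) :
    ρ * ‖(a * v) S.Ω‖ ^ 2 ≤ ‖a‖ * ‖a S.Ω‖ + ε * ‖a‖ ^ 2 := by
  have hy : star v * (star a * a) ∈ S.M := mul_mem (star_mem h.mem) (mul_mem (star_mem ha) ha)
  have h1 := h.approx' hy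
  have e1 : S.φ (star v * (star a * a) * v) = ((‖(a * v) S.Ω‖ ^ 2 : ℝ) : ℂ) := by
    rw [← Std.φ_star_mul_self, star_mul]; simp only [mul_assoc]
  rw [e1] at h1
  have e2 : ‖S.φ (v * (star v * (star a * a)))‖ ≤ ‖a‖ * ‖a S.Ω‖ := by
    have e3 : v * (star v * (star a * a)) = star (v * star v) * (star a * a) := by
      rw [star_mul, star_star, mul_assoc]
    rw [e3, Std.φ_star_mul]
    refine (norm_inner_le_norm _ _).trans ?_
    rw [← one_mul (‖a‖ * ‖a S.Ω‖)]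
    refine mul_le_mul ?_ ?_ (norm_nonneg _) zero_le_one
    · rw [mul_apply_eq_comp, h.norm_apply, ← S.norm_Ω]
      exact h.norm_star_apply_le _
    · rw [mul_apply_eq_comp]
      exact ((star a).le_opNorm _).trans (by rw [norm_star])
  have e4 : ‖star v * (star a * a)‖ ≤ ‖a‖ ^ 2 := by
    refine (_root_.norm_mul_le _ _).trans ?_
    rw [CStarRing.norm_star_mul_self, ← sq]
    exact mul_le_of_le_one_left (sq_nonneg _) h.norm_star_le
  have h4 := mul_le_mul_of_nonneg_left e4 hε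
  have h5 : ‖(ρ : ℂ) * ((‖(a * v) S.Ω‖ ^ 2 : ℝ) : ℂ)‖ ≤
      ‖S.φ (v * (star v * (star a * a)))‖ + ε * ‖star v * (star a * a)‖ := by
    refine le_trans ?_ (add_le_add le_rfl h1)
    exact (norm_le_insert _ _)
  rw [← Complex.ofReal_mul, Complex.norm_real] at h5
  linarith [Real.le_norm_self (ρ * ‖(a * v) S.Ω‖ ^ 2)]

/-- `v' w v*` is nearly centralizing when `w` is -/
lemma nearlyCentral_conj (h : Scal S ρ ε v) (h' : Scal S ρ ε v') {η C : ℝ} {w : H →L[ℂ] H}
    (hρ : |ρ| ≤ 1) (hη : 0 ≤ η) (hε : 0 ≤ ε) (hw : w ∈ S.M) (hwC : ‖w‖ ≤ C)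
    (hc : S.NearlyCentral η w) :
    S.NearlyCentral (2 * ε * C + η) (v' * w * star v) := by
  intro y hy
  have hC : 0 ≤ C := (norm_nonneg _).trans hwC
  have hyn := norm_nonneg y
  have a1 := h.approx (y * v' * w) (mul_mem (mul_mem hy h'.mem) hw)
  have a2 := hc (star v * y * v') (mul_mem (mul_mem (star_mem h.mem) hy) h'.mem)
  have a3 := h'.approx' (y := w * star v * y) (mul_mem (mul_mem hw (star_mem h.mem)) hy)
  have b1 : ‖y * v' * w‖ ≤ C * ‖y‖ := by
    refine (_root_.norm_mul_le _ _).trans ?_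
    rw [mul_comm C]
    exact mul_le_mul ((_root_.norm_mul_le _ _).trans (mul_le_of_le_one_right hyn h'.norm_le)) hwC
      (norm_nonneg _) hyn
  have b2 : ‖star v * y * v'‖ ≤ ‖y‖ :=
    ((_root_.norm_mul_le _ _).trans (mul_le_mul_of_nonneg_right (_root_.norm_mul_le _ _)
      (norm_nonneg _))).trans ((mul_le_of_le_one_right (by positivity) h'.norm_le).trans
      (mul_le_of_le_one_left hyn h.norm_star_le))
  have b3 : ‖w * star v * y‖ ≤ C * ‖y‖ :=
    (_root_.norm_mul_le _ _).trans (mul_le_mul_of_nonneg_right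
      (((_root_.norm_mul_le _ _).trans (mul_le_of_le_one_right (norm_nonneg _) h.norm_star_le)).trans
        hwC) hyn)
  have e : S.φ (y * (v' * w * star v)) - S.φ (v' * w * star v * y) =
      (S.φ (y * v' * w * star v) - ρ * S.φ (star v * (y * v' * w))) +
      ρ * (S.φ (star v * y * v' * w) - S.φ (w * (star v * y * v'))) +
      -(S.φ (v' * (w * star v * y)) - ρ * S.φ (w * star v * y * v')) := by
    simp only [mul_assoc]; ring
  rw [e]
  refine (norm_add₃_le ..).trans ?_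
  rw [norm_neg, norm_mul, Complex.norm_real, Real.norm_eq_abs]
  have c1 := a1.trans (mul_le_mul_of_nonneg_left b1 hε)
  have c2 := (mul_le_mul_of_nonneg_left (a2.trans (mul_le_mul_of_nonneg_left b2 hη))
    (abs_nonneg ρ)).trans (mul_le_of_le_one_left (by positivity) hρ)
  have c3 := a3.trans (mul_le_mul_of_nonneg_left b3 hε)
  linarith

lemma comp (h : Scal S ρ ε v) (h' : Scal S ρ' ε' v') (hρ' : |ρ'| ≤ 1) (hε : 0 ≤ ε)
    (hε' : 0 ≤ ε') : Scal S (ρ' * ρ) (ε' + ε) (v' * v) := by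
  refine ⟨mul_mem h'.mem h.mem, ?_, fun y hy => ?_⟩
  · rw [star_mul, mul_assoc, ← mul_assoc (star v'), h'.iso, one_mul, h.iso]
  · have a1 := h'.approx (y * star v) (mul_mem hy (star_mem h.mem))
    have a2 := h.approx (star v' * y) (mul_mem (star_mem h'.mem) hy)
    have b1 : ‖y * star v‖ ≤ ‖y‖ :=
      (_root_.norm_mul_le _ _).trans (mul_le_of_le_one_right (norm_nonneg _) h.norm_star_le)
    have b2 : ‖star v' * y‖ ≤ ‖y‖ :=
      (_root_.norm_mul_le _ _).trans (mul_le_of_le_one_left (norm_nonneg _) h'.norm_star_le)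
    have e : S.φ (y * star (v' * v)) - (ρ' * ρ : ℝ) * S.φ (star (v' * v) * y) =
        (S.φ (y * star v * star v') - ρ' * S.φ (star v' * (y * star v))) +
        ρ' * (S.φ (star v' * y * star v) - ρ * S.φ (star v * (star v' * y))) := by
      push_cast
      rw [star_mul]; simp only [mul_assoc]; ring
    rw [e]
    refine (norm_add_le _ _).trans ?_
    rw [norm_mul, Complex.norm_real, Real.norm_eq_abs]
    have c1 := a1.trans (mul_le_mul_of_nonneg_left b1 hε')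
    have c2 := (mul_le_mul_of_nonneg_left (a2.trans (mul_le_mul_of_nonneg_left b2 hε))
      (abs_nonneg ρ')).trans (mul_le_of_le_one_left (by positivity) hρ')
    linarith

lemma one : Scal S 1 0 (1 : H →L[ℂ] H) :=
  ⟨one_mem _, by simp, fun y _ => by simp⟩

lemma σ (h : Scal S ρ ε v) (D : Modular S) (t : ℝ) : Scal S ρ ε (D.σ t v) := by
  refine ⟨D.σ_mem t v h.mem, by rw [← D.σ_star, ← D.σ_mul, h.iso, D.σ_one], fun y hy => ?_⟩
  have h1 := h.approx (D.σ (-t) y) (D.σ_mem (-t) y hy)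
  have e1 : S.φ (D.σ (-t) y * star v) = S.φ (y * star (D.σ t v)) := by
    rw [← D.φ_σ t, D.σ_mul, D.σ_σ, add_neg_cancel, D.σ_zero, D.σ_star]
  have e2 : S.φ (star v * D.σ (-t) y) = S.φ (star (D.σ t v) * y) := by
    rw [← D.φ_σ t, D.σ_mul, D.σ_σ, add_neg_cancel, D.σ_zero, D.σ_star]
  rwa [e1, e2, D.norm_σ] at h1

end Scal

/-! ### Tuples of isometries -/

/-- Cuntz isometries `s` with `φ ≈ ∑ ρ_k φ (s_k* · s_k)`. -/
structure Tuple (S : Std H) {n : ℕ} (ρ : Fin n → ℝ) (ε : ℝ) (s : Fin n → H →L[ℂ] H) : Prop where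
  mem : ∀ k, s k ∈ S.M
  iso : ∀ k l, star (s k) * s l = if k = l then 1 else 0
  total : ∑ k, s k * star (s k) = 1
  approx : ∀ y ∈ S.M, ‖S.φ y - ∑ j, (ρ j : ℂ) * S.φ (star (s j) * y * s j)‖ ≤ ε * ‖y‖

lemma exists_cuntz {S : Std H} (h : Homog S) : ∀ n : ℕ, ∃ t : Fin (n + 1) → H →L[ℂ] H,
    (∀ k, t k ∈ S.M) ∧ (∀ k l, star (t k) * t l = if k = l then 1 else 0) ∧
      ∑ k, t k * star (t k) = 1
  | 0 => ⟨fun _ => 1, fun _ => one_mem _, fun k l => by simp [show k = l by omega], by simp⟩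
  | n + 1 => by
    obtain ⟨t, htM, htI, htT⟩ := exists_cuntz h n
    obtain ⟨p, hpM, hp, hp0, hp1⟩ := h.nontrivial
    obtain ⟨a, haM, ha1, ha2⟩ := h.equiv_one p hpM hp hp0
    obtain ⟨b, hbM, hb1, hb2⟩ := h.equiv_one (1 - p) (sub_mem (one_mem _) hpM) hp.one_sub
      (sub_ne_zero.2 (Ne.symm hp1))
    have hpp : p * p = p := hp.isIdempotentElem.eq
    have hab : star a * b = 0 := by
      have e1 : star a = star a * p := by rw [← ha2, ← mul_assoc, ha1, one_mul]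
      have e2 : b = (1 - p) * b := by rw [← hb2, mul_assoc, hb1, mul_one]
      rw [e1, e2, mul_assoc, ← mul_assoc p, mul_sub, mul_one, hpp, sub_self, zero_mul, mul_zero]
    have hba : star b * a = 0 := by rw [← star_star a, ← star_mul, hab, star_zero]
    refine ⟨Fin.cons b fun k => a * t k, Fin.cases hbM fun k => mul_mem haM (htM k), ?_, ?_⟩
    · intro k l
      refine Fin.cases ?_ (fun k => ?_) k <;> refine Fin.cases ?_ (fun l => ?_) l
      · simp [hb1]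
      · simp [← mul_assoc, hba, (Fin.succ_ne_zero l).symm]
      · simp [star_mul, mul_assoc, hab, Fin.succ_ne_zero k]
      · simp only [Fin.cons_succ, star_mul, mul_assoc, Fin.succ_inj]
        rw [← mul_assoc (star a), ha1, one_mul, htI]
    · rw [Fin.sum_univ_succ]
      simp only [Fin.cons_zero, Fin.cons_succ, star_mul, mul_assoc]
      simp only [← mul_assoc (t _), ← Finset.mul_sum, ← Finset.sum_mul, htT, one_mul]
      rw [hb2, ha2]
      abel

lemma exists_tuple {S : Std H} (h : Homog S) {n : ℕ} {ρ : Fin n → ℝ} (hρ : ∀ k, 0 ≤ ρ k)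
    (hs : ∑ k, ρ k = 1) {ε : ℝ} (hε : 0 < ε) : ∃ s, Tuple S ρ ε s := by
  obtain ⟨m, rfl⟩ : ∃ m, n = m + 1 := by
    rcases n with _ | m
    · simp at hs
    · exact ⟨m, rfl⟩
  obtain ⟨t, htM, htI, htT⟩ := exists_cuntz h m
  have hiso : ∀ k ξ, ‖t k ξ‖ = ‖ξ‖ := fun k ξ => by
    have h1 : ⟪t k ξ, t k ξ⟫_ℂ = ⟪ξ, ξ⟫_ℂ := by
      rw [← ContinuousLinearMap.adjoint_inner_right, ← ContinuousLinearMap.star_eq_adjoint,
        ← mul_apply_eq_comp, htI, if_pos rfl]
      rfl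
    rw [inner_self_eq_norm_sq_to_K, inner_self_eq_norm_sq_to_K] at h1
    norm_cast at h1
    exact (sq_eq_sq₀ (norm_nonneg _) (norm_nonneg _)).1 h1
  obtain ⟨u, huM, hu1, hu2, hu⟩ := h.homog 1 (m + 1) (fun _ => S.Ω)
    (fun k => ((√(ρ k) : ℝ) : ℂ) • t k S.Ω) (by simp [S.norm_Ω]) (by
      simp only [norm_smul, Complex.norm_real, Real.norm_eq_abs, abs_of_nonneg (Real.sqrt_nonneg _),
        hiso, S.norm_Ω, mul_one, Real.sq_sqrt (hρ _)]
      exact hs) ε hε
  refine ⟨fun k => star u * t k, ⟨fun k => mul_mem (star_mem huM) (htM k), fun k l => ?_, ?_,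
    fun y hy => ?_⟩⟩
  · rw [star_mul, star_star, mul_assoc, ← mul_assoc u, hu2, one_mul, htI]
  · simp only [star_mul, star_star, mul_assoc]
    simp only [← mul_assoc (t _), ← Finset.mul_sum, ← Finset.sum_mul, htT, one_mul]
    exact hu1
  · have h1 := hu (u * y * star u) (mul_mem (mul_mem huM hy) (star_mem huM))
    have e1 : star u * (u * y * star u) * u = y := by
      simp only [mul_assoc]
      rw [hu1, mul_one, ← mul_assoc, hu1, one_mul]
    rw [Fin.sum_univ_one, e1] at h1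
    have e2 : ∀ k, ⟪((√(ρ k) : ℝ) : ℂ) • t k S.Ω, (u * y * star u) (((√(ρ k) : ℝ) : ℂ) • t k S.Ω)⟫_ℂ
        = (ρ k : ℂ) * S.φ (star (star u * t k) * y * (star u * t k)) := fun k => by
      rw [map_smul, inner_smul_left, inner_smul_right, Complex.conj_ofReal, ← mul_assoc,
        ← Complex.ofReal_mul, Real.mul_self_sqrt (hρ k), star_mul, star_star]
      congr 1
      simp only [Std.φ, mul_apply_eq_comp, mul_assoc]
      rw [ContinuousLinearMap.star_eq_adjoint (t k), ContinuousLinearMap.adjoint_inner_right]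
    simp only [e2] at h1
    refine h1.trans (mul_le_mul_of_nonneg_left ?_ hε.le)
    calc ‖u * y * star u‖ ≤ ‖u‖ * ‖y‖ * ‖star u‖ :=
          (norm_mul_le _ _).trans (mul_le_mul_of_nonneg_right (norm_mul_le _ _) (norm_nonneg _))
      _ ≤ 1 * ‖y‖ * 1 := by
          have := norm_le_one_of_iso hu1
          gcongr
          exact (norm_star u).le.trans this
      _ = ‖y‖ := by ring

namespace Tuple

variable {S : Std H} {n : ℕ} {ρ : Fin n → ℝ} {ε : ℝ} {s : Fin n → H →L[ℂ] H}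

lemma norm_le (h : Tuple S ρ ε s) (k : Fin n) : ‖s k‖ ≤ 1 :=
  norm_le_one_of_iso ((h.iso k k).trans (if_pos rfl))

lemma scal (h : Tuple S ρ ε s) (hε : 0 ≤ ε) (k : Fin n) : Scal S (ρ k) ε (s k) := by
  refine ⟨h.mem k, (h.iso k k).trans (if_pos rfl), fun y hy => ?_⟩
  have h1 := h.approx (y * star (s k)) (mul_mem hy (star_mem (h.mem k)))
  rw [Finset.sum_eq_single k (fun j _ hj => by
      rw [mul_assoc, mul_assoc, h.iso k j, if_neg (Ne.symm hj), mul_zero, mul_zero]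
      simp [Std.φ]) (fun hk => absurd (Finset.mem_univ k) hk),
    mul_assoc, mul_assoc, h.iso k k, if_pos rfl, mul_one] at h1
  refine h1.trans (mul_le_mul_of_nonneg_left ?_ hε)
  exact (norm_mul_le _ _).trans
    (mul_le_of_le_one_right (norm_nonneg _) ((norm_star _).le.trans (h.norm_le k)))

/-- the `Ω`-norm of `a`, read off from `a s_j` -/
lemma norm_sq_approx (h : Tuple S ρ ε s) {a : H →L[ℂ] H} (ha : a ∈ S.M) :
    |‖a S.Ω‖ ^ 2 - ∑ j, ρ j * ‖(a * s j) S.Ω‖ ^ 2| ≤ ε * ‖a‖ ^ 2 := by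
  have h1 := h.approx (star a * a) (mul_mem (star_mem ha) ha)
  have e : ∀ j, star (s j) * (star a * a) * s j = star (a * s j) * (a * s j) := fun j => by
    rw [star_mul]; simp only [mul_assoc]
  simp only [e, Std.φ_star_mul_self, CStarRing.norm_star_mul_self, ← Complex.ofReal_mul,
    ← Complex.ofReal_sum, ← Complex.ofReal_sub, Complex.norm_real, Real.norm_eq_abs, ← sq] at h1
  exact h1

lemma norm_sum_sq (h : Tuple S ρ ε s) (ξ : H) : ∑ k, ‖star (s k) ξ‖ ^ 2 = ‖ξ‖ ^ 2 := by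
  have e : ⟪ξ, (∑ k, s k * star (s k)) ξ⟫_ℂ = ⟪ξ, ξ⟫_ℂ := by rw [h.total]; rfl
  simp only [sum_apply, inner_sum, mul_apply_eq_comp] at e
  simp only [← ContinuousLinearMap.adjoint_inner_left, ← ContinuousLinearMap.star_eq_adjoint,
    inner_self_eq_norm_sq_to_K] at e
  norm_cast at e

lemma norm_sum_apply (h : Tuple S ρ ε s) (v : Fin n → H) :
    ‖∑ k, s k (v k)‖ ^ 2 = ∑ k, ‖v k‖ ^ 2 := by
  rw [← h.norm_sum_sq (∑ k, s k (v k))]
  refine Finset.sum_congr rfl fun j _ => ?_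
  rw [_root_.map_sum, Finset.sum_eq_single j (fun k _ hk => by
      rw [← mul_apply_eq_comp, h.iso j k, if_neg (Ne.symm hk), zero_apply])
    (fun hj => absurd (Finset.mem_univ j) hj), ← mul_apply_eq_comp, h.iso j j,
    if_pos rfl]
  rfl

end Tuple

/-- The element of `M` carried by the matrix `e` through the isometries `s`. -/
def carry {n : ℕ} (s : Fin n → H →L[ℂ] H) (e : Fin n → Fin n → H →L[ℂ] H) : H →L[ℂ] H :=
  ∑ k, ∑ l, s k * e k l * star (s l)

namespace Tuple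

variable {S : Std H} {n : ℕ} {ρ : Fin n → ℝ} {ε : ℝ} {s : Fin n → H →L[ℂ] H}
  {e : Fin n → Fin n → H →L[ℂ] H}

lemma carry_mem (h : Tuple S ρ ε s) (he : ∀ k l, e k l ∈ S.M) : carry s e ∈ S.M :=
  sum_mem fun k _ => sum_mem fun l _ => mul_mem (mul_mem (h.mem k) (he k l)) (star_mem (h.mem l))

lemma star_mul_carry (h : Tuple S ρ ε s) (k : Fin n) :
    star (s k) * carry s e = ∑ l, e k l * star (s l) := by
  simp only [carry, Finset.mul_sum, ← mul_assoc, h.iso k, ite_mul, one_mul, zero_mul]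
  rw [Finset.sum_comm]
  simp

lemma carry_mul (h : Tuple S ρ ε s) (l : Fin n) :
    carry s e * s l = ∑ k, s k * e k l := by
  simp only [carry, Finset.sum_mul, mul_assoc, h.iso _ l, mul_ite, mul_one, mul_zero]
  simp

lemma star_mul_carry_mul (h : Tuple S ρ ε s) (k l : Fin n) :
    star (s k) * carry s e * s l = e k l := by
  rw [h.star_mul_carry, Finset.sum_mul]
  simp only [mul_assoc, h.iso _ l, mul_ite, mul_one, mul_zero]
  simp

lemma norm_carry_le (h : Tuple S ρ ε s) {K : ℝ} (hK : 0 ≤ K) (he : MatBound e K) :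
    ‖carry s e‖ ≤ K := by
  refine ContinuousLinearMap.opNorm_le_bound _ hK fun ξ => ?_
  have e1 : carry s e ξ = ∑ k, s k (∑ l, e k l (star (s l) ξ)) := by
    simp [carry, sum_apply, mul_apply_eq_comp, _root_.map_sum]
  refine (sq_le_sq₀ (norm_nonneg _) (by positivity)).1 ?_
  rw [e1, h.norm_sum_apply, mul_pow, ← h.norm_sum_sq ξ]
  exact he fun l => star (s l) ξ

/-- the matrix of `y` has the norm of `y` -/
lemma matBound (h : Tuple S ρ ε s) (y : H →L[ℂ] H) :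
    MatBound (fun k l => star (s k) * y * s l) ‖y‖ := by
  intro v
  have e1 : ∀ k, ∑ l, (star (s k) * y * s l) (v l) = star (s k) (y (∑ l, s l (v l))) := fun k => by
    simp [mul_apply_eq_comp, _root_.map_sum]
  simp only [e1, h.norm_sum_sq]
  rw [← h.norm_sum_apply v, ← mul_pow]
  exact pow_le_pow_left₀ (norm_nonneg _) (y.le_opNorm _) 2

/-- `carry s e` is nearly centralizing when `e` centralizes `φ ⊗ ρ` -/
lemma nearlyCentral_carry (h : Tuple S ρ ε s) (hε : 0 ≤ ε) (he : ∀ k l, e k l ∈ S.M) {η K : ℝ}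
    (hK : 0 ≤ K) (heK : MatBound e K)
    (hc : ∀ Y : Fin n → Fin n → H →L[ℂ] H, ∀ K', 0 ≤ K' → (∀ k l, Y k l ∈ S.M) → MatBound Y K' →
      ‖∑ j, (ρ j : ℂ) * (∑ k, S.φ (Y j k * e k j) - ∑ k, S.φ (e j k * Y k j))‖ ≤ η * K') :
    S.NearlyCentral (2 * ε * K + η) (carry s e) := by
  intro y hy
  set W := carry s e
  set Y := fun k l => star (s k) * y * s l
  have hW := h.norm_carry_le hK heK
  have a1 := h.approx (y * W) (mul_mem hy (h.carry_mem he))
  have a2 := h.approx (W * y) (mul_mem (h.carry_mem he) hy)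
  have a3 := hc Y ‖y‖ (norm_nonneg _)
    (fun k l => mul_mem (mul_mem (star_mem (h.mem k)) hy) (h.mem l)) (h.matBound y)
  have e1 : ∀ j, S.φ (star (s j) * (y * W) * s j) = ∑ k, S.φ (Y j k * e k j) := fun j => by
    rw [← Std.φ_sum, mul_assoc, mul_assoc, h.carry_mul, Finset.mul_sum, Finset.mul_sum]
    simp only [Y, mul_assoc]
  have e2 : ∀ j, S.φ (star (s j) * (W * y) * s j) = ∑ k, S.φ (e j k * Y k j) := fun j => by
    rw [← Std.φ_sum, ← mul_assoc, h.star_mul_carry, Finset.sum_mul, Finset.sum_mul]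
    simp only [Y, mul_assoc]
  simp only [e1] at a1
  simp only [e2] at a2
  simp only [mul_sub, Finset.sum_sub_distrib] at a3
  have b1 := mul_le_mul_of_nonneg_left
    ((norm_mul_le y W).trans (mul_le_mul_of_nonneg_left hW (norm_nonneg _))) hε
  have b2 := mul_le_mul_of_nonneg_left
    ((norm_mul_le W y).trans (mul_le_mul_of_nonneg_right hW (norm_nonneg _))) hε
  have e3 : S.φ (y * W) - S.φ (W * y) =
      (S.φ (y * W) - ∑ j, (ρ j : ℂ) * ∑ k, S.φ (Y j k * e k j)) +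
      (∑ j, (ρ j : ℂ) * ∑ k, S.φ (Y j k * e k j) - ∑ j, (ρ j : ℂ) * ∑ k, S.φ (e j k * Y k j)) +
      -(S.φ (W * y) - ∑ j, (ρ j : ℂ) * ∑ k, S.φ (e j k * Y k j)) := by ring
  rw [e3]
  refine (norm_add₃_le ..).trans ?_
  rw [norm_neg]
  linarith

end Tuple

end P132
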