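import Vale.Agent.P132.Gauss

/-!
# P132: Gaussian smoothing along the modular orbit, for elements and for matrices

`twist m w z x = ∫ G_m(t - z) e^{iwt} σ_t x dt` is entire in `z`. For `w = 0` this is the entire
extension of `t ↦ σ_t (smooth m x)`.
-/

noncomputable section

namespace P132

open Filter Topology Complex MeasureTheory ComplexConjugate
open scoped InnerProductSpace

variable {H : Type*} [NormedAddCommGroup H] [InnerProductSpace ℂ H] [CompleteSpace H]
variable {S : Std H}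

/-- `∫ |G_m (t - z)| |t| dt`. -/
def gLip (m : ℝ) (z : ℂ) : ℝ := ∫ t, ‖gk m z t‖ * |t|

lemma gLip_nonneg (m : ℝ) (z : ℂ) : 0 ≤ gLip m z :=
  integral_nonneg fun _ => by positivity

/-- `G_m (t - z) e^{iwt}`. -/
def twistKernel (m w : ℝ) (z : ℂ) (t : ℝ) : ℂ := gk m z t * cexp (I * ((w * t : ℝ) : ℂ))

lemma norm_twistKernel (m w : ℝ) (z : ℂ) (t : ℝ) : ‖twistKernel m w z t‖ = ‖gk m z t‖ := by
  simp [twistKernel, norm_exp]

lemma integrable_twistKernel {m : ℝ} (hm : 0 < m) (w : ℝ) (z : ℂ) :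
    Integrable (twistKernel m w z) := by
  refine (integrable_gk hm z).norm.mono' ?_ (Eventually.of_forall fun t => (norm_twistKernel _ _ _ t).le)
  exact ((continuous_gk m z).mul (by fun_prop)).aestronglyMeasurable

lemma twistKernel_eq (m w : ℝ) (z : ℂ) :
    twistKernel m w z = fun t => cexp (-(m : ℂ) ^ 2 * z ^ 2) *
      expKernel m (2 * (m : ℂ) ^ 2 * z + I * w) t := by
  funext t
  rw [twistKernel, gk_eq, expKernel, mul_assoc, mul_assoc, ← Complex.exp_add]
  push_cast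
  ring_nf

lemma twistKernel_sub (m w : ℝ) (z : ℂ) (s t : ℝ) :
    twistKernel m w z (t - s) = cexp (-(I * ((w * s : ℝ) : ℂ))) * twistKernel m w (z + s) t := by
  rw [twistKernel, twistKernel, gk_add, mul_left_comm, ← Complex.exp_add]
  push_cast
  ring_nf

lemma conj_twistKernel (m w : ℝ) (z : ℂ) (t : ℝ) :
    conj (twistKernel m w z t) = twistKernel m (-w) (conj z) t := by
  simp [twistKernel, conj_gk, ← Complex.exp_conj]

namespace Modular

variable (D : Modular S)

/-- `∫ G_m(t - z) e^{iwt} σ_t x dt`. -/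
def twist (m w : ℝ) (z : ℂ) (x : H →L[ℂ] H) : H →L[ℂ] H := D.smear (twistKernel m w z) x

/-- `∫ G_m(t) σ_t x dt`. -/
def smooth (m : ℝ) (x : H →L[ℂ] H) : H →L[ℂ] H := D.twist m 0 0 x

lemma twist_mem (m w : ℝ) (z : ℂ) {x : H →L[ℂ] H} (hx : x ∈ S.M) : D.twist m w z x ∈ S.M :=
  D.smear_mem _ hx

lemma twist_mem_B (m w : ℝ) (z : ℂ) {x : H →L[ℂ] H} (hx : ∀ t, D.σ t x ∈ S.B) :
    D.twist m w z x ∈ S.B :=
  D.smear_mem_B _ hx

lemma norm_twist_le {m : ℝ} (hm : 0 < m) (w : ℝ) (z : ℂ) (x : H →L[ℂ] H) :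
    ‖D.twist m w z x‖ ≤ Real.exp (m ^ 2 * z.im ^ 2) * ‖x‖ := by
  refine (D.norm_smear_le (integrable_twistKernel hm w z) x).trans_eq ?_
  simp only [norm_twistKernel, integral_norm_gk hm]

lemma differentiable_twist {m : ℝ} (hm : 0 < m) (w : ℝ) (x : H →L[ℂ] H) :
    Differentiable ℂ fun z => D.twist m w z x := by
  have h : (fun z => D.twist m w z x) = fun z => cexp (-(m : ℂ) ^ 2 * z ^ 2) •
      (fun c => D.smear (expKernel m c) x) (2 * (m : ℂ) ^ 2 * z + I * w) := by
    funext z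
    rw [twist, twistKernel_eq, D.smear_const_mul _ (integrable_expKernel hm _)]
  rw [h]
  exact (by fun_prop : Differentiable ℂ fun z => cexp (-(m : ℂ) ^ 2 * z ^ 2)).smul
    ((D.differentiable_smear_expKernel hm x).comp (by fun_prop))

lemma star_twist {m : ℝ} (hm : 0 < m) (w : ℝ) (z : ℂ) (x : H →L[ℂ] H) :
    star (D.twist m w z x) = D.twist m (-w) (conj z) (star x) := by
  rw [twist, D.star_smear (integrable_twistKernel hm w z)]
  simp only [conj_twistKernel]
  rfl

/-- The entire extension of `t ↦ σ_t (twist m w 0 x)`. -/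
def twistExt (m w : ℝ) (z : ℂ) (x : H →L[ℂ] H) : H →L[ℂ] H :=
  cexp (-(I * (w * z))) • D.twist m w z x

lemma differentiable_twistExt {m : ℝ} (hm : 0 < m) (w : ℝ) (x : H →L[ℂ] H) :
    Differentiable ℂ fun z => D.twistExt m w z x :=
  (by fun_prop : Differentiable ℂ fun z : ℂ => cexp (-(I * (w * z)))).smul
    (D.differentiable_twist hm w x)

lemma twistExt_mem (m w : ℝ) (z : ℂ) {x : H →L[ℂ] H} (hx : x ∈ S.M) :
    D.twistExt m w z x ∈ S.M :=
  vN_smul_mem _ _ (D.twist_mem m w z hx)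

lemma σ_twist {m : ℝ} (hm : 0 < m) (w : ℝ) (s : ℝ) (x : H →L[ℂ] H) :
    D.σ s (D.twist m w 0 x) = D.twistExt m w s x := by
  rw [twist, D.σ_smear s (integrable_twistKernel hm w 0), twistExt, twist,
    ← D.smear_const_mul _ (integrable_twistKernel hm w s)]
  congr 1
  funext t
  rw [twistKernel_sub, zero_add]
  push_cast
  ring_nf

lemma isEntire_twist {m : ℝ} (hm : 0 < m) (w : ℝ) {x : H →L[ℂ] H} (hx : x ∈ S.M) :
    D.IsEntire (D.twist m w 0 x) :=
  ⟨D.twist_mem m w 0 hx, fun z => D.twistExt m w z x, D.differentiable_twistExt hm w x,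
    fun z => D.twistExt_mem m w z hx, fun t => (D.σ_twist hm w t x).symm⟩

lemma kms_twist {m : ℝ} (hm : 0 < m) (w : ℝ) {x : H →L[ℂ] H} (hx : x ∈ S.M)
    {y : H →L[ℂ] H} (hy : y ∈ S.M) :
    S.φ (D.twist m w 0 x * y) = S.φ (y * D.twistExt m w (-I) x) :=
  D.kms _ _ (D.differentiable_twistExt hm w x) (fun z => D.twistExt_mem m w z hx)
    (fun t => (D.σ_twist hm w t x).symm) y hy

/-- If `σ` of `star x` extends to `F`, then right multiplication by `x` is `J F(-i/2) J`. -/
lemma apply_apply_Ω {x : H →L[ℂ] H} (F : ℂ → H →L[ℂ] H) (hF : Differentiable ℂ F)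
    (hFM : ∀ z, F z ∈ S.M) (hFσ : ∀ t : ℝ, F t = D.σ t (star x)) {y : H →L[ℂ] H}
    (hy : y ∈ S.M) : y (x S.Ω) = D.J (F (-(I / 2)) (D.J (y S.Ω))) := by
  have h := D.J_half (star x) F hF hFM hFσ
  rw [star_star] at h
  rw [← h]
  simpa only [D.J_Ω] using D.J_commutant y hy (F (-(I / 2))) (hFM _) S.Ω

lemma rightBound_of_ext {x : H →L[ℂ] H} (F : ℂ → H →L[ℂ] H) (hF : Differentiable ℂ F)
    (hFM : ∀ z, F z ∈ S.M) (hFσ : ∀ t : ℝ, F t = D.σ t (star x)) :
    RightBound (S := S) x ‖F (-(I / 2))‖ := fun y hy => by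
  rw [D.apply_apply_Ω F hF hFM hFσ hy, D.J.norm_map]
  exact ((F (-(I / 2))).le_opNorm _).trans_eq (by rw [D.J.norm_map])

/-! ## Elements -/

lemma smooth_mem (m : ℝ) {x : H →L[ℂ] H} (hx : x ∈ S.M) : D.smooth m x ∈ S.M :=
  D.twist_mem m 0 0 hx

lemma smooth_mem_B (m : ℝ) {x : H →L[ℂ] H} (hx : ∀ t, D.σ t x ∈ S.B) : D.smooth m x ∈ S.B :=
  D.twist_mem_B m 0 0 hx

lemma norm_smooth_le {m : ℝ} (hm : 0 < m) (x : H →L[ℂ] H) : ‖D.smooth m x‖ ≤ ‖x‖ := by
  simpa [smooth] using D.norm_twist_le hm 0 0 x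

lemma isEntire_smooth {m : ℝ} (hm : 0 < m) {x : H →L[ℂ] H} (hx : x ∈ S.M) :
    D.IsEntire (D.smooth m x) :=
  D.isEntire_twist hm 0 hx

lemma star_smooth {m : ℝ} (hm : 0 < m) (x : H →L[ℂ] H) :
    star (D.smooth m x) = D.smooth m (star x) := by
  simp [smooth, D.star_twist hm]

lemma twistExt_zero_w (m : ℝ) (z : ℂ) (x : H →L[ℂ] H) :
    D.twistExt m 0 z x = D.twist m 0 z x := by
  simp [twistExt]

lemma rightBound_smooth {m : ℝ} (hm : 0 < m) {x : H →L[ℂ] H} (hx : x ∈ S.M) :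
    RightBound (S := S) (D.smooth m x) (Real.exp (m ^ 2 / 4) * ‖x‖) := by
  intro y hy
  refine (D.rightBound_of_ext (fun z => D.twistExt m 0 z (star x))
    (D.differentiable_twistExt hm 0 _) (fun z => D.twistExt_mem m 0 z (star_mem hx))
    (fun t => by rw [D.star_smooth hm]; exact (D.σ_twist hm 0 t _).symm) y hy).trans
    (mul_le_mul_of_nonneg_right ?_ (norm_nonneg _))
  rw [twistExt_zero_w]
  refine (D.norm_twist_le hm 0 _ _).trans_eq ?_
  rw [norm_star]
  norm_num
  ring_nf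
  simp

/-- A bound for the smoothing error in terms of the modular Lipschitz constant. -/
lemma norm_twist_sub_le {m : ℝ} (hm : 0 < m) (z : ℂ) {x : H →L[ℂ] H} {η : ℝ} (hη : 0 ≤ η)
    (h : ∀ t, ‖D.σ t x - x‖ ≤ η * |t|) : ‖D.twist m 0 z x - x‖ ≤ gLip m z * η := by
  have hg := integrable_twistKernel hm 0 z
  have h1 : ∫ t, twistKernel m 0 z t = 1 := by simp [twistKernel, integral_gk hm]
  refine ContinuousLinearMap.opNorm_le_bound _ (mul_nonneg (gLip_nonneg _ _) hη) fun v => ?_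
  rw [sub_apply, twist, D.smear_apply hg]
  nth_rw 1 [← one_smul ℂ (x v)]
  rw [← h1, ← integral_smul_const, ← integral_sub (D.integrable_smul_σ_apply hg x v)
    (hg.smul_const (x v)), gLip, mul_assoc, ← integral_mul_const]
  refine norm_integral_le_of_norm_le ((integrable_norm_gk_mul_abs hm z).mul_const _)
    (Eventually.of_forall fun t => ?_)
  rw [← smul_sub, norm_smul, norm_twistKernel, mul_assoc]
  refine mul_le_mul_of_nonneg_left ?_ (norm_nonneg _)
  rw [← sub_apply]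
  refine ((D.σ t x - x).le_opNorm v).trans ((mul_le_mul_of_nonneg_right (h t) (norm_nonneg _)).trans_eq ?_)
  ring

lemma norm_smooth_sub_le {m : ℝ} (hm : 0 < m) {x : H →L[ℂ] H} {η : ℝ} (hη : 0 ≤ η)
    (h : ∀ t, ‖D.σ t x - x‖ ≤ η * |t|) : ‖D.smooth m x - x‖ ≤ gLip m 0 * η :=
  D.norm_twist_sub_le hm 0 hη h

lemma norm_φ_le (x : H →L[ℂ] H) : ‖S.φ x‖ ≤ ‖x‖ := by
  refine (norm_inner_le_norm _ _).trans ?_
  rw [S.norm_Ω, one_mul]
  simpa [S.norm_Ω] using x.le_opNorm S.Ω

/-- An almost invariant element almost centralizes. -/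
lemma nearlyCentral_of_lip {x : H →L[ℂ] H} (hx : x ∈ S.M) {η : ℝ} (hη : 0 ≤ η)
    (h : ∀ t, ‖D.σ t x - x‖ ≤ η * |t|) :
    S.NearlyCentral ((gLip 1 (-I) + 3 * gLip 1 0) * η) x := by
  intro y hy
  have h0 := D.norm_smooth_sub_le one_pos hη h
  have h1 : ‖D.twistExt 1 0 (-I) x - D.smooth 1 x‖ ≤ (gLip 1 (-I) + gLip 1 0) * η := by
    rw [twistExt_zero_w, add_mul]
    refine (norm_sub_le_norm_sub_add_norm_sub _ x _).trans (add_le_add
      (D.norm_twist_sub_le one_pos (-I) hη h) ?_)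
    rwa [norm_sub_rev]
  have hk := D.kms_twist one_pos 0 hx hy
  have heq : S.φ (y * x) - S.φ (x * y) = S.φ (y * (x - D.smooth 1 x)
      - (x - D.smooth 1 x) * y - y * (D.twistExt 1 0 (-I) x - D.smooth 1 x)) := by
    simp only [smooth, Std.φ, mul_sub, sub_mul, sub_apply, inner_sub_right] at hk ⊢
    rw [hk]
    ring
  rw [heq]
  refine (norm_φ_le _).trans ((norm_sub_le _ _).trans ((add_le_add (norm_sub_le _ _) le_rfl).trans ?_))
  have hs : ‖x - D.smooth 1 x‖ ≤ gLip 1 0 * η := by rwa [norm_sub_rev]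
  have e1 := (norm_mul_le y (x - D.smooth 1 x)).trans
    (mul_le_mul_of_nonneg_left hs (norm_nonneg y))
  have e2 := (norm_mul_le (x - D.smooth 1 x) y).trans
    (mul_le_mul_of_nonneg_right hs (norm_nonneg y))
  have e3 := (norm_mul_le y (D.twistExt 1 0 (-I) x - D.smooth 1 x)).trans
    (mul_le_mul_of_nonneg_left h1 (norm_nonneg y))
  nlinarith

/-- Narrow smoothings converge strongly. -/
lemma tendsto_smooth (x : H →L[ℂ] H) (v : H) :
    Tendsto (fun n : ℕ => D.smooth (n + 1) x v) atTop (𝓝 (x v)) := by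
  have hk : ∀ n : ℕ, D.smooth (n + 1) x v = ∫ u, gk 1 0 u • D.σ (u / (n + 1)) x v := by
    intro n
    have hn : (0 : ℝ) < n + 1 := by positivity
    rw [smooth, twist, D.smear_apply (integrable_twistKernel hn 0 0)]
    have h := Measure.integral_comp_div
      (fun t : ℝ => twistKernel (n + 1) 0 0 t • D.σ t x v) ((n : ℝ) + 1)
    rw [abs_of_pos hn] at h
    rw [← inv_smul_smul₀ hn.ne' (∫ t, twistKernel (n + 1) 0 0 t • D.σ t x v), ← h,
      ← integral_smul]
    refine integral_congr_ae (Eventually.of_forall fun u => ?_)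
    change ((n : ℝ) + 1)⁻¹ • twistKernel _ 0 0 (u / ((n : ℝ) + 1)) • D.σ _ x v = _
    rw [RCLike.real_smul_eq_coe_smul (K := ℂ), smul_smul]
    congr 1
    have hn' : ((n : ℂ) + 1) ≠ 0 := by exact_mod_cast (Nat.succ_ne_zero n)
    simp [twistKernel, gk]
    field_simp
  simp only [hk]
  have h1 : ∫ u, gk 1 0 u • x v = x v := by
    rw [integral_smul_const, integral_gk one_pos, one_smul]
  rw [← h1]
  refine tendsto_integral_of_dominated_convergence (fun u => ‖gk 1 0 u‖ * (‖x‖ * ‖v‖))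
    (fun n => (continuous_gk 1 0).aestronglyMeasurable.smul
      ((D.continuous_σ_apply x v).comp (continuous_id.div_const _)).aestronglyMeasurable)
    ((integrable_gk one_pos 0).norm.mul_const _) (fun n => Eventually.of_forall fun u => ?_)
    (Eventually.of_forall fun u => ?_)
  · rw [norm_smul]
    exact mul_le_mul_of_nonneg_left
      (((D.σ _ x).le_opNorm v).trans_eq (by rw [D.norm_σ])) (norm_nonneg _)
  · refine Tendsto.const_smul ?_ _
    have h0 : Tendsto (fun n : ℕ => u / ((n : ℝ) + 1)) atTop (𝓝 0) :=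
      Tendsto.div_atTop tendsto_const_nhds
        (tendsto_atTop_add_const_right _ 1 tendsto_natCast_atTop_atTop)
    simpa [Function.comp_def] using ((D.continuous_σ_apply x v).tendsto 0).comp h0

end Modular

/-! ## Matrices -/

section MatBound

variable {n : ℕ}

/-- The vector with components `v`. -/
abbrev ampVec (v : Fin n → H) : Amp H n := WithLp.toLp 2 v

omit [InnerProductSpace ℂ H] [CompleteSpace H] in
lemma norm_ampVec_sq (v : Fin n → H) : ‖ampVec v‖ ^ 2 = ∑ k, ‖v k‖ ^ 2 := by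
  rw [PiLp.norm_sq_eq_of_L2]

omit [CompleteSpace H] in
lemma matBound_iff {e : Fin n → Fin n → H →L[ℂ] H} {K : ℝ} (hK : 0 ≤ K) :
    MatBound e K ↔ ∀ v : Fin n → H, ‖ampVec fun k => ∑ l, e k l (v l)‖ ≤ K * ‖ampVec v‖ := by
  refine forall_congr' fun v => ?_
  rw [← norm_ampVec_sq, ← norm_ampVec_sq, ← mul_pow,
    pow_le_pow_iff_left₀ (norm_nonneg _) (mul_nonneg hK (norm_nonneg _)) two_ne_zero]

omit [CompleteSpace H] in
lemma MatBound.mono {e : Fin n → Fin n → H →L[ℂ] H} {K K' : ℝ} (hK : 0 ≤ K) (hKK' : K ≤ K')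
    (h : MatBound e K) : MatBound e K' :=
  fun v => (h v).trans (by gcongr)

lemma MatBound.add {e f : Fin n → Fin n → H →L[ℂ] H} {K L : ℝ} (hK : 0 ≤ K) (hL : 0 ≤ L)
    (he : MatBound e K) (hf : MatBound f L) : MatBound (fun k l => e k l + f k l) (K + L) := by
  refine (matBound_iff (add_nonneg hK hL)).2 fun v => ?_
  have : (ampVec fun k => ∑ l, (e k l + f k l) (v l))
      = (ampVec fun k => ∑ l, e k l (v l)) + ampVec fun k => ∑ l, f k l (v l) := by
    rw [← WithLp.toLp_add]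
    congr 1
    funext k
    simp [Finset.sum_add_distrib]
  rw [this, add_mul]
  exact (norm_add_le _ _).trans (add_le_add ((matBound_iff hK).1 he v) ((matBound_iff hL).1 hf v))

omit [CompleteSpace H] in
lemma MatBound.neg {e : Fin n → Fin n → H →L[ℂ] H} {K : ℝ} (he : MatBound e K) :
    MatBound (fun k l => -e k l) K := fun v => by
  simpa [neg_apply, Finset.sum_neg_distrib] using he v

lemma MatBound.sub {e f : Fin n → Fin n → H →L[ℂ] H} {K L : ℝ} (hK : 0 ≤ K) (hL : 0 ≤ L)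
    (he : MatBound e K) (hf : MatBound f L) : MatBound (fun k l => e k l - f k l) (K + L) := by
  simpa only [← sub_eq_add_neg] using he.add hK hL hf.neg

lemma MatBound.star_transpose {e : Fin n → Fin n → H →L[ℂ] H} {K : ℝ} (hK : 0 ≤ K)
    (he : MatBound e K) : MatBound (fun k l => star (e l k)) K := by
  refine (matBound_iff hK).2 fun v => ?_
  set u : Fin n → H := fun k => ∑ l, star (e l k) (v l) with hu
  have h1 : ‖ampVec u‖ ^ 2 = RCLike.re ⟪ampVec v, ampVec fun k => ∑ l, e k l (u l)⟫_ℂ := by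
    rw [← inner_self_eq_norm_sq (𝕜 := ℂ)]
    congr 1
    simp only [PiLp.inner_apply]
    calc ∑ k, ⟪u k, u k⟫_ℂ = ∑ k, ∑ l, ⟪v l, e l k (u k)⟫_ℂ := by
          refine Finset.sum_congr rfl fun k _ => ?_
          calc ⟪u k, u k⟫_ℂ = ⟪∑ l, star (e l k) (v l), u k⟫_ℂ := rfl
            _ = _ := by
              simp only [sum_inner, ContinuousLinearMap.star_eq_adjoint,
                ContinuousLinearMap.adjoint_inner_left]
      _ = _ := by
          rw [Finset.sum_comm]
          simp only [inner_sum]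
  have h2 : ‖ampVec u‖ ^ 2 ≤ ‖ampVec v‖ * (K * ‖ampVec u‖) := by
    rw [h1]
    exact (re_inner_le_norm _ _).trans
      (mul_le_mul_of_nonneg_left ((matBound_iff hK).1 he u) (norm_nonneg _))
  rcases eq_or_lt_of_le (norm_nonneg (ampVec u)) with h | h
  · rw [← h]; positivity
  · nlinarith

end MatBound

namespace Modular

variable (D : Modular S) {n : ℕ}

/-- Entrywise smoothing of a matrix for `σ^ψ`, `ψ = φ ⊗ diag (exp ∘ L)`. -/
def mSmooth (m : ℝ) (L : Fin n → ℝ) (z : ℂ) (e : Fin n → Fin n → H →L[ℂ] H) (k l : Fin n) :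
    H →L[ℂ] H :=
  D.twist m (L k - L l) z (e k l)

lemma mSmooth_mem (m : ℝ) (L : Fin n → ℝ) (z : ℂ) {e : Fin n → Fin n → H →L[ℂ] H}
    (he : ∀ k l, e k l ∈ S.M) (k l : Fin n) : D.mSmooth m L z e k l ∈ S.M :=
  D.twist_mem _ _ _ (he k l)

lemma mSmooth_mem_B (m : ℝ) (L : Fin n → ℝ) (z : ℂ) {e : Fin n → Fin n → H →L[ℂ] H}
    (he : ∀ k l t, D.σ t (e k l) ∈ S.B) (k l : Fin n) : D.mSmooth m L z e k l ∈ S.B :=
  D.twist_mem_B _ _ _ (he k l)

lemma norm_cexp_I_mul (r : ℝ) : ‖cexp (I * (r : ℂ))‖ = 1 := by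
  simp [norm_exp]

lemma matBound_ampσ {L : Fin n → ℝ} {e : Fin n → Fin n → H →L[ℂ] H} {K : ℝ}
    (he : MatBound e K) (t : ℝ) : MatBound (ampσ D L t e) K := by
  intro v
  have h := he fun l => cexp (-(I * ((L l * t : ℝ) : ℂ))) • D.U (-t) (v l)
  have hn : ∀ l, ‖cexp (-(I * ((L l * t : ℝ) : ℂ))) • D.U (-t) (v l)‖ = ‖v l‖ := fun l => by
    rw [norm_smul, D.norm_U]; simp [norm_exp]
  simp only [hn] at h
  refine (le_of_eq ?_).trans h
  refine Finset.sum_congr rfl fun k _ => ?_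
  have : ∑ l, ampσ D L t e k l (v l) = cexp (I * ((L k * t : ℝ) : ℂ)) •
      D.U t (∑ l, e k l (cexp (-(I * ((L l * t : ℝ) : ℂ))) • D.U (-t) (v l))) := by
    simp only [map_sum, Finset.smul_sum, map_smul, smul_smul, ampσ, smul_apply, D.σ_apply,
      ← Complex.exp_add]
    refine Finset.sum_congr rfl fun l _ => ?_
    congr 2
    push_cast
    ring
  rw [this, norm_smul, norm_cexp_I_mul, one_mul, D.norm_U]

lemma twistKernel_smul_σ (m : ℝ) (L : Fin n → ℝ) (z : ℂ) (e : Fin n → Fin n → H →L[ℂ] H)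
    (k l : Fin n) (t : ℝ) (v : H) :
    twistKernel m (L k - L l) z t • D.σ t (e k l) v = gk m z t • ampσ D L t e k l v := by
  rw [ampσ, smul_apply, smul_smul, twistKernel]

lemma mSmooth_apply_eq_integral {m : ℝ} (hm : 0 < m) (L : Fin n → ℝ) (z : ℂ)
    (e : Fin n → Fin n → H →L[ℂ] H) (v : Fin n → H) :
    Integrable (fun t => gk m z t • ampVec fun k => ∑ l, ampσ D L t e k l (v l)) ∧
      (ampVec fun k => ∑ l, D.mSmooth m L z e k l (v l)) =
        ∫ t, gk m z t • ampVec fun k => ∑ l, ampσ D L t e k l (v l) := by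
  set f : ℝ → Amp H n := fun t => gk m z t • ampVec fun k => ∑ l, ampσ D L t e k l (v l)
  have hk : ∀ k t, f t k = ∑ l, twistKernel m (L k - L l) z t • D.σ t (e k l) (v l) := by
    intro k t
    simp only [f, PiLp.smul_apply, Finset.smul_sum, twistKernel_smul_σ]
  have hint : ∀ k, Integrable fun t => f t k := fun k => by
    simp only [hk]
    exact integrable_finsetSum _ fun l _ =>
      D.integrable_smul_σ_apply (integrable_twistKernel hm _ z) _ _
  have hf : Integrable f := by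
    have h := (PiLp.continuousLinearEquiv 2 ℂ fun _ : Fin n => H).symm.toContinuousLinearMap
    have hpi : Integrable fun t k => f t k := Integrable.of_eval hint
    exact ((PiLp.continuousLinearEquiv 2 ℂ fun _ : Fin n => H).symm.toContinuousLinearMap.integrable_comp hpi)
  refine ⟨hf, ?_⟩
  refine PiLp.ext fun k => ?_
  calc ∑ l, D.mSmooth m L z e k l (v l) = ∫ t, f t k := by
        simp only [hk, mSmooth, twist]
        rw [integral_finsetSum _ fun l _ =>
          D.integrable_smul_σ_apply (integrable_twistKernel hm _ z) _ _]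
        simp only [D.smear_apply (integrable_twistKernel hm _ z)]
    _ = _ := (PiLp.proj 2 (fun _ : Fin n => H) k : Amp H n →L[ℂ] H).integral_comp_comm hf

lemma matBound_mSmooth {m : ℝ} (hm : 0 < m) (L : Fin n → ℝ) (z : ℂ)
    {e : Fin n → Fin n → H →L[ℂ] H} {K : ℝ} (hK : 0 ≤ K) (he : MatBound e K) :
    MatBound (D.mSmooth m L z e) (Real.exp (m ^ 2 * z.im ^ 2) * K) := by
  refine (matBound_iff (by positivity)).2 fun v => ?_
  rw [(D.mSmooth_apply_eq_integral hm L z e v).2, ← integral_norm_gk hm z, mul_assoc,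
    ← integral_mul_const]
  refine norm_integral_le_of_norm_le ((integrable_gk hm z).norm.mul_const _)
    (Eventually.of_forall fun t => ?_)
  rw [norm_smul]
  exact mul_le_mul_of_nonneg_left ((matBound_iff hK).1 (D.matBound_ampσ he t) v) (norm_nonneg _)

lemma matBound_mSmooth_sub {m : ℝ} (hm : 0 < m) {L : Fin n → ℝ} (z : ℂ)
    {e : Fin n → Fin n → H →L[ℂ] H} {η : ℝ} (hη : 0 ≤ η) (he : MatLip D L e η) :
    MatBound (fun k l => D.mSmooth m L z e k l - e k l) (gLip m z * η) := by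
  refine (matBound_iff (mul_nonneg (gLip_nonneg _ _) hη)).2 fun v => ?_
  obtain ⟨hi, heq⟩ := D.mSmooth_apply_eq_integral hm L z e v
  set a := ampVec fun k => ∑ l, e k l (v l)
  have h0 : (ampVec fun k => ∑ l, (D.mSmooth m L z e k l - e k l) (v l))
      = ∫ t, (gk m z t • (ampVec fun k => ∑ l, ampσ D L t e k l (v l)) - gk m z t • a) := by
    rw [integral_sub hi ((integrable_gk hm z).smul_const a), integral_smul_const,
      integral_gk hm, one_smul, ← heq, ← WithLp.toLp_sub]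
    congr 1
    funext k
    simp [Finset.sum_sub_distrib]
  rw [h0, gLip, mul_assoc, ← integral_mul_const]
  refine norm_integral_le_of_norm_le ((integrable_norm_gk_mul_abs hm z).mul_const _)
    (Eventually.of_forall fun t => ?_)
  rw [← smul_sub, norm_smul, mul_assoc]
  refine mul_le_mul_of_nonneg_left ?_ (norm_nonneg _)
  have h := (matBound_iff (mul_nonneg hη (abs_nonneg t))).1 (he t) v
  have hsub : (ampVec fun k => ∑ l, ampσ D L t e k l (v l)) - a
      = ampVec fun k => ∑ l, (ampσ D L t e k l - e k l) (v l) := by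
    rw [← WithLp.toLp_sub]
    congr 1
    funext k
    simp [Finset.sum_sub_distrib]
  rw [hsub]
  linarith

/-- The KMS consequence: a smoothed almost invariant matrix almost centralizes
`ψ = φ ⊗ diag (exp ∘ L)`. -/
lemma mat_kms {m : ℝ} (hm : 0 < m) {L : Fin n → ℝ} {e y : Fin n → Fin n → H →L[ℂ] H}
    (he : ∀ k l, e k l ∈ S.M) (hy : ∀ k l, y k l ∈ S.M) {η K : ℝ} (hη : 0 ≤ η) (hK : 0 ≤ K)
    (hlip : MatLip D L e η) (hyK : MatBound y K) :
    ‖(∑ k, (Real.exp (L k) : ℂ) * S.φ (∑ l, D.mSmooth m L 0 e k l * y l k))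
      - ∑ k, (Real.exp (L k) : ℂ) * S.φ (∑ l, y k l * D.mSmooth m L 0 e l k)‖ ≤
      (∑ k, Real.exp (L k)) * (K * ((gLip m (-I) + gLip m 0) * η)) := by
  set d : Fin n → Fin n → H →L[ℂ] H :=
    fun k l => D.mSmooth m L (-I) e k l - D.mSmooth m L 0 e k l
  have hd : MatBound d ((gLip m (-I) + gLip m 0) * η) := by
    have h := (D.matBound_mSmooth_sub hm (-I) hη hlip).sub
      (mul_nonneg (gLip_nonneg m _) hη) (mul_nonneg (gLip_nonneg m _) hη)
      (D.matBound_mSmooth_sub hm 0 hη hlip)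
    simp only [sub_sub_sub_cancel_right, ← add_mul] at h
    exact h
  have hterm : ∀ k l, (Real.exp (L k) : ℂ) * S.φ (D.mSmooth m L 0 e k l * y l k)
      = (Real.exp (L l) : ℂ) * S.φ (y l k * D.mSmooth m L (-I) e k l) := by
    intro k l
    have h := D.kms_twist hm (L k - L l) (he k l) (hy l k)
    rw [mSmooth, h, twistExt, Std.φ, Std.φ, mul_smul_comm, smul_apply, inner_smul_right,
      ← mul_assoc, mSmooth, Complex.ofReal_exp, Complex.ofReal_exp, ← Complex.exp_add]
    congr 2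
    push_cast
    linear_combination ((L k : ℂ) - L l) * I_mul_I
  have h1 : (∑ k, (Real.exp (L k) : ℂ) * S.φ (∑ l, D.mSmooth m L 0 e k l * y l k))
      - ∑ k, (Real.exp (L k) : ℂ) * S.φ (∑ l, y k l * D.mSmooth m L 0 e l k)
      = ∑ l, (Real.exp (L l) : ℂ) * ⟪S.Ω, ∑ k, y l k (d k l S.Ω)⟫_ℂ := by
    have hφs : ∀ f : Fin n → H →L[ℂ] H, S.φ (∑ l, f l) = ∑ l, S.φ (f l) := fun f => by
      simp [Std.φ]
    simp only [hφs, Finset.mul_sum, hterm]
    rw [Finset.sum_comm, ← Finset.sum_sub_distrib]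
    refine Finset.sum_congr rfl fun l _ => ?_
    rw [← Finset.sum_sub_distrib, inner_sum, Finset.mul_sum]
    refine Finset.sum_congr rfl fun k _ => ?_
    simp [d, Std.φ, mul_sub, inner_sub_right]
  rw [h1, Finset.sum_mul]
  refine (norm_sum_le _ _).trans (Finset.sum_le_sum fun l _ => ?_)
  rw [norm_mul, Complex.norm_real, Real.norm_of_nonneg (Real.exp_nonneg _)]
  refine mul_le_mul_of_nonneg_left ((norm_inner_le_norm _ _).trans ?_) (Real.exp_nonneg _)
  rw [S.norm_Ω, one_mul]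
  have hcol : ‖ampVec fun k => d k l S.Ω‖ ≤ (gLip m (-I) + gLip m 0) * η := by
    have h := (matBound_iff (mul_nonneg (add_nonneg (gLip_nonneg m _) (gLip_nonneg m _)) hη)).1
      hd (Pi.single l S.Ω)
    have hv : (fun k => ∑ j, d k j ((Pi.single l S.Ω : Fin n → H) j)) = fun k => d k l S.Ω := by
      funext k
      rw [Finset.sum_eq_single l (fun j _ hj => by simp [hj]) (by simp)]
      simp
    have hn : ‖ampVec (Pi.single l S.Ω : Fin n → H)‖ = 1 := by
      simp [S.norm_Ω]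
    rwa [hv, hn, mul_one] at h
  calc ‖∑ k, y l k (d k l S.Ω)‖ ≤ ‖ampVec fun j => ∑ k, y j k (d k l S.Ω)‖ :=
        PiLp.norm_apply_le (ampVec fun j => ∑ k, y j k (d k l S.Ω)) l
    _ ≤ _ := ((matBound_iff hK).1 hyK fun k => d k l S.Ω).trans
        (mul_le_mul_of_nonneg_left hcol hK)

/-- Right multiplication by a smoothed matrix is bounded in the norm of `ψ`. -/
lemma mat_rightBound {m : ℝ} (hm : 0 < m) {L : Fin n → ℝ} {e : Fin n → Fin n → H →L[ℂ] H}
    (he : ∀ k l, e k l ∈ S.M) {K : ℝ} (hK : 0 ≤ K) (heK : MatBound e K)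
    {y : Fin n → H →L[ℂ] H} (hy : ∀ k, y k ∈ S.M) :
    ∑ l, Real.exp (L l) * ‖∑ k, y k (D.mSmooth m L 0 e k l S.Ω)‖ ^ 2 ≤
      (Real.exp (m ^ 2 / 4) * K) ^ 2 * ∑ k, Real.exp (L k) * ‖y k S.Ω‖ ^ 2 := by
  set es : Fin n → Fin n → H →L[ℂ] H := fun k l => star (e l k)
  set G := D.mSmooth m L (-(I / 2)) es
  have hG : MatBound G (Real.exp (m ^ 2 / 4) * K) := by
    refine MatBound.mono (by positivity) (le_of_eq ?_)
      (D.matBound_mSmooth hm L (-(I / 2)) hK (heK.star_transpose hK))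
    norm_num
    ring_nf
    simp
  set v : Fin n → H := fun k => (Real.exp (L k / 2) : ℂ) • D.J (y k S.Ω)
  have hl : ∀ l, (Real.exp (L l / 2) : ℂ) • (∑ k, D.J (y k (D.mSmooth m L 0 e k l S.Ω)))
      = ∑ k, G l k (v k) := by
    intro l
    rw [Finset.smul_sum]
    refine Finset.sum_congr rfl fun k _ => ?_
    have hstar : star (D.mSmooth m L 0 e k l) = D.twist m (L l - L k) 0 (es l k) := by
      rw [mSmooth, D.star_twist hm, neg_sub, map_zero]
    rw [D.apply_apply_Ω (fun z => D.twistExt m (L l - L k) z (es l k))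
      (D.differentiable_twistExt hm _ _) (fun z => D.twistExt_mem _ _ _ (star_mem (he k l)))
      (fun t => by rw [hstar]; exact (D.σ_twist hm _ t _).symm) (hy k), D.J_J]
    simp only [twistExt, smul_apply, v, map_smul, smul_smul, G, mSmooth]
    congr 1
    rw [Complex.ofReal_exp, Complex.ofReal_exp, ← Complex.exp_add]
    congr 1
    push_cast
    linear_combination ((L l : ℂ) - L k) / 2 * I_mul_I
  have hn : ∀ (r : ℝ) (u : H), ‖(Real.exp (r / 2) : ℂ) • u‖ ^ 2 = Real.exp r * ‖u‖ ^ 2 := by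
    intro r u
    rw [norm_smul, mul_pow, Complex.norm_real, Real.norm_of_nonneg (Real.exp_nonneg _),
      ← Real.exp_nat_mul]
    ring_nf
  have h := hG v
  simp only [← hl, ← map_sum, v, hn, D.J.norm_map] at h
  exact h

end Modular

end P132
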