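import Vale.Agent.P132.Defs

/-!
# P132: standard form, modular data, and the interfaces between the modules

Conventions: `σ t x = Δ^{it} x Δ^{-it}`, KMS `φ (x y) = φ (y σ_{-i} x)`.
-/

noncomputable section

namespace P132

open Filter Topology Complex
open scoped InnerProductSpace

variable (H : Type*) [NormedAddCommGroup H] [InnerProductSpace ℂ H] [CompleteSpace H]

/-- A von Neumann algebra with a cyclic separating unit vector. -/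
structure Std where
  M : VonNeumannAlgebra H
  Ω : H
  norm_Ω : ‖Ω‖ = 1
  cyclic : Dense {v : H | ∃ x ∈ M, x Ω = v}
  separating : ∀ x ∈ M, x Ω = 0 → x = 0

variable {H}

namespace Std

variable (S : Std H)

/-- The vector state. -/
def φ (x : H →L[ℂ] H) : ℂ := ⟪S.Ω, x S.Ω⟫_ℂ

/-- The bicentralizer of the vector state. -/
def B : Set (H →L[ℂ] H) := bicentralizer S.M S.φ

/-- Centralizing up to `η`. -/
def NearlyCentral (η : ℝ) (w : H →L[ℂ] H) : Prop :=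
  ∀ y ∈ S.M, ‖S.φ (y * w) - S.φ (w * y)‖ ≤ η * ‖y‖

end Std

/-- What is used from Tomita-Takesaki theory. -/
structure Modular (S : Std H) where
  U : ℝ → H →L[ℂ] H
  U_zero : U 0 = 1
  U_add : ∀ s t, U (s + t) = U s * U t
  U_star : ∀ t, star (U t) = U (-t)
  U_cont : ∀ v, Continuous fun t => U t v
  U_Ω : ∀ t, U t S.Ω = S.Ω
  σ_mem : ∀ t, ∀ x ∈ S.M, U t * x * U (-t) ∈ S.M
  J : H ≃ₗᵢ⋆[ℂ] H
  J_J : ∀ v, J (J v) = v
  J_Ω : J S.Ω = S.Ω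
  J_U : ∀ t v, J (U t v) = U t (J v)
  J_commutant : ∀ x ∈ S.M, ∀ y ∈ S.M, ∀ v, x (J (y (J v))) = J (y (J (x v)))
  /-- KMS, in integrated form for every entire element (see `IsEntire`). -/
  kms : ∀ (x : H →L[ℂ] H) (F : ℂ → H →L[ℂ] H), Differentiable ℂ F → (∀ z, F z ∈ S.M) →
    (∀ t : ℝ, F t = U t * x * U (-t)) → ∀ y ∈ S.M, S.φ (x * y) = S.φ (y * F (-I))
  /-- `J Δ^{1/2} x Ω = x* Ω`. -/
  J_half : ∀ (x : H →L[ℂ] H) (F : ℂ → H →L[ℂ] H), Differentiable ℂ F → (∀ z, F z ∈ S.M) →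
    (∀ t : ℝ, F t = U t * x * U (-t)) → J (F (-(I / 2)) S.Ω) = star x S.Ω

namespace Modular

variable {S : Std H} (D : Modular S)

/-- The modular automorphisms. -/
def σ (t : ℝ) (x : H →L[ℂ] H) : H →L[ℂ] H := D.U t * x * D.U (-t)

/-- `x` is in `M` and `t ↦ σ_t x` extends to an entire `M`-valued function. -/
def IsEntire (x : H →L[ℂ] H) : Prop :=
  x ∈ S.M ∧ ∃ F : ℂ → H →L[ℂ] H, Differentiable ℂ F ∧ (∀ z, F z ∈ S.M) ∧ ∀ t : ℝ, F t = D.σ t x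

/-- `x` has right multiplication on the `Ω`-norm bounded by `C`. -/
def RightBound (x : H →L[ℂ] H) (C : ℝ) : Prop :=
  ∀ y ∈ S.M, ‖y (x S.Ω)‖ ≤ C * ‖y S.Ω‖

end Modular

/-- The two consequences of type III₁ which are used: homogeneity of the vector states, and
equivalence of every nonzero projection with `1`. -/
structure Homog (S : Std H) : Prop where
  factor : IsFactor S.M
  homog : ∀ (m n : ℕ) (ξ : Fin m → H) (η : Fin n → H),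
    (∑ i, ‖ξ i‖ ^ 2) = 1 → (∑ j, ‖η j‖ ^ 2) = 1 → ∀ ε > 0, ∃ u ∈ S.M,
      star u * u = 1 ∧ u * star u = 1 ∧ ∀ y ∈ S.M,
        ‖(∑ i, ⟪ξ i, (star u * y * u) (ξ i)⟫_ℂ) - ∑ j, ⟪η j, y (η j)⟫_ℂ‖ ≤ ε * ‖y‖
  equiv_one : ∀ p ∈ S.M, IsStarProjection p → p ≠ 0 →
    ∃ w ∈ S.M, star w * w = 1 ∧ w * star w = p
  nontrivial : ∃ p ∈ S.M, IsStarProjection p ∧ p ≠ 0 ∧ p ≠ 1

/-! ## Matrices over `M` as operators on `Hⁿ` -/

/-- `Hⁿ`. -/
abbrev Amp (H : Type*) (n : ℕ) := PiLp 2 fun _ : Fin n => H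

/-- `T` is the operator of the matrix `e`. -/
def HasEntries {n : ℕ} (T : Amp H n →L[ℂ] Amp H n) (e : Fin n → Fin n → H →L[ℂ] H) : Prop :=
  ∀ v k, T v k = ∑ l, e k l (v l)

/-- The matrix of `σ^ψ_t T` for `ψ = φ ⊗ diag (exp ∘ L)`. -/
def ampσ {S : Std H} (D : Modular S) {n : ℕ} (L : Fin n → ℝ) (t : ℝ)
    (e : Fin n → Fin n → H →L[ℂ] H) (k l : Fin n) : H →L[ℂ] H :=
  Complex.exp (I * ((L k - L l) * t : ℝ)) • D.σ t (e k l)

/-- Operator norm of a matrix is at most `K`. -/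
def MatBound {n : ℕ} (e : Fin n → Fin n → H →L[ℂ] H) (K : ℝ) : Prop :=
  ∀ v : Fin n → H, (∑ k, ‖∑ l, e k l (v l)‖ ^ 2) ≤ K ^ 2 * ∑ l, ‖v l‖ ^ 2

/-- A matrix almost invariant under `σ^ψ`. -/
def MatLip {S : Std H} (D : Modular S) {n : ℕ} (L : Fin n → ℝ)
    (e : Fin n → Fin n → H →L[ℂ] H) (η : ℝ) : Prop :=
  ∀ t, MatBound (fun k l => ampσ D L t e k l - e k l) (η * |t|)

/-- The bicentralizer flow together with the uniform commutation property (step 2 of PROOF.md).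
`β s` for `s ≤ 0` is the limit of `v x v*` along `exp s`-sequences. -/
structure Flow {S : Std H} (D : Modular S) where
  β : ℝ → (H →L[ℂ] H) → H →L[ℂ] H
  mem : ∀ s, ∀ x ∈ S.B, β s x ∈ S.B
  zero : ∀ x ∈ S.B, β 0 x = x
  add : ∀ s t, ∀ x ∈ S.B, β (s + t) x = β s (β t x)
  map_add : ∀ s, ∀ x ∈ S.B, ∀ y ∈ S.B, β s (x + y) = β s x + β s y
  map_smul : ∀ s (c : ℂ), ∀ x ∈ S.B, β s (c • x) = c • β s x
  map_mul : ∀ s, ∀ x ∈ S.B, ∀ y ∈ S.B, β s (x * y) = β s x * β s y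
  map_star : ∀ s, ∀ x ∈ S.B, β s (star x) = star (β s x)
  map_one : ∀ s, β s 1 = 1
  norm_le : ∀ s, ∀ x ∈ S.B, ‖β s x‖ ≤ ‖x‖
  preserves : ∀ s, ∀ x ∈ S.B, S.φ (β s x) = S.φ x
  comm_σ : ∀ s t, ∀ x ∈ S.B, β s (D.σ t x) = D.σ t (β s x)
  cont : ∀ x ∈ S.B, Continuous fun s => β s x S.Ω
  /-- A flow-fixed element almost commutes with every almost invariant matrix over `M`. -/
  key_fixed : ∀ x ∈ S.B, (∀ s, β s x = x) → ∀ K : ℝ, ∀ ε > 0, ∃ η > 0,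
    ∀ (n : ℕ) (L : Fin n → ℝ) (e : Fin n → Fin n → H →L[ℂ] H),
      (∑ k, Real.exp (L k)) = 1 → (∀ k l, e k l ∈ S.M) → MatBound e K → MatLip D L e η →
      (∑ k, ∑ l, Real.exp (L l) * ‖(x * e k l - e k l * x) S.Ω‖ ^ 2) ≤ ε
  /-- Every element almost twisted-commutes with almost invariant matrices over `B`. -/
  key : ∀ x ∈ S.B, ∀ K : ℝ, ∀ ε > 0, ∃ η > 0,
    ∀ (n : ℕ) (L : Fin n → ℝ) (c : ℝ) (e : Fin n → Fin n → H →L[ℂ] H),
      (∑ k, Real.exp (L k)) = 1 → (∀ k l, e k l ∈ S.B) → MatBound e K → MatLip D L e η →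
      (∑ k, ∑ l, Real.exp (L l) *
        ‖(β (L k + c) x * e k l - e k l * β (L l + c) x) S.Ω‖ ^ 2) ≤ ε

/-- Step 0. -/
structure BFacts {S : Std H} (D : Modular S) : Prop where
  subset : S.B ⊆ S.M
  one : (1 : H →L[ℂ] H) ∈ S.B
  add : ∀ x ∈ S.B, ∀ y ∈ S.B, x + y ∈ S.B
  smul : ∀ (c : ℂ), ∀ x ∈ S.B, c • x ∈ S.B
  mul : ∀ x ∈ S.B, ∀ y ∈ S.B, x * y ∈ S.B
  star_mem : ∀ x ∈ S.B, star x ∈ S.B
  sot_closed : ∀ x ∈ S.M, (∀ ε > 0, ∃ y ∈ S.B, ‖(x - y) S.Ω‖ ≤ ε) → x ∈ S.B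
  σ_mem : ∀ t, ∀ x ∈ S.B, D.σ t x ∈ S.B
  fixed : ∀ x ∈ S.B, (∀ t, D.σ t x = x) → x ∈ scalars H

/-- `(r, p)` is in the joint spectrum of `(σ, β)` on `B`. -/
def ApproxEigen {S : Std H} {D : Modular S} (F : Flow D) (r p : ℝ) : Prop :=
  ∀ η > 0, ∃ a ∈ S.B, a S.Ω ≠ 0 ∧
    (∀ t : ℝ, ‖D.U t (a S.Ω) - Complex.exp (I * (r * t : ℝ)) • a S.Ω‖ ≤ η * |t| * ‖a S.Ω‖) ∧
    ∀ s : ℝ, ‖F.β s a S.Ω - Complex.exp (I * (p * s : ℝ)) • a S.Ω‖ ≤ η * |s| * ‖a S.Ω‖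

/-! ## Goals of the analytic modules -/

/-- Route B: the bicentralizer flow is ergodic. -/
def GoalRouteB {S : Std H} (D : Modular S) : Prop :=
  Homog S → BFacts D → ∀ F : Flow D, ∀ x ∈ S.B, (∀ s, F.β s x = x) → x ∈ scalars H

/-- Route A: the twisting identity. -/
def GoalRouteA {S : Std H} (D : Modular S) : Prop :=
  BFacts D → ∀ F : Flow D, ∀ r p, ApproxEigen F r p → ∀ x ∈ S.B, F.β (-r) x = D.σ p x

/-- The endgame. -/
def GoalEndgame {S : Std H} (D : Modular S) : Prop :=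
  BFacts D → ∀ F : Flow D, (∀ x ∈ S.B, (∀ s, F.β s x = x) → x ∈ scalars H) →
    (∀ r p, ApproxEigen F r p → ∀ x ∈ S.B, F.β (-r) x = D.σ p x) → S.B = scalars H

end P132
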