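import Vale.Agent.P132.Smooth

/-!
# P132, step 0: the bicentralizer is a strongly closed `σ`-invariant `*`-algebra whose fixed points
are scalars
-/

noncomputable section

namespace P132

open Filter Topology Complex ComplexConjugate
open scoped InnerProductSpace

variable {H : Type*} [NormedAddCommGroup H] [InnerProductSpace ℂ H] [CompleteSpace H]
variable {S : Std H}

namespace Std

variable (S)

lemma φ_add (x y : H →L[ℂ] H) : S.φ (x + y) = S.φ x + S.φ y := by simp [φ]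

lemma φ_sub (x y : H →L[ℂ] H) : S.φ (x - y) = S.φ x - S.φ y := by simp [φ]

lemma φ_smul (c : ℂ) (x : H →L[ℂ] H) : S.φ (c • x) = c * S.φ x := by simp [φ]

lemma φ_star (x : H →L[ℂ] H) : S.φ (star x) = conj (S.φ x) := by
  rw [φ, φ, ContinuousLinearMap.star_eq_adjoint, ContinuousLinearMap.adjoint_inner_right,
    inner_conj_symm]

lemma φ_star_mul (x y : H →L[ℂ] H) : S.φ (star x * y) = ⟪x S.Ω, y S.Ω⟫_ℂ := by
  change ⟪S.Ω, star x (y S.Ω)⟫_ℂ = _
  rw [ContinuousLinearMap.star_eq_adjoint, ContinuousLinearMap.adjoint_inner_right]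

lemma norm_φ_mul_le (x y : H →L[ℂ] H) : ‖S.φ (x * y)‖ ≤ ‖x‖ * ‖y S.Ω‖ := by
  refine (norm_inner_le_norm _ _).trans ?_
  rw [S.norm_Ω, one_mul]
  exact x.le_opNorm _

end Std

namespace AsympCentralizes

variable {w v : ℕ → H →L[ℂ] H}

lemma comm_tendsto (hw : AsympCentralizes S.M S.φ w) {y : ℕ → H →L[ℂ] H} (hy : ∀ n, y n ∈ S.M)
    {C : ℝ} (hC : ∀ n, ‖y n‖ ≤ C) :
    Tendsto (fun n => S.φ (y n * w n) - S.φ (w n * y n)) atTop (𝓝 0) := by
  rw [Metric.tendsto_atTop]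
  intro ε hε
  have hC0 : 0 ≤ C := (norm_nonneg _).trans (hC 0)
  obtain ⟨N, hN⟩ := hw.2.2 (ε / (C + 1)) (by positivity)
  refine ⟨N, fun n hn => ?_⟩
  rw [dist_eq_norm, sub_zero]
  refine (hN n hn (y n) (hy n)).trans_lt ((mul_le_mul_of_nonneg_left (hC n) (by positivity)).trans_lt ?_)
  rw [div_mul_eq_mul_div, div_lt_iff₀ (by positivity)]
  nlinarith

protected lemma star (hw : AsympCentralizes S.M S.φ w) :
    AsympCentralizes S.M S.φ fun n => star (w n) := by
  obtain ⟨hm, ⟨C, hC⟩, h⟩ := hw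
  refine ⟨fun n => star_mem (hm n), ⟨C, fun n => (norm_star _).trans_le (hC n)⟩, fun ε hε => ?_⟩
  obtain ⟨N, hN⟩ := h ε hε
  refine ⟨N, fun n hn y hy => ?_⟩
  have h' := hN n hn (star y) (star_mem hy)
  rw [norm_star, ← Complex.norm_conj, map_sub, ← S.φ_star, ← S.φ_star, star_mul, star_mul,
    star_star, norm_sub_rev] at h'
  exact h'

protected lemma mul (hw : AsympCentralizes S.M S.φ w) (hv : AsympCentralizes S.M S.φ v) :
    AsympCentralizes S.M S.φ fun n => w n * v n := by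
  obtain ⟨hm, ⟨C, hC⟩, h⟩ := hw
  obtain ⟨hm', ⟨C', hC'⟩, h'⟩ := hv
  have hC0 : 0 ≤ C := (norm_nonneg _).trans (hC 0)
  have hC0' : 0 ≤ C' := (norm_nonneg _).trans (hC' 0)
  refine ⟨fun n => mul_mem (hm n) (hm' n), ⟨C * C', fun n => (norm_mul_le _ _).trans
    (mul_le_mul (hC n) (hC' n) (norm_nonneg _) hC0)⟩, fun ε hε => ?_⟩
  obtain ⟨N, hN⟩ := h (ε / (C' + C + 1)) (by positivity)
  obtain ⟨N', hN'⟩ := h' (ε / (C' + C + 1)) (by positivity)
  refine ⟨max N N', fun n hn y hy => ?_⟩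
  have h1 := hN' n ((le_max_right _ _).trans hn) (y * w n) (mul_mem hy (hm n))
  have h2 := hN n ((le_max_left _ _).trans hn) (v n * y) (mul_mem (hm' n) hy)
  have e : S.φ (y * (w n * v n)) - S.φ (w n * v n * y)
      = (S.φ (y * w n * v n) - S.φ (v n * (y * w n)))
        + (S.φ (v n * y * w n) - S.φ (w n * (v n * y))) := by
    simp only [mul_assoc]
    ring
  rw [e]
  refine (norm_add_le _ _).trans ((add_le_add h1 h2).trans ?_)
  have a1 := (norm_mul_le y (w n)).trans (mul_le_mul_of_nonneg_left (hC n) (norm_nonneg y))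
  have a2 := (norm_mul_le (v n) y).trans (mul_le_mul_of_nonneg_right (hC' n) (norm_nonneg y))
  rw [← mul_add, div_mul_eq_mul_div, div_le_iff₀ (by positivity), mul_assoc]
  refine mul_le_mul_of_nonneg_left ?_ hε.le
  nlinarith [norm_nonneg y]

lemma const_smul (hw : AsympCentralizes S.M S.φ w) (c : ℂ) :
    AsympCentralizes S.M S.φ fun n => c • w n := by
  obtain ⟨hm, ⟨C, hC⟩, h⟩ := hw
  refine ⟨fun n => vN_smul_mem _ _ (hm n), ⟨‖c‖ * C, fun n => by
    rw [norm_smul]; exact mul_le_mul_of_nonneg_left (hC n) (norm_nonneg _)⟩, fun ε hε => ?_⟩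
  obtain ⟨N, hN⟩ := h (ε / (‖c‖ + 1)) (by positivity)
  refine ⟨N, fun n hn y hy => ?_⟩
  rw [mul_smul_comm, smul_mul_assoc, S.φ_smul, S.φ_smul, ← mul_sub, norm_mul]
  refine (mul_le_mul_of_nonneg_left (hN n hn y hy) (norm_nonneg _)).trans ?_
  rw [← mul_assoc]
  refine mul_le_mul_of_nonneg_right ?_ (norm_nonneg _)
  rw [← mul_div_assoc, div_le_iff₀ (by positivity)]
  nlinarith [norm_nonneg c]

end AsympCentralizes

namespace Modular

variable (D : Modular S)

lemma dense_J_orbit : Dense {v : H | ∃ z ∈ S.M, D.J (z S.Ω) = v} := by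
  have h := D.J.surjective.denseRange.dense_image D.J.continuous S.cyclic
  refine h.mono ?_
  rintro v ⟨u, ⟨z, hz, rfl⟩, rfl⟩
  exact ⟨z, hz, rfl⟩

/-- A bounded sequence in `M` tends to zero strongly as soon as it does so on `Ω`. -/
lemma tendsto_apply_of_Ω (D : Modular S) {d : ℕ → H →L[ℂ] H} (hd : ∀ n, d n ∈ S.M) {C : ℝ}
    (hC : ∀ n, ‖d n‖ ≤ C) (h : Tendsto (fun n => d n S.Ω) atTop (𝓝 0)) (v : H) :
    Tendsto (fun n => d n v) atTop (𝓝 0) := by
  have hC0 : 0 ≤ C := (norm_nonneg _).trans (hC 0)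
  rw [Metric.tendsto_atTop]
  intro ε hε
  obtain ⟨u, ⟨z, hz, hzu⟩, hu⟩ := Metric.mem_closure_iff.1 (D.dense_J_orbit v) (ε / (2 * (C + 1)))
    (by positivity)
  have hform : ∀ n, d n u = D.J (z (D.J (d n S.Ω))) := fun n => by
    rw [← hzu]
    simpa only [D.J_Ω] using D.J_commutant (d n) (hd n) z hz S.Ω
  have hlim : Tendsto (fun n => d n u) atTop (𝓝 0) := by
    simp only [hform]
    simpa [map_zero, Function.comp_def] using ((D.J.continuous.comp (z.continuous.comp D.J.continuous)).tendsto 0).comp h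
  obtain ⟨N, hN⟩ := Metric.tendsto_atTop.1 hlim (ε / 2) (by positivity)
  refine ⟨N, fun n hn => ?_⟩
  have h1 := hN n hn
  rw [dist_zero_right] at h1 ⊢
  rw [dist_eq_norm] at hu
  have h2 : ‖d n (v - u)‖ ≤ C * (ε / (2 * (C + 1))) :=
    ((d n).le_opNorm _).trans (mul_le_mul (hC n) hu.le (norm_nonneg _) hC0)
  have h3 : C * (ε / (2 * (C + 1))) ≤ ε / 2 := by
    rw [← mul_div_assoc, div_le_div_iff₀ (by positivity) two_pos]
    nlinarith
  have h4 : d n v = d n (v - u) + d n u := by simp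
  rw [h4]
  exact (norm_add_le _ _).trans_lt (by linarith)

end Modular

lemma norm_comm_le {C : ℝ} {w x : H →L[ℂ] H} (hw : ‖w‖ ≤ C) :
    ‖x * w - w * x‖ ≤ 2 * ‖x‖ * C := by
  have h1 := (norm_mul_le x w).trans (mul_le_mul_of_nonneg_left hw (norm_nonneg x))
  have h2 := (norm_mul_le w x).trans (mul_le_mul_of_nonneg_right hw (norm_nonneg x))
  exact (norm_sub_le _ _).trans (by linarith)

lemma mem_B_iff (D : Modular S) {x : H →L[ℂ] H} :
    x ∈ S.B ↔ x ∈ S.M ∧ ∀ w, AsympCentralizes S.M S.φ w →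
      Tendsto (fun n => (x * w n - w n * x) S.Ω) atTop (𝓝 0) := by
  refine ⟨fun h => ⟨h.1, fun w hw => h.2 w hw S.Ω⟩, fun h => ⟨h.1, fun w hw v => ?_⟩⟩
  obtain ⟨C, hC⟩ := hw.2.1
  exact D.tendsto_apply_of_Ω (fun n => sub_mem (mul_mem h.1 (hw.1 n)) (mul_mem (hw.1 n) h.1))
    (C := 2 * ‖x‖ * C) (fun n => norm_comm_le (hC n)) (h.2 w hw) v

lemma one_mem_B : (1 : H →L[ℂ] H) ∈ S.B :=
  ⟨one_mem _, fun w _ v => by simp⟩

lemma add_mem_B {x y : H →L[ℂ] H} (hx : x ∈ S.B) (hy : y ∈ S.B) : x + y ∈ S.B := by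
  refine ⟨add_mem hx.1 hy.1, fun w hw v => ?_⟩
  have := (hx.2 w hw v).add (hy.2 w hw v)
  rw [add_zero] at this
  refine this.congr fun n => ?_
  simp [add_mul, mul_add, sub_add_sub_comm]

lemma smul_mem_B (c : ℂ) {x : H →L[ℂ] H} (hx : x ∈ S.B) : c • x ∈ S.B := by
  refine ⟨vN_smul_mem _ _ hx.1, fun w hw v => ?_⟩
  have := (hx.2 w hw v).const_smul c
  rw [smul_zero] at this
  refine this.congr fun n => ?_
  simp [smul_sub]

lemma mul_mem_B (D : Modular S) {x y : H →L[ℂ] H} (hx : x ∈ S.B) (hy : y ∈ S.B) :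
    x * y ∈ S.B := by
  refine (mem_B_iff D).2 ⟨mul_mem hx.1 hy.1, fun w hw => ?_⟩
  have h := ((x.continuous.tendsto 0).comp (hy.2 w hw S.Ω))
  rw [map_zero] at h
  have h2 := h.add (hx.2 w hw (y S.Ω))
  rw [add_zero] at h2
  refine h2.congr fun n => ?_
  simp

/-- For fixed `a ∈ B` and bounded left factors, commutators vanish weakly. -/
lemma φ_comm_tendsto {a : H →L[ℂ] H} (ha : a ∈ S.B) {w : ℕ → H →L[ℂ] H}
    (hw : AsympCentralizes S.M S.φ w) {l : ℕ → H →L[ℂ] H} {C : ℝ} (hl : ∀ n, ‖l n‖ ≤ C)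
    (b : H →L[ℂ] H) :
    Tendsto (fun n => S.φ (l n * (a * w n - w n * a) * b)) atTop (𝓝 0) := by
  have h : Tendsto (fun n => ‖(a * w n - w n * a) (b S.Ω)‖) atTop (𝓝 0) :=
    tendsto_zero_iff_norm_tendsto_zero.1 (ha.2 w hw (b S.Ω))
  refine squeeze_zero_norm (fun n => ?_) (by simpa using h.const_mul C)
  rw [mul_assoc]
  exact (S.norm_φ_mul_le _ _).trans (mul_le_mul_of_nonneg_right (hl n) (norm_nonneg _))

lemma tendsto_φ_comm_sq {a : H →L[ℂ] H} (ha : a ∈ S.B) {w : ℕ → H →L[ℂ] H}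
    (hw : AsympCentralizes S.M S.φ w) :
    Tendsto (fun n => S.φ ((a * w n - w n * a) * star (a * w n - w n * a))) atTop (𝓝 0) := by
  obtain ⟨C, hC⟩ := hw.2.1
  have hC0 : 0 ≤ C := (norm_nonneg _).trans (hC 0)
  have hW := hw.star
  have hWC : ∀ n, ‖star (w n)‖ ≤ C := fun n => (norm_star _).trans_le (hC n)
  have haM : a ∈ S.M := ha.1
  have hAM : star a ∈ S.M := star_mem haM
  have h1 : ∀ n : ℕ, ‖(1 : H →L[ℂ] H)‖ ≤ 1 := fun _ => ContinuousLinearMap.norm_id_le
  -- `φ (a w W A) ≈ φ (a A w W)`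
  have T1 : Tendsto (fun n => S.φ (a * w n * star (w n) * star a)
      - S.φ (a * star a * (w n * star (w n)))) atTop (𝓝 0) := by
    have e1 := φ_comm_tendsto ha (hw.mul hW) h1 (star a)
    have e2 := (hw.mul hW).comm_tendsto (fun _ => mul_mem haM hAM) (fun _ => le_refl ‖a * star a‖)
    have := e1.sub e2
    rw [sub_zero] at this
    refine this.congr fun n => ?_
    simp only [one_mul, sub_mul, S.φ_sub, mul_assoc]
    ring
  have hbd : ∀ (u v : ℕ → H →L[ℂ] H) (c d : H →L[ℂ] H), (∀ n, ‖u n‖ ≤ C) → (∀ n, ‖v n‖ ≤ C) →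
      ∀ n, ‖c * u n * d‖ ≤ ‖c‖ * C * ‖d‖ := fun u _ c d hu _ n =>
    (norm_mul_le _ _).trans (mul_le_mul_of_nonneg_right ((norm_mul_le _ _).trans
      (mul_le_mul_of_nonneg_left (hu n) (norm_nonneg _))) (norm_nonneg _))
  -- `φ (a w A W) ≈ φ (a A W w)`
  have T2 : Tendsto (fun n => S.φ (a * w n * star a * star (w n))
      - S.φ (a * star a * (star (w n) * w n))) atTop (𝓝 0) := by
    have e1 := hW.comm_tendsto (fun n => mul_mem (mul_mem haM (hw.1 n)) hAM)
      (hbd w w a (star a) hC hC)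
    have e2 := φ_comm_tendsto ha hw hWC (star a)
    have e3 := (hW.mul hw).comm_tendsto (fun _ => mul_mem haM hAM) (fun _ => le_refl ‖a * star a‖)
    have := (e1.add e2).sub e3
    rw [add_zero, sub_zero] at this
    refine this.congr fun n => ?_
    simp only [mul_sub, sub_mul, S.φ_sub, mul_assoc]
    ring
  -- `φ (w a W A) ≈ φ (a A w W)`
  have T3 : Tendsto (fun n => S.φ (w n * a * star (w n) * star a)
      - S.φ (a * star a * (w n * star (w n)))) atTop (𝓝 0) := by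
    have e2 := φ_comm_tendsto ha hW hC (star a)
    have e3 := (hw.mul hW).comm_tendsto (fun _ => mul_mem haM hAM) (fun _ => le_refl ‖a * star a‖)
    have := e2.sub e3
    rw [sub_zero] at this
    refine this.congr fun n => ?_
    simp only [mul_sub, sub_mul, S.φ_sub, mul_assoc]
    ring
  -- `φ (w a A W) ≈ φ (a A W w)`
  have T4 : Tendsto (fun n => S.φ (w n * a * star a * star (w n))
      - S.φ (a * star a * (star (w n) * w n))) atTop (𝓝 0) := by
    have e1 := hW.comm_tendsto (fun n => mul_mem (mul_mem (hw.1 n) haM) hAM)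
      (C := C * ‖a‖ * ‖star a‖) (fun n => (norm_mul_le _ _).trans (mul_le_mul_of_nonneg_right
        ((norm_mul_le _ _).trans (mul_le_mul_of_nonneg_right (hC n) (norm_nonneg _))) (norm_nonneg _)))
    have e3 := (hW.mul hw).comm_tendsto (fun _ => mul_mem haM hAM) (fun _ => le_refl ‖a * star a‖)
    have := e1.sub e3
    rw [sub_zero] at this
    refine this.congr fun n => ?_
    simp only [mul_assoc]
    ring
  have := ((T1.sub T2).sub T3).add T4
  simp only [sub_zero, add_zero] at this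
  refine this.congr fun n => ?_
  simp only [star_sub, star_mul, mul_sub, sub_mul, S.φ_sub, mul_assoc]
  ring

lemma star_mem_B (D : Modular S) {x : H →L[ℂ] H} (hx : x ∈ S.B) : star x ∈ S.B := by
  refine (mem_B_iff D).2 ⟨star_mem hx.1, fun w hw => ?_⟩
  have h := tendsto_φ_comm_sq hx hw.star
  rw [tendsto_zero_iff_norm_tendsto_zero] at h ⊢
  have h2 : Tendsto (fun n => ‖(star x * w n - w n * star x) S.Ω‖ ^ 2) atTop (𝓝 0) := by
    refine h.congr fun n => ?_
    have : (x * star (w n) - star (w n) * x) * star (x * star (w n) - star (w n) * x)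
        = star (star x * w n - w n * star x) * (star x * w n - w n * star x) := by
      simp only [star_sub, star_mul, star_star]
      rw [← neg_mul_neg, neg_sub, neg_sub]
    rw [this, S.φ_star_mul, inner_self_eq_norm_sq_to_K]
    simp
  have h3 := (Real.continuous_sqrt.tendsto 0).comp h2
  rw [Real.sqrt_zero] at h3
  exact h3.congr fun n => Real.sqrt_sq (norm_nonneg _)

/-! ### Strong closedness -/

/-- For centralizing self-adjoint contractions `c`, eventually `‖d c Ω‖ ≤ ‖d Ω‖ + ε`. -/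
lemma eventually_norm_apply_le_of_contraction {c : ℕ → H →L[ℂ] H}
    (hc : AsympCentralizes S.M S.φ c) (hs : ∀ n, IsSelfAdjoint (c n)) (h1 : ∀ n, ‖c n‖ ≤ 1)
    {d : H →L[ℂ] H} (hd : d ∈ S.M) {ε : ℝ} (hε : 0 < ε) :
    ∀ᶠ n in atTop, ‖d (c n S.Ω)‖ ≤ ‖d S.Ω‖ + ε := by
  set r := ‖d S.Ω‖
  set R := r + ε / 2
  have hR : 0 < R := by have := norm_nonneg (d S.Ω); positivity
  have hrR : r ≤ R := le_add_of_nonneg_right (half_pos hε).le
  let p : ℕ → ℕ → H →L[ℂ] H := fun j n => c n ^ (2 ^ j)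
  have hp : ∀ j, AsympCentralizes S.M S.φ (p j) ∧ (∀ n, IsSelfAdjoint (p j n)) ∧
      ∀ n, ‖p j n‖ ≤ 1 := by
    intro j
    induction j with
    | zero => simpa [p] using And.intro hc (And.intro hs h1)
    | succ j ih =>
      have e : p (j + 1) = fun n => p j n * p j n := by
        funext n; simp only [p, pow_succ (2 : ℕ), pow_mul, sq]
      rw [e]
      exact ⟨ih.1.mul ih.1, fun n => by rw [IsSelfAdjoint, star_mul, (ih.2.1 n).star_eq],
        fun n => (norm_mul_le _ _).trans (mul_le_one₀ (ih.2.2 n) (norm_nonneg _) (ih.2.2 n))⟩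
  let b : ℕ → ℕ → ℝ := fun j n => ‖d (p j n S.Ω)‖ / R
  set B := ‖d‖ / R
  have hb : ∀ j n, b j n ≤ B := fun j n => by
    refine div_le_div_of_nonneg_right ((d.le_opNorm _).trans ?_) hR.le
    refine mul_le_of_le_one_right (norm_nonneg _) (((p j n).le_opNorm _).trans ?_)
    rw [S.norm_Ω, mul_one]
    exact (hp j).2.2 n
  have hb0 : ∀ j n, 0 ≤ b j n := fun j n => by positivity
  -- one step
  have step : ∀ j, ∀ θ > 0, ∀ᶠ n in atTop, b j n ^ 2 ≤ b (j + 1) n + θ := by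
    intro j θ hθ
    have hD : star d * d ∈ S.M := mul_mem (star_mem hd) hd
    have hlim := (hp j).1.comm_tendsto (y := fun n => p j n * (star d * d))
      (fun n => mul_mem ((hp j).1.1 n) hD) (C := 1 * ‖star d * d‖)
      (fun n => (norm_mul_le _ _).trans (mul_le_mul_of_nonneg_right ((hp j).2.2 n) (norm_nonneg _)))
    have hθR : 0 < θ * R ^ 2 := by positivity
    filter_upwards [(Metric.tendsto_nhds.1 hlim) _ hθR] with n hn
    rw [dist_zero_right] at hn
    have e1 : S.φ (p j n * (star d * d) * p j n) = (‖d (p j n S.Ω)‖ ^ 2 : ℝ) := by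
      have : p j n * (star d * d) * p j n = star (d * p j n) * (d * p j n) := by
        rw [star_mul, (hp j).2.1 n |>.star_eq]; simp only [mul_assoc]
      rw [this, S.φ_star_mul, inner_self_eq_norm_sq_to_K]
      simp
    have e2 : S.φ (p j n * (p j n * (star d * d))) = ⟪d (p (j + 1) n S.Ω), d S.Ω⟫_ℂ := by
      have : p j n * (p j n * (star d * d)) = star (d * p (j + 1) n) * d := by
        rw [star_mul, (hp (j + 1)).2.1 n |>.star_eq]
        simp only [p, pow_succ (2 : ℕ), pow_mul, sq, mul_assoc]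
      rw [this, S.φ_star_mul]
      rfl
    rw [e1, e2] at hn
    have h3 : ‖d (p j n S.Ω)‖ ^ 2 ≤ ‖d (p (j + 1) n S.Ω)‖ * R + θ * R ^ 2 := by
      have h4 := (norm_inner_le_norm (𝕜 := ℂ) (d (p (j + 1) n S.Ω)) (d S.Ω)).trans
        (mul_le_mul_of_nonneg_left hrR (norm_nonneg _))
      have h5 := norm_sub_norm_le ((‖d (p j n S.Ω)‖ ^ 2 : ℝ) : ℂ)
        ⟪d (p (j + 1) n S.Ω), d S.Ω⟫_ℂ
      rw [Complex.norm_real, Real.norm_of_nonneg (sq_nonneg _)] at h5
      linarith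
    have : b (j + 1) n + θ = (‖d (p (j + 1) n S.Ω)‖ * R + θ * R ^ 2) / R ^ 2 := by
      simp only [b]; field_simp
    rw [this, div_pow]
    exact div_le_div_of_nonneg_right h3 (sq_nonneg _)
  have iter : ∀ j, ∀ θ > 0, ∀ᶠ n in atTop, b 0 n ^ (2 ^ j) ≤ b j n + θ := by
    intro j
    induction j with
    | zero => intro θ hθ; exact Eventually.of_forall fun n => by simp; linarith
    | succ j ih =>
      intro θ hθ
      have hB : 0 ≤ B := by positivity
      set θ' := min 1 (θ / (2 * (2 * B + 1))) with hθ'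
      have hpos : 0 < θ' := lt_min one_pos (by positivity)
      filter_upwards [ih θ' hpos, step j (θ / 2) (half_pos hθ)] with n h h'
      have h1 : b 0 n ^ (2 ^ (j + 1)) ≤ (b j n + θ') ^ 2 := by
        rw [pow_succ, pow_mul]
        exact pow_le_pow_left₀ (pow_nonneg (hb0 0 n) _) h 2
      have h2 : θ' * (2 * B + 1) ≤ θ / 2 := by
        have := mul_le_mul_of_nonneg_right (min_le_right 1 (θ / (2 * (2 * B + 1))))
          (show 0 ≤ 2 * B + 1 by positivity)
        refine this.trans_eq ?_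
        field_simp
      nlinarith [hb j n, hb0 j n, min_le_left 1 (θ / (2 * (2 * B + 1)))]
  set q := (r + ε) / R
  have hq : 1 < q := by rw [lt_div_iff₀ hR, one_mul]; simp only [R]; linarith
  obtain ⟨j, hj⟩ : ∃ j : ℕ, B + 1 < q ^ (2 ^ j) := by
    obtain ⟨k, hk⟩ := pow_unbounded_of_one_lt (B + 1) hq
    exact ⟨k, hk.trans_le (pow_le_pow_right₀ hq.le Nat.lt_two_pow_self.le)⟩
  filter_upwards [iter j 1 one_pos] with n hn
  have h6 : b 0 n ^ (2 ^ j) ≤ q ^ (2 ^ j) := by linarith [hb j n]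
  have h7 := (pow_le_pow_iff_left₀ (hb0 0 n) (by positivity) (by positivity)).1 h6
  simp only [b, q, p, pow_zero, pow_one] at h7
  exact (div_le_div_iff_of_pos_right hR).1 h7

/-- Eventually `‖d w Ω‖² ≤ C² ‖d Ω‖² + ε` for centralizing `w` bounded by `C`. -/
lemma eventually_norm_apply_le {w : ℕ → H →L[ℂ] H} (hw : AsympCentralizes S.M S.φ w) {C : ℝ}
    (hC1 : 1 ≤ C) (hC : ∀ n, ‖w n‖ ≤ C) {d : H →L[ℂ] H} (hd : d ∈ S.M) {ε : ℝ} (hε : 0 < ε) :
    ∀ᶠ n in atTop, ‖d (w n S.Ω)‖ ^ 2 ≤ C ^ 2 * ‖d S.Ω‖ ^ 2 + ε := by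
  set r := ‖d S.Ω‖
  set c : ℕ → H →L[ℂ] H := fun n => ((C ^ 2 : ℝ) : ℂ)⁻¹ • (w n * star (w n)) with hc
  have hC0 : (0 : ℝ) < C ^ 2 := by positivity
  have hcs : ∀ n, IsSelfAdjoint (c n) := fun n => by
    simp only [hc, IsSelfAdjoint, star_smul, star_mul, star_star, star_inv₀, RCLike.star_def,
      Complex.conj_ofReal]
  have hcn : ∀ n, ‖c n‖ ≤ 1 := fun n => by
    simp only [hc, norm_smul, norm_inv, Complex.norm_real, Real.norm_of_nonneg hC0.le]
    rw [inv_mul_le_iff₀ hC0, mul_one, sq]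
    exact (norm_mul_le _ _).trans (mul_le_mul (hC n) ((norm_star _).trans_le (hC n))
      (norm_nonneg _) (by linarith))
  have hlim := hw.comm_tendsto (y := fun n => star (w n) * (star d * d))
    (fun n => mul_mem (star_mem (hw.1 n)) (mul_mem (star_mem hd) hd)) (C := C * ‖star d * d‖)
    (fun n => (norm_mul_le _ _).trans
      (mul_le_mul_of_nonneg_right ((norm_star _).trans_le (hC n)) (norm_nonneg _)))
  have hε2 : 0 < ε / (2 * C ^ 2 * (r + 1)) := by
    have := norm_nonneg (d S.Ω); positivity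
  filter_upwards [Metric.tendsto_nhds.1 hlim (ε / 2) (half_pos hε),
    eventually_norm_apply_le_of_contraction ((hw.mul hw.star).const_smul _) hcs hcn hd hε2]
    with n hn hn'
  rw [dist_zero_right] at hn
  have e1 : S.φ (star (w n) * (star d * d) * w n) = (‖d (w n S.Ω)‖ ^ 2 : ℝ) := by
    have : star (w n) * (star d * d) * w n = star (d * w n) * (d * w n) := by
      simp [mul_assoc]
    rw [this, S.φ_star_mul, inner_self_eq_norm_sq_to_K]
    simp
  have e2 : S.φ (w n * (star (w n) * (star d * d))) = (C ^ 2 : ℝ) * ⟪d (c n S.Ω), d S.Ω⟫_ℂ := by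
    have : w n * (star (w n) * (star d * d)) = ((C ^ 2 : ℝ) : ℂ) • (star (d * c n) * d) := by
      rw [star_mul, (hcs n).star_eq, hc]
      simp only [smul_mul_assoc, smul_smul, mul_assoc]
      rw [mul_inv_cancel₀ (by exact_mod_cast hC0.ne'), one_smul]
    rw [this, S.φ_smul, S.φ_star_mul]
    rfl
  rw [e1, e2] at hn
  have h4 := mul_le_mul_of_nonneg_left ((norm_inner_le_norm (𝕜 := ℂ) (d (c n S.Ω)) (d S.Ω)).trans
    (mul_le_mul_of_nonneg_right hn' (norm_nonneg _))) hC0.le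
  have h5 := norm_sub_norm_le ((‖d (w n S.Ω)‖ ^ 2 : ℝ) : ℂ)
    ((C ^ 2 : ℝ) * ⟪d (c n S.Ω), d S.Ω⟫_ℂ)
  rw [norm_mul, Complex.norm_real, Complex.norm_real, Real.norm_of_nonneg (sq_nonneg _),
    Real.norm_of_nonneg hC0.le] at h5
  have h6 : C ^ 2 * ((r + ε / (2 * C ^ 2 * (r + 1))) * r) ≤ C ^ 2 * r ^ 2 + ε / 2 := by
    have hr : 0 ≤ r := norm_nonneg _
    have : C ^ 2 * (ε / (2 * C ^ 2 * (r + 1))) * r = ε / 2 * (r / (r + 1)) := by
      field_simp
    nlinarith [mul_le_mul_of_nonneg_left ((div_le_one (by positivity)).2 (by linarith : r ≤ r + 1))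
      (half_pos hε).le]
  linarith

lemma sot_closed_B (D : Modular S) {x : H →L[ℂ] H} (hx : x ∈ S.M)
    (h : ∀ ε > 0, ∃ y ∈ S.B, ‖(x - y) S.Ω‖ ≤ ε) : x ∈ S.B := by
  refine (mem_B_iff D).2 ⟨hx, fun w hw => ?_⟩
  obtain ⟨C₀, hC₀⟩ := hw.2.1
  set C := max C₀ 1
  have hC : ∀ n, ‖w n‖ ≤ C := fun n => (hC₀ n).trans (le_max_left _ _)
  have hC1 : 1 ≤ C := le_max_right _ _
  rw [Metric.tendsto_nhds]
  intro ε hε
  obtain ⟨y, hy, hyx⟩ := h (ε / (4 * C)) (by positivity)
  filter_upwards [Metric.tendsto_nhds.1 (hy.2 w hw S.Ω) (ε / 8) (by positivity),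
    eventually_norm_apply_le hw hC1 hC (sub_mem hx hy.1) (show 0 < (ε / 8) ^ 2 by positivity)]
    with n h1 h2
  rw [dist_zero_right] at h1 ⊢
  set r := ‖(x - y) S.Ω‖
  have h3 : ‖(x - y) (w n S.Ω)‖ ≤ C * r + ε / 8 := by
    refine (pow_le_pow_iff_left₀ (norm_nonneg _) (by positivity) two_ne_zero).1 (h2.trans ?_)
    nlinarith [mul_nonneg (mul_nonneg (zero_le_one.trans hC1) (norm_nonneg ((x - y) S.Ω))) hε.le]
  have h4 : ‖w n ((x - y) S.Ω)‖ ≤ C * r :=
    ((w n).le_opNorm _).trans (mul_le_mul_of_nonneg_right (hC n) (norm_nonneg _))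
  have h5 : C * r ≤ ε / 4 := by
    refine (mul_le_mul_of_nonneg_left hyx (by linarith)).trans_eq ?_
    field_simp
  have h6 : (x * w n - w n * x) S.Ω
      = (y * w n - w n * y) S.Ω + (x - y) (w n S.Ω) - w n ((x - y) S.Ω) := by
    simp
  rw [h6]
  exact (norm_sub_le _ _).trans_lt ((add_le_add (norm_add_le _ _) le_rfl).trans_lt (by linarith))

lemma σ_mem_B (D : Modular S) (t : ℝ) {x : H →L[ℂ] H} (hx : x ∈ S.B) : D.σ t x ∈ S.B := by
  refine ⟨D.σ_mem' t hx.1, fun w hw v => ?_⟩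
  have hw' : AsympCentralizes S.M S.φ fun n => D.σ (-t) (w n) := by
    obtain ⟨hm, ⟨C, hC⟩, h⟩ := hw
    refine ⟨fun n => D.σ_mem' _ (hm n), ⟨C, fun n => (D.norm_σ_le _ _).trans (hC n)⟩,
      fun ε hε => ?_⟩
    obtain ⟨N, hN⟩ := h ε hε
    refine ⟨N, fun n hn y hy => ?_⟩
    have h' := hN n hn (D.σ t y) (D.σ_mem' t hy)
    rw [← D.φ_σ (-t) (D.σ t y * w n), ← D.φ_σ (-t) (w n * D.σ t y), D.σ_mul, D.σ_mul, D.σ_σ,
      neg_add_cancel, D.σ_zero, D.norm_σ] at h'
    exact h'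
  have := ((D.U t).continuous.tendsto 0).comp (hx.2 _ hw' (D.U (-t) v))
  rw [map_zero] at this
  refine this.congr fun n => ?_
  have e : D.σ t x * w n - w n * D.σ t x
      = D.σ t (x * D.σ (-t) (w n) - D.σ (-t) (w n) * x) := by
    rw [D.σ_sub, D.σ_mul, D.σ_mul, D.σ_σ, add_neg_cancel, D.σ_zero]
  rw [e]
  rfl

end P132
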