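import Vale.Agent.P132.Setup

/-!
# P132: elementary facts about the modular unitaries and automorphisms
-/

noncomputable section

namespace P132

open Filter Topology Complex
open scoped InnerProductSpace

variable {H : Type*} [NormedAddCommGroup H] [InnerProductSpace ℂ H] [CompleteSpace H]

lemma vN_smul_mem (M : VonNeumannAlgebra H) (c : ℂ) {x : H →L[ℂ] H} (hx : x ∈ M) : c • x ∈ M :=
  M.toStarSubalgebra.smul_mem hx c

lemma vN_mem_iff (M : VonNeumannAlgebra H) {x : H →L[ℂ] H} :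
    x ∈ M ↔ ∀ y ∈ M.commutant, ∀ v, y (x v) = x (y v) := by
  conv_lhs => rw [← VonNeumannAlgebra.commutant_commutant M, VonNeumannAlgebra.mem_commutant_iff]
  simp only [ContinuousLinearMap.ext_iff]
  rfl

namespace Modular

variable {S : Std H} (D : Modular S)

lemma U_neg_mul (t : ℝ) : D.U (-t) * D.U t = 1 := by rw [← D.U_add, neg_add_cancel, D.U_zero]

lemma U_mul_neg (t : ℝ) : D.U t * D.U (-t) = 1 := by rw [← D.U_add, add_neg_cancel, D.U_zero]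

lemma U_neg_apply (t : ℝ) (v : H) : D.U (-t) (D.U t v) = v :=
  congr($(D.U_neg_mul t) v)

lemma U_apply_neg (t : ℝ) (v : H) : D.U t (D.U (-t) v) = v :=
  congr($(D.U_mul_neg t) v)

lemma U_add_apply (s t : ℝ) (v : H) : D.U (s + t) v = D.U s (D.U t v) :=
  congr($(D.U_add s t) v)

lemma inner_U (t : ℝ) (v w : H) : ⟪D.U t v, D.U t w⟫_ℂ = ⟪v, w⟫_ℂ := by
  conv_lhs => rw [← ContinuousLinearMap.adjoint_inner_right, ← ContinuousLinearMap.star_eq_adjoint,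
    D.U_star, U_neg_apply]

lemma norm_U (t : ℝ) (v : H) : ‖D.U t v‖ = ‖v‖ := by
  rw [norm_eq_sqrt_re_inner (𝕜 := ℂ), norm_eq_sqrt_re_inner (𝕜 := ℂ), inner_U]

lemma continuous_U_comp {X : Type*} [TopologicalSpace X] {f : X → ℝ} {g : X → H}
    (hf : Continuous f) (hg : Continuous g) : Continuous fun a => D.U (f a) (g a) := by
  refine continuous_iff_continuousAt.2 fun a₀ => ?_
  have h1 : Tendsto (fun a => D.U (f a) (g a) - D.U (f a) (g a₀)) (𝓝 a₀) (𝓝 0) := by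
    refine tendsto_zero_iff_norm_tendsto_zero.2 ?_
    simpa only [← map_sub, D.norm_U] using
      tendsto_zero_iff_norm_tendsto_zero.1 (tendsto_sub_nhds_zero_iff.2 (hg.tendsto a₀))
  simpa [ContinuousAt] using h1.add (((D.U_cont (g a₀)).comp hf).tendsto a₀)

lemma σ_apply (t : ℝ) (x : H →L[ℂ] H) (v : H) : D.σ t x v = D.U t (x (D.U (-t) v)) := rfl

lemma σ_apply_Ω (t : ℝ) (x : H →L[ℂ] H) : D.σ t x S.Ω = D.U t (x S.Ω) := by
  rw [σ_apply, D.U_Ω]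

lemma continuous_σ_apply (x : H →L[ℂ] H) (v : H) : Continuous fun t => D.σ t x v :=
  D.continuous_U_comp continuous_id
    (x.continuous.comp ((D.U_cont v).comp continuous_neg))

lemma σ_mem' (t : ℝ) {x : H →L[ℂ] H} (hx : x ∈ S.M) : D.σ t x ∈ S.M := D.σ_mem t x hx

@[simp] lemma σ_zero (x : H →L[ℂ] H) : D.σ 0 x = x := by simp [σ, D.U_zero]

@[simp] lemma σ_one (t : ℝ) : D.σ t 1 = 1 := by simp [σ, D.U_mul_neg]

lemma σ_σ (s t : ℝ) (x : H →L[ℂ] H) : D.σ s (D.σ t x) = D.σ (s + t) x := by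
  simp only [σ, D.U_add, neg_add_rev]
  simp only [mul_assoc]

lemma σ_add (t : ℝ) (x y : H →L[ℂ] H) : D.σ t (x + y) = D.σ t x + D.σ t y := by
  simp [σ, mul_add, add_mul]

lemma σ_sub (t : ℝ) (x y : H →L[ℂ] H) : D.σ t (x - y) = D.σ t x - D.σ t y := by
  simp [σ, mul_sub, sub_mul]

lemma σ_smul (t : ℝ) (c : ℂ) (x : H →L[ℂ] H) : D.σ t (c • x) = c • D.σ t x := by
  simp [σ]

lemma σ_mul (t : ℝ) (x y : H →L[ℂ] H) : D.σ t (x * y) = D.σ t x * D.σ t y := by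
  simp only [σ, mul_assoc]
  rw [← mul_assoc (D.U (-t)) (D.U t), D.U_neg_mul, one_mul]

lemma σ_star (t : ℝ) (x : H →L[ℂ] H) : D.σ t (star x) = star (D.σ t x) := by
  simp [σ, D.U_star, mul_assoc]

lemma norm_σ_le (t : ℝ) (x : H →L[ℂ] H) : ‖D.σ t x‖ ≤ ‖x‖ := by
  refine ContinuousLinearMap.opNorm_le_bound _ (norm_nonneg _) fun v => ?_
  rw [σ_apply, D.norm_U]
  exact (x.le_opNorm _).trans_eq (by rw [D.norm_U])

lemma norm_σ (t : ℝ) (x : H →L[ℂ] H) : ‖D.σ t x‖ = ‖x‖ := by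
  refine le_antisymm (D.norm_σ_le t x) ?_
  simpa [σ_σ] using D.norm_σ_le (-t) (D.σ t x)

lemma φ_σ (t : ℝ) (x : H →L[ℂ] H) : S.φ (D.σ t x) = S.φ x := by
  simp only [Std.φ, σ_apply_Ω]
  nth_rw 1 [← D.U_Ω t]
  exact D.inner_U t _ _

lemma norm_σ_apply_Ω (t : ℝ) (x : H →L[ℂ] H) : ‖D.σ t x S.Ω‖ = ‖x S.Ω‖ := by
  rw [σ_apply_Ω, D.norm_U]

end Modular

end P132
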