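import Mathlib

/-!
# P132: statement level definitions

Conventions of the problem: `(w φ)(y) = φ (y w)`, `(φ w)(y) = φ (w y)`; the norm of `M_*` is the sup over
the unit ball of `M`. A normal state is a countable sum of vector functionals.
-/

noncomputable section

namespace P132

open Filter Topology ComplexConjugate
open scoped InnerProductSpace

variable {H : Type*} [NormedAddCommGroup H] [InnerProductSpace ℂ H] [CompleteSpace H]

/-- A factor: trivial centre. -/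
def IsFactor (M : VonNeumannAlgebra H) : Prop :=
  ∀ z ∈ M, z ∈ M.commutant → ∃ c : ℂ, z = c • (1 : H →L[ℂ] H)

/-- A normal state on `M`: a countable sum of vector functionals, of total mass one. -/
def IsNormalState (M : VonNeumannAlgebra H) (φ : (H →L[ℂ] H) → ℂ) : Prop :=
  ∃ ξ : ℕ → H, Summable (fun n => ‖ξ n‖ ^ 2) ∧ (∑' n, ‖ξ n‖ ^ 2) = 1 ∧
    ∀ x ∈ M, φ x = ∑' n, ⟪ξ n, x (ξ n)⟫_ℂ

/-- Faithfulness on `M`. -/
def IsFaithful (M : VonNeumannAlgebra H) (φ : (H →L[ℂ] H) → ℂ) : Prop :=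
  ∀ x ∈ M, φ (star x * x) = 0 → x = 0

/-- A uniformly bounded sequence in `M` with `‖w_n φ - φ w_n‖ → 0` in the norm of `M_*`. -/
def AsympCentralizes (M : VonNeumannAlgebra H) (φ : (H →L[ℂ] H) → ℂ)
    (w : ℕ → H →L[ℂ] H) : Prop :=
  (∀ n, w n ∈ M) ∧ (∃ C : ℝ, ∀ n, ‖w n‖ ≤ C) ∧
    ∀ ε > 0, ∃ N : ℕ, ∀ n ≥ N, ∀ y ∈ M, ‖φ (y * w n) - φ (w n * y)‖ ≤ ε * ‖y‖

/-- The bicentralizer of `φ`. -/
def bicentralizer (M : VonNeumannAlgebra H) (φ : (H →L[ℂ] H) → ℂ) : Set (H →L[ℂ] H) :=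
  {a | a ∈ M ∧ ∀ w, AsympCentralizes M φ w →
    ∀ ξ : H, Tendsto (fun n => (a * w n - w n * a) ξ) atTop (𝓝 0)}

/-- The scalars. -/
def scalars (H : Type*) [NormedAddCommGroup H] [InnerProductSpace ℂ H] : Set (H →L[ℂ] H) :=
  Set.range fun c : ℂ => c • (1 : H →L[ℂ] H)

end P132
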