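import Vale.Agent.P132.Endgame.Joint
import Vale.Agent.P132.Endgame.Space

/-!
# P132: the endgame

If the bicentralizer flow is ergodic and satisfies the twisting identity at every point of the joint
spectrum, the bicentralizer is trivial.
-/

noncomputable section

namespace P132

open Complex
open scoped InnerProductSpace

variable {H : Type*} [NormedAddCommGroup H] [InnerProductSpace ℂ H] [CompleteSpace H]
  {S : Std H} {D : Modular S}

lemma eq_of_apply_Ω (hb : BFacts D) {x y : H →L[ℂ] H} (hx : x ∈ S.B) (hy : y ∈ S.B)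
    (h : x S.Ω = y S.Ω) : x = y := by
  refine sub_eq_zero.1 (S.separating _ (sub_mem (hb.subset hx) (hb.subset hy)) ?_)
  rw [sub_apply, h, sub_self]

/-- An eigen element of the modular group in `B` is scalar. -/
lemma eigen_eq_zero (hb : BFacts D) {a : H →L[ℂ] H} (ha : a ∈ S.B) (ha0 : a S.Ω ≠ 0) {r : ℝ}
    (he : ∀ t : ℝ, D.U t (a S.Ω) = Complex.exp (I * (r * t : ℝ)) • a S.Ω) : r = 0 := by
  have hσ : ∀ t : ℝ, D.σ t a = Complex.exp (I * (r * t : ℝ)) • a := fun t =>
    eq_of_apply_Ω hb (hb.σ_mem t _ ha) (hb.smul _ _ ha)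
      (by rw [Endgame.σ_apply_Ω, smul_apply]; exact he t)
  have hmul : ∀ t x y, D.σ t (x * y) = D.σ t x * D.σ t y := fun t x y => by
    simp only [Modular.σ]
    have h : D.U (-t) * D.U t = 1 := by rw [← D.U_add, neg_add_cancel, D.U_zero]
    simp only [mul_assoc]
    rw [← mul_assoc (D.U (-t)) (D.U t), h, one_mul]
  have hstar : ∀ t, D.σ t (star a) = star (D.σ t a) := fun t => by
    simp only [Modular.σ, star_mul, D.U_star, neg_neg, mul_assoc]
  have hone : ∀ t : ℝ, Complex.exp (I * (r * t : ℝ)) * star (Complex.exp (I * (r * t : ℝ))) = 1 := by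
    intro t
    rw [RCLike.star_def, Complex.mul_conj, ← Complex.sq_norm, Complex.norm_exp]
    simp
  have hb1 := hb.mul _ (hb.star_mem a ha) _ ha
  have hb2 := hb.mul _ ha _ (hb.star_mem a ha)
  obtain ⟨c, hc⟩ := hb.fixed _ hb1 fun t => by
    rw [hmul, hstar, hσ, star_smul, smul_mul_smul_comm, mul_comm, hone, one_smul]
  obtain ⟨d, hd⟩ := hb.fixed _ hb2 fun t => by
    rw [hmul, hstar, hσ, star_smul, smul_mul_smul_comm, hone, one_smul]
  simp only at hc hd
  have hφ : ∀ c : ℂ, S.φ (c • (1 : H →L[ℂ] H)) = c := fun c => by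
    simp [Std.φ, S.norm_Ω, inner_self_eq_norm_sq_to_K]
  have hc0 : c = ((‖a S.Ω‖ ^ 2 : ℝ) : ℂ) := by
    rw [← hφ c, hc, Std.φ, ContinuousLinearMap.star_eq_adjoint, mul_apply_eq_comp,
      ContinuousLinearMap.adjoint_inner_right, inner_self_eq_norm_sq_to_K]
    simp
  have hd0 : d = ((‖star a S.Ω‖ ^ 2 : ℝ) : ℂ) := by
    have : a * star a = star (star a) * star a := by rw [star_star]
    rw [← hφ d, hd, this, Std.φ, ContinuousLinearMap.star_eq_adjoint, mul_apply_eq_comp,
      ← ContinuousLinearMap.star_eq_adjoint, ContinuousLinearMap.star_eq_adjoint (star a),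
      ContinuousLinearMap.adjoint_inner_right, inner_self_eq_norm_sq_to_K]
    simp
  have hΩ : S.Ω ≠ 0 := fun h => by simpa [h] using S.norm_Ω
  have h1 : ‖(1 : H →L[ℂ] H)‖ = 1 :=
    haveI : Nontrivial H := ⟨⟨S.Ω, 0, hΩ⟩⟩
    norm_one
  have hnorm : ‖c‖ = ‖d‖ := by
    have e1 := congrArg norm hc
    have e2 := congrArg norm hd
    rw [norm_smul, h1, mul_one, CStarRing.norm_star_mul_self] at e1
    rw [norm_smul, h1, mul_one, CStarRing.norm_self_mul_star] at e2
    rw [e1, e2]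
  have hcd : c = d := by
    rw [hc0, hd0, Complex.norm_real, Complex.norm_real, Real.norm_of_nonneg (by positivity),
      Real.norm_of_nonneg (by positivity)] at hnorm
    rw [hc0, hd0, hnorm]
  have hk := D.kms a (fun z => Complex.exp (I * r * z) • a) (by fun_prop)
    (fun z => hb.subset (hb.smul _ _ ha))
    (fun t => by
      show Complex.exp (I * r * (t : ℂ)) • a = D.σ t a
      rw [hσ]; push_cast; ring_nf)
    (star a) (hb.subset (hb.star_mem a ha))
  rw [← hd, mul_smul_comm, ← hc, smul_smul, hφ, hφ, ← hcd] at hk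
  have hc' : c ≠ 0 := by
    rw [hc0]; exact_mod_cast pow_ne_zero 2 (norm_ne_zero_iff.2 ha0)
  have he1 : Complex.exp (I * r * -I) = 1 := mul_right_cancel₀ hc' (by rw [one_mul]; exact hk.symm)
  have he2 := congrArg norm he1
  rw [Complex.norm_exp, norm_one, Real.exp_eq_one_iff] at he2
  simpa using he2

open Endgame in
/-- The endgame of the bicentralizer theorem. -/
theorem endgame (D : Modular S) : GoalEndgame D := by
  intro hb F hfix htw
  refine Set.Subset.antisymm (fun x hx => ?_) ?_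
  swap
  · rintro _ ⟨c, rfl⟩
    exact hb.smul c 1 hb.one
  by_contra hns
  set U := UK hb
  set V := VK hb F
  have hUV := UK_VK_comm hb F
  have hap : ∀ {r p : ℝ}, (∀ η > (0 : ℝ), ∃ y ∈ core hb, y ≠ 0 ∧
      (∀ t : ℝ, ‖U.op t y - Complex.exp (I * (r * t : ℝ)) • y‖ ≤ η * |t| * ‖y‖) ∧
      ∀ s : ℝ, ‖V.op s y - Complex.exp (I * (p * s : ℝ)) • y‖ ≤ η * |s| * ‖y‖) →
      ApproxEigen F r p := by
    intro r p h η hη
    obtain ⟨_, ⟨a, rfl⟩, ha0, ha1, ha2⟩ := h η hη
    refine ⟨a, a.2, fun h0 => ha0 (Subtype.ext h0), fun t => ha1 t, fun s => ?_⟩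
    have : ‖(V.op s (toHB hb a) : H) - Complex.exp (I * (p * s : ℝ)) • (a : H →L[ℂ] H) S.Ω‖
        ≤ η * |s| * ‖(a : H →L[ℂ] H) S.Ω‖ := ha2 s
    rwa [show (V.op s (toHB hb a) : H) = F.β s a S.Ω from Vop_coe hb F s a.2] at this
  have hper : ∀ {r p : ℝ}, ApproxEigen F r p → U.op p * V.op r = 1 := fun {r p} h =>
    ContinuousLinearMap.ext fun k => (denseRange_toHB hb).induction_on k
      (isClosed_eq ((U.op p).comp (V.op r)).continuous continuous_id) fun y => by
      have e := htw r p h _ (F.mem r _ y.2)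
      rw [← F.add _ _ _ y.2, neg_add_cancel, F.zero _ y.2] at e
      refine Subtype.ext ?_
      show D.U p (Vop hb F r (toHB hb y) : H) = (y : H →L[ℂ] H) S.Ω
      rw [Vop_coe hb F r y.2, ← σ_apply_Ω, ← e]
  -- the modular group moves `x Ω`
  obtain ⟨r₁, p₁, hr₁, happ₁⟩ := exists_approx U V hUV (core hb) (dense_core hb) (UK_res_mem hb)
    (VK_res_mem hb F) 1 0 (by
      by_contra hcon
      push Not at hcon
      refine hns (hb.fixed x hx fun t => eq_of_apply_Ω hb (hb.σ_mem t _ hx) hx ?_)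
      have := congrArg Subtype.val (hcon t (toHB hb ⟨x, hx⟩))
      rw [one_mul, zero_mul, V.zero, one_apply_eq_self] at this
      rw [σ_apply_Ω]
      exact this)
  rw [one_mul, zero_mul, add_zero] at hr₁
  have hg₁ := hper (hap happ₁)
  refine hr₁ ?_
  suffices ∃ t₂ s₂, p₁ * s₂ - t₂ * r₁ ≠ 0 ∧ U.op t₂ * V.op s₂ = 1 by
    obtain ⟨t₂, s₂, hdet, hg₂⟩ := this
    obtain ⟨_, ⟨a, rfl⟩, ha0, ha⟩ := exists_eigen U V hUV (core hb) p₁ r₁ t₂ s₂ hdet hg₁ hg₂
      (fun θ => avg_mem hb F p₁ r₁ θ) (fun θ => avg_mem hb F t₂ s₂ θ) happ₁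
    exact eigen_eq_zero hb a.2 (fun h0 => ha0 (Subtype.ext h0))
      fun t => congrArg Subtype.val (ha t)
  by_cases hline : ∃ h v, U.op (-p₁ * h) (V.op (r₁ * h) v) ≠ v
  · obtain ⟨r₂, p₂, hlin, happ₂⟩ := exists_approx U V hUV (core hb) (dense_core hb) (UK_res_mem hb)
      (VK_res_mem hb F) (-p₁) r₁ hline
    refine ⟨p₂, r₂, fun h0 => hlin ?_, hper (hap happ₂)⟩
    linarith
  · push Not at hline
    refine ⟨-p₁, r₁, fun h0 => ?_, ContinuousLinearMap.ext fun v => by
      have := hline 1 v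
      rwa [mul_one, mul_one] at this⟩
    have hp₁ : p₁ = 0 := by
      by_contra hp
      exact mul_ne_zero hp hr₁ (by linarith)
    refine hns (hfix x hx fun s => eq_of_apply_Ω hb (F.mem s _ hx) hx ?_)
    have := hline (s / r₁) (toHB hb ⟨x, hx⟩)
    rw [hp₁, neg_zero, zero_mul, U.zero, one_apply_eq_self, mul_div_cancel₀ _ hr₁] at this
    have h2 := congrArg Subtype.val this
    exact (Vop_coe hb F s hx).symm.trans h2

end P132
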