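import Vale.Agent.P132.RouteA.Ergodic
import Vale.Agent.P132.RouteA.Estimates

/-!
# P132 route A: the twisting identity

At a point `(r, p)` of the joint spectrum of the modular group and the bicentralizer flow,
`β (-r) = σ p` on the bicentralizer. With `d = x - σ (-p) (β (-r) x)` the two estimates of
`RouteA.Estimates` give that the weighted mean of `‖σ_τ (a) d Ω‖²` is small relative to `‖a Ω‖²`,
while by the mean ergodic theorem it tends to a fixed multiple of `‖a Ω‖² ‖d Ω‖²`.
-/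

noncomputable section

namespace P132.RouteA

open Filter Topology
open scoped InnerProductSpace

variable {H : Type*} [NormedAddCommGroup H] [InnerProductSpace ℂ H] [CompleteSpace H]
variable {S : Std H} {D : Modular S}

theorem twist_nice (hB : BFacts D) (F : Flow D) {r p : ℝ} (hE : ApproxEigen F r p)
    {z : H →L[ℂ] H} {L : ℝ} (hz : Nice F z L) :
    D.σ (-p) (F.β (-r) z) S.Ω = z S.Ω := by
  set y := F.β (-r) z with hy
  set w := D.σ (-p) y S.Ω - z S.Ω with hw
  set C := 2 * (3 + 47 * L ^ 2) + 2 * (6 + 384 * L ^ 2) with hC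
  have hbound : ∀ κ : ℝ, 0 < κ → κ ≤ 1 / (|r| + 2) → hatSq * ‖w‖ ^ 2 ≤ C * κ ^ 2 := by
    intro κ hκ hκr
    have hκ2 : κ ≤ 1 / 2 :=
      hκr.trans (one_div_le_one_div_of_le two_pos (by linarith [abs_nonneg r]))
    have hr : |r| + 2 ≤ 1 / κ := by
      rw [le_div_iff₀ (by positivity)] at hκr ⊢
      linarith
    obtain ⟨a, haB, haN, hau, hab⟩ := hE (κ ^ 3) (by positivity)
    have ha : Narrow F r p (κ ^ 3) a := ⟨haB, hau, hab⟩
    have hI := stepI hB F hκ (hκ2.trans (by norm_num)) hr hz ha haN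
    have hII := stepII hB F hκ hκ2 (hz.β hB (-r)) ha haN
    have hlim : Tendsto dj atTop (𝓝[>] 0) :=
      tendsto_nhdsWithin_iff.2 ⟨tendsto_dj, Eventually.of_forall fun j => dj_pos j⟩
    have hev : ∀ᶠ j in atTop,
        pmean (dj j) (fun τ => hat (dj j) τ ^ 2 * ‖D.σ τ a w‖ ^ 2)
          ≤ C * κ ^ 2 * ‖a S.Ω‖ ^ 2 := by
      filter_upwards [hlim.eventually (hI.and hII)] with j hj
      obtain ⟨h1, h2⟩ := hj
      have hc1 : Continuous fun τ =>
          hat (dj j) τ ^ 2 * ‖(y * D.σ τ a - D.σ τ a * z) S.Ω‖ ^ 2 := by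
        simp only [sub_apply, mul_apply_eq_comp]; fun_prop
      have hc2 : Continuous fun τ =>
          hat (dj j) τ ^ 2 * ‖(D.σ τ a * D.σ (-p) y - y * D.σ τ a) S.Ω‖ ^ 2 := by
        simp only [sub_apply, mul_apply_eq_comp]; fun_prop
      refine (pmean_mono (dj_pos j) (by fun_prop)
        ((continuous_const.mul hc1).add (continuous_const.mul hc2))
        (g := fun τ => 2 * (hat (dj j) τ ^ 2 * ‖(y * D.σ τ a - D.σ τ a * z) S.Ω‖ ^ 2)
          + 2 * (hat (dj j) τ ^ 2 * ‖(D.σ τ a * D.σ (-p) y - y * D.σ τ a) S.Ω‖ ^ 2))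
        fun τ => ?_).trans ?_
      · have e : D.σ τ a w = (D.σ τ a * D.σ (-p) y - y * D.σ τ a) S.Ω
            - -((y * D.σ τ a - D.σ τ a * z) S.Ω) := by
          simp only [hw, sub_apply, mul_apply_eq_comp, map_sub]
          abel
        rw [e]
        refine (mul_le_mul_of_nonneg_left (norm_sub_sq_le _ _) (sq_nonneg _)).trans_eq ?_
        rw [norm_neg]
        ring
      · rw [pmean_add (f := fun τ =>
              2 * (hat (dj j) τ ^ 2 * ‖(y * D.σ τ a - D.σ τ a * z) S.Ω‖ ^ 2))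
            (g := fun τ =>
              2 * (hat (dj j) τ ^ 2 * ‖(D.σ τ a * D.σ (-p) y - y * D.σ τ a) S.Ω‖ ^ 2))
            (continuous_const.mul hc1) (continuous_const.mul hc2), pmean_const_mul,
          pmean_const_mul, hC]
        linarith
    have h := le_of_tendsto (ergodic hB haB w) hev
    refine le_of_mul_le_mul_left (a := ‖a S.Ω‖ ^ 2) ?_ (by positivity)
    linarith
  have h0 : hatSq * ‖w‖ ^ 2 ≤ 0 := by
    have ht : Tendsto (fun κ : ℝ => C * κ ^ 2) (𝓝[>] 0) (𝓝 0) :=
      tendsto_nhdsWithin_of_tendsto_nhds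
        (by simpa using ((continuous_pow 2).tendsto (0 : ℝ)).const_mul C)
    refine ge_of_tendsto ht ?_
    filter_upwards [self_mem_nhdsWithin, (eventually_le_nhds
      (show (0 : ℝ) < 1 / (|r| + 2) by positivity)).filter_mono nhdsWithin_le_nhds] with κ h1 h2
    exact hbound κ h1 h2
  have hw0 : ‖w‖ ^ 2 ≤ 0 := by
    by_contra h
    exact (mul_pos hatSq_pos (not_le.1 h)).not_ge h0
  exact sub_eq_zero.1 (norm_eq_zero.1 (pow_eq_zero_iff two_ne_zero |>.1
    (le_antisymm hw0 (sq_nonneg _))))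

end P132.RouteA

namespace P132

open RouteA

variable {H : Type*} [NormedAddCommGroup H] [InnerProductSpace ℂ H] [CompleteSpace H]
variable {S : Std H}

/-- Route A: at a point `(r, p)` of the joint spectrum, `β (-r) = σ p` on the bicentralizer. -/
theorem routeA (D : Modular S) : GoalRouteA D := by
  intro hB F r p hE x hx
  have hβ := F.mem (-r) x hx
  have h : D.σ (-p) (F.β (-r) x) S.Ω = x S.Ω := by
    refine sub_eq_zero.1 (norm_le_zero_iff.1 (le_of_forall_pos_le_add fun ε hε => ?_))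
    obtain ⟨z, L, hz, hzx⟩ := exists_nice hB F hx (half_pos hε)
    have e : D.σ (-p) (F.β (-r) x) S.Ω - x S.Ω
        = D.σ (-p) (F.β (-r) (x - z)) S.Ω + (z - x) S.Ω := by
      rw [β_sub F hB (-r) hx hz.mem, σ_sub, sub_apply, sub_apply, twist_nice hB F hE hz]
      abel
    rw [e, zero_add]
    refine (norm_add_le _ _).trans ?_
    rw [norm_σ_Ω, norm_β_Ω F hB (-r) (sub_mem_B hB hx hz.mem), sub_apply, norm_sub_rev,
      ← sub_apply]
    linarith
  have hσ : D.σ (-p) (F.β (-r) x) = x :=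
    ext_Ω (mem_M hB (hB.σ_mem _ _ hβ)) (mem_M hB hx) h
  conv_rhs => rw [← hσ]
  rw [← σ_add, add_neg_cancel, σ_zero]

end P132
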