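import Vale.Agent.P132.TypeIII
import Vale.Agent.P132.Tomita.Modular

/-!
# P132: the hypothesis and the spectrum of Tomita's modular operator

With `R = P + Q` the operator of Rieffel and van Daele the modular operator is `Δ = (2 - R) / R`,
so `l > 0` is in the spectrum of `Δ` iff `2 / (1 + l)` is in the spectrum of `R`. This is exactly
`InSpec` for the vector state.
-/

noncomputable section

namespace P132

open Filter Topology Complex
open scoped InnerProductSpace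
open Vale.Agent.P132.Tomita

universe u

variable {H : Type u} [NormedAddCommGroup H] [InnerProductSpace ℂ H] [CompleteSpace H]

/-- Elements of `M` realize a vector `R v` together with its image `D v` under `x Ω ↦ x* Ω`. -/
lemma exists_graph_approx {M : VonNeumannAlgebra H} {Ω : H} (v : H) {δ : ℝ} (hδ : 0 < δ) :
    ∃ x ∈ M, ‖x Ω - R M Ω v‖ ≤ δ ∧ ‖star x Ω - Vale.Agent.P132.Tomita.D M Ω v‖ ≤ δ := by
  have key : ∀ k : H, k ∈ K M Ω → ∃ a ∈ M, IsSelfAdjoint a ∧ ‖a Ω - k‖ ≤ δ / 2 := by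
    intro k hk
    obtain ⟨w, hw, hd⟩ := Metric.mem_closure_iff.1
      (show k ∈ closure (saVectors M Ω : Set H) from hk) (δ / 2) (half_pos hδ)
    obtain ⟨a, ha, hsa, rfl⟩ := hw
    exact ⟨a, ha, hsa, by rw [← dist_eq_norm, dist_comm]; exact hd.le⟩
  obtain ⟨a, ha, hsa, ha'⟩ := key _ (proj_mem v)
  obtain ⟨b, hb, hsb, hb'⟩ := key _ (proj_mem (-I • v))
  refine ⟨a + I • b, add_mem ha (M.toStarSubalgebra.smul_mem hb I), ?_, ?_⟩
  · calc ‖(a + I • b) Ω - R M Ω v‖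
        = ‖(a Ω - proj M Ω v) + I • (b Ω - proj M Ω (-I • v))‖ := by
          rw [Vale.Agent.P132.Tomita.R_apply, projI, add_apply, smul_apply, smul_sub]; congr 1; abel
      _ ≤ δ := (norm_add_le _ _).trans (by rw [norm_smul, Complex.norm_I, one_mul]; linarith)
  · calc ‖star (a + I • b) Ω - Vale.Agent.P132.Tomita.D M Ω v‖
        = ‖(a Ω - proj M Ω v) - I • (b Ω - proj M Ω (-I • v))‖ := by
          rw [Vale.Agent.P132.Tomita.D_apply, projI, star_add, star_smul, hsa.star_eq, hsb.star_eq,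
            add_apply, smul_apply, Complex.star_def, Complex.conj_I, neg_smul, smul_sub]
          congr 1; abel
      _ ≤ δ := (norm_sub_le _ _).trans (by rw [norm_smul, Complex.norm_I, one_mul]; linarith)

lemma norm_R_le' (M : VonNeumannAlgebra H) (Ω v : H) : ‖R M Ω v‖ ≤ 2 * ‖v‖ :=
  (LinearMap.mkContinuous_norm_le _ (by norm_num) _ |> fun h =>
    ((R M Ω).le_opNorm v).trans (mul_le_mul_of_nonneg_right h (norm_nonneg v)))

lemma norm_D_le' (M : VonNeumannAlgebra H) (Ω v : H) :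
    ‖Vale.Agent.P132.Tomita.D M Ω v‖ ≤ 2 * ‖v‖ := by
  rw [Vale.Agent.P132.Tomita.D_apply]
  refine (norm_sub_le _ _).trans ?_
  have h1 := norm_proj_le M Ω v
  have h2 := norm_proj_le M Ω (-I • v)
  simp only [projI, norm_smul, Complex.norm_I, one_mul, norm_neg] at h2 ⊢
  linarith

/-- Real points of the spectrum of a self-adjoint operator are the approximate eigenvalues. -/
lemma mem_spectrum_iff_approx {T : H →L[ℂ] H} (hT : IsSelfAdjoint T) (μ : ℝ) :
    (μ : ℂ) ∈ spectrum ℂ T ↔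
      ∀ δ : ℝ, 0 < δ → ∃ v : H, ‖v‖ = 1 ∧ ‖T v - (μ : ℂ) • v‖ ≤ δ := by
  set A : H →L[ℂ] H := (μ : ℂ) • 1 - T with hA
  have hAv : ∀ v, ‖A v‖ = ‖T v - (μ : ℂ) • v‖ := fun v => by
    rw [hA, sub_apply, smul_apply, one_apply_eq_self, norm_sub_rev]
  have hspec : (μ : ℂ) ∈ spectrum ℂ T ↔ ¬IsUnit A := by
    rw [spectrum.mem_iff, Algebra.algebraMap_eq_smul_one, hA]
  rw [hspec]
  constructor
  · intro hu δ hδ
    by_contra! h
    refine hu ?_
    have hlow : ∀ v, δ * ‖v‖ ≤ ‖A v‖ := by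
      intro v
      rcases eq_or_ne v 0 with rfl | hv
      · simp
      have hn : (0 : ℝ) < ‖v‖ := norm_pos_iff.2 hv
      have h1 := h (((‖v‖⁻¹ : ℝ) : ℂ) • v) (by simp [norm_smul, hn.ne'])
      rw [← hAv, map_smul, norm_smul, Complex.norm_real, Real.norm_of_nonneg (by positivity),
        inv_mul_eq_div, lt_div_iff₀ hn] at h1
      exact h1.le
    rw [ContinuousLinearMap.isUnit_iff_bijective,
      ContinuousLinearMap.bijective_iff_dense_range_and_antilipschitz]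
    refine ⟨?_, ⟨Real.toNNReal δ⁻¹, AddMonoidHomClass.antilipschitz_of_bound A fun v => ?_⟩⟩
    · refine Submodule.topologicalClosure_eq_top_iff.2 ((Submodule.eq_bot_iff _).2 fun w hw => ?_)
      have hAsa : IsSelfAdjoint A := by
        rw [hA]
        refine IsSelfAdjoint.sub ?_ hT
        simp [IsSelfAdjoint, star_smul]
      have h0 : A w = 0 := ext_inner_left ℂ fun u => by
        rw [← hAsa.star_eq, ContinuousLinearMap.star_eq_adjoint,
          ContinuousLinearMap.adjoint_inner_right, inner_zero_right]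
        exact hw _ ⟨u, rfl⟩
      have := hlow w
      rw [h0, norm_zero] at this
      exact norm_eq_zero.1 (le_antisymm (nonpos_of_mul_nonpos_right this hδ) (norm_nonneg w))
    · rw [Real.coe_toNNReal _ (by positivity), inv_mul_eq_div, le_div_iff₀ hδ, mul_comm]
      exact hlow v
  · rintro h ⟨u, hu⟩
    obtain ⟨v, hv1, hv⟩ := h (1 / (2 * (‖(↑u⁻¹ : H →L[ℂ] H)‖ + 1))) (by positivity)
    rw [← hAv] at hv
    have h1 : (↑u⁻¹ : H →L[ℂ] H) (A v) = v := by
      rw [← mul_apply_eq_comp, ← hu, u.inv_mul, one_apply_eq_self]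
    have h2 := (↑u⁻¹ : H →L[ℂ] H).le_opNorm (A v)
    rw [h1, hv1] at h2
    have h3 := h2.trans (mul_le_mul_of_nonneg_left hv (norm_nonneg _))
    rw [mul_one_div, le_div_iff₀ (by positivity)] at h3
    linarith [norm_nonneg (↑u⁻¹ : H →L[ℂ] H)]

/-- **`InSpec` is the spectral condition on Tomita's modular operator.** -/
theorem inSpec_iff_mem_spectrum (S : Std H) {l : ℝ} (hl : 0 < l) :
    InSpec S.M S.φ l ↔ ((2 / (1 + l) : ℝ) : ℂ) ∈ spectrum ℂ (R S.M S.Ω) := by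
  rw [mem_spectrum_iff_approx isSelfAdjoint_R]
  set μ := 2 / (1 + l) with hμ
  have hμ0 : 0 < μ := by positivity
  set Rm := R S.M S.Ω
  set Dm := Vale.Agent.P132.Tomita.D S.M S.Ω
  have hin : ∀ a b : H →L[ℂ] H, S.φ (star a * b) = ⟪a S.Ω, b S.Ω⟫_ℂ := fun a b => by
    rw [Std.φ, mul_apply_eq_comp, ← inner_star_left, star_star]
  have hin' : ∀ a b : H →L[ℂ] H, S.φ (a * star b) = ⟪star a S.Ω, star b S.Ω⟫_ℂ := fun a b => by
    rw [← hin, star_star]
  have hre : ∀ a : H →L[ℂ] H, (S.φ (star a * a)).re + (S.φ (a * star a)).re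
      = ‖a S.Ω‖ ^ 2 + ‖star a S.Ω‖ ^ 2 := fun a => by
    rw [hin, hin']
    exact congrArg₂ (· + ·) (inner_self_eq_norm_sq (𝕜 := ℂ) _) (inner_self_eq_norm_sq (𝕜 := ℂ) _)
  constructor
  · intro h δ hδ
    set ε := δ * (1 + l) / 4
    obtain ⟨x, hx, hx1, hxr⟩ := h ε (by positivity)
    rw [hin] at hx1
    have hn : ‖x S.Ω‖ = 1 := by
      have h2 : ‖x S.Ω‖ ^ 2 = 1 := by
        rw [← @inner_self_eq_norm_sq ℂ, hx1]; simp
      exact (pow_eq_one_iff_of_nonneg (norm_nonneg _) two_ne_zero).1 h2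
    refine ⟨x S.Ω, hn, ?_⟩
    set z := (2 : ℂ) • x S.Ω - Rm (x S.Ω) - (l : ℂ) • Rm (x S.Ω) with hz
    have hz2 : ∀ w, ‖⟪w, z⟫_ℂ‖ ≤ ε * (4 * ‖w‖) := by
      intro w
      refine le_of_forall_pos_le_add fun η hη => ?_
      set τ := η / ((ε + 1) * 4 + (‖star x S.Ω‖ + l)) with hτ
      have hτ0 : 0 < τ := by positivity
      obtain ⟨y, hy, hy1, hy2⟩ := exists_graph_approx (M := S.M) (Ω := S.Ω) w hτ0
      have h1 := hxr y hy
      rw [hre, hin, hin'] at h1
      have e : ⟪w, z⟫_ℂ = ⟪star x S.Ω, Dm w⟫_ℂ - (l : ℂ) * ⟪Rm w, x S.Ω⟫_ℂ := by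
        rw [inner_D (M := S.M) (Ω := S.Ω) (star x S.Ω) w, D_apply_star hx, inner_R, hz]
        simp [inner_sub_right, inner_smul_right]
        rfl
      have e2 : ⟪w, z⟫_ℂ = (⟪star x S.Ω, star y S.Ω⟫_ℂ - (l : ℂ) * ⟪y S.Ω, x S.Ω⟫_ℂ)
          - ⟪star x S.Ω, star y S.Ω - Dm w⟫_ℂ + (l : ℂ) * ⟪y S.Ω - Rm w, x S.Ω⟫_ℂ := by
        rw [e, inner_sub_right, inner_sub_left]; ring
      have h4 : Real.sqrt (‖y S.Ω‖ ^ 2 + ‖star y S.Ω‖ ^ 2) ≤ 4 * ‖w‖ + 4 * τ := by
        have b1 : ‖y S.Ω‖ ≤ 2 * ‖w‖ + τ := by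
          linarith [norm_R_le' S.M S.Ω w, norm_le_insert' (y S.Ω) (Rm w)]
        have b2 : ‖star y S.Ω‖ ≤ 2 * ‖w‖ + τ := by
          linarith [norm_D_le' S.M S.Ω w, norm_le_insert' (star y S.Ω) (Dm w)]
        refine (Real.sqrt_le_iff).2 ⟨by positivity, ?_⟩
        nlinarith [norm_nonneg (y S.Ω), norm_nonneg (star y S.Ω), norm_nonneg w]
      rw [e2]
      refine (norm_add_le _ _).trans ((add_le_add ((norm_sub_le _ _).trans (add_le_add
        (h1.trans (mul_le_mul_of_nonneg_left h4 (by positivity)))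
        ((norm_inner_le_norm _ _).trans (mul_le_mul_of_nonneg_left hy2 (norm_nonneg _)))))
        (le_of_eq (norm_mul _ _))).trans ?_)
      have h5 : ‖⟪y S.Ω - Rm w, x S.Ω⟫_ℂ‖ ≤ τ :=
        ((norm_inner_le_norm _ _).trans_eq (by rw [hn, mul_one])).trans hy1
      rw [Complex.norm_real, Real.norm_of_nonneg hl.le]
      have h6 := mul_le_mul_of_nonneg_left h5 hl.le
      have h7 : τ * ((ε + 1) * 4 + (‖star x S.Ω‖ + l)) = η :=
        div_mul_cancel₀ _ (by positivity)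
      nlinarith [norm_nonneg (star x S.Ω)]
    have hz3 : ‖z‖ ≤ ε * 4 := by
      have h1 := hz2 z
      rw [inner_self_eq_norm_sq_to_K, norm_pow, RCLike.norm_ofReal, abs_norm] at h1
      rcases eq_or_lt_of_le (norm_nonneg z) with h0 | h0
      · rw [← h0]; positivity
      · nlinarith
    have e : Rm (x S.Ω) - (μ : ℂ) • x S.Ω = (-((1 + l)⁻¹ : ℝ) : ℂ) • z := by
      have hl0 : (1 + l : ℂ) ≠ 0 := by exact_mod_cast (show (1 + l : ℝ) ≠ 0 by positivity)
      rw [hz, hμ]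
      push_cast
      match_scalars <;> field_simp
      ring
    rw [e, norm_smul, norm_neg, Complex.norm_real, Real.norm_of_nonneg (by positivity),
      inv_mul_eq_div, div_le_iff₀ (by positivity)]
    exact hz3.trans_eq (by simp only [ε]; ring)
  · intro h ε hε
    -- an approximate eigenvector `v`, and `x` with `x Ω ≈ R v`, `x* Ω ≈ D v`
    set δ := min (μ / 4) (ε * μ / (4 * (1 + l)))
    have hδ : 0 < δ := lt_min (by positivity) (by positivity)
    obtain ⟨v, hv1, hv⟩ := h δ hδ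
    have hRv : μ - δ ≤ ‖Rm v‖ := by
      have h1 := norm_le_insert' ((μ : ℂ) • v) (Rm v)
      rw [norm_smul, Complex.norm_real, Real.norm_of_nonneg hμ0.le, hv1, mul_one, norm_sub_rev] at h1
      linarith
    set τ := min (μ / 4) (ε * μ / (4 * (1 + l)))
    obtain ⟨x, hx, hx1, hx2⟩ := exists_graph_approx (M := S.M) (Ω := S.Ω) v
      (show 0 < τ from hδ)
    have hxn : μ / 2 ≤ ‖x S.Ω‖ := by
      have h1 := norm_le_insert' (Rm v) (x S.Ω)
      rw [norm_sub_rev] at h1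
      linarith [min_le_left (μ / 4) (ε * μ / (4 * (1 + l)))]
    have hx0 : (0 : ℝ) < ‖x S.Ω‖ := by linarith
    set c := ‖x S.Ω‖⁻¹ with hc
    refine ⟨(c : ℂ) • x, S.M.toStarSubalgebra.smul_mem hx _, ?_, fun y hy => ?_⟩
    · rw [hin, smul_apply, inner_self_eq_norm_sq_to_K, norm_smul, Complex.norm_real,
        Real.norm_of_nonneg (inv_nonneg.2 hx0.le), inv_mul_cancel₀ hx0.ne']
      simp
    · rw [hre, hin, hin', star_smul, smul_apply, smul_apply, Complex.star_def, Complex.conj_ofReal,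
        inner_smul_left, inner_smul_right, Complex.conj_ofReal, mul_left_comm (l : ℂ), ← mul_sub,
        norm_mul, Complex.norm_real, Real.norm_of_nonneg (inv_nonneg.2 hx0.le)]
      have e : ⟪Dm v, star y S.Ω⟫_ℂ - (l : ℂ) * ⟪y S.Ω, Rm v⟫_ℂ
          = -((1 + l : ℝ) : ℂ) * ⟪y S.Ω, Rm v - (μ : ℂ) • v⟫_ℂ := by
        rw [inner_D_left, D_apply_star hy, inner_sub_left, inner_smul_left, inner_R, inner_sub_right,
          inner_smul_right, map_ofNat, hμ]
        have hl0 : (1 + l : ℂ) ≠ 0 := by exact_mod_cast (show (1 + l : ℝ) ≠ 0 by positivity)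
        push_cast
        field_simp
        ring
      set A := ‖y S.Ω‖
      set B := ‖star y S.Ω‖
      have e2 : ⟪star x S.Ω, star y S.Ω⟫_ℂ - (l : ℂ) * ⟪y S.Ω, x S.Ω⟫_ℂ
          = (⟪Dm v, star y S.Ω⟫_ℂ - (l : ℂ) * ⟪y S.Ω, Rm v⟫_ℂ)
            + ⟪star x S.Ω - Dm v, star y S.Ω⟫_ℂ - (l : ℂ) * ⟪y S.Ω, x S.Ω - Rm v⟫_ℂ := by
        rw [inner_sub_left, inner_sub_right]; ring
      have b0 : ‖⟪Dm v, star y S.Ω⟫_ℂ - (l : ℂ) * ⟪y S.Ω, Rm v⟫_ℂ‖ ≤ (1 + l) * (A * δ) := by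
        rw [e, norm_mul, norm_neg, Complex.norm_real, Real.norm_of_nonneg (by linarith)]
        exact mul_le_mul_of_nonneg_left ((norm_inner_le_norm _ _).trans
          (mul_le_mul_of_nonneg_left hv (norm_nonneg _))) (by linarith)
      have b1 : ‖⟪star x S.Ω - Dm v, star y S.Ω⟫_ℂ‖ ≤ τ * B :=
        (norm_inner_le_norm _ _).trans (mul_le_mul_of_nonneg_right hx2 (norm_nonneg _))
      have b2 : ‖⟪y S.Ω, x S.Ω - Rm v⟫_ℂ‖ ≤ A * τ :=
        (norm_inner_le_norm _ _).trans (mul_le_mul_of_nonneg_left hx1 (norm_nonneg _))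
      have b3 : ‖⟪star x S.Ω, star y S.Ω⟫_ℂ - (l : ℂ) * ⟪y S.Ω, x S.Ω⟫_ℂ‖
          ≤ (1 + l) * (A * δ) + τ * B + l * (A * τ) := by
        rw [e2]
        refine (norm_sub_le _ _).trans (add_le_add ((norm_add_le _ _).trans (add_le_add b0 b1)) ?_)
        rw [norm_mul, Complex.norm_real, Real.norm_of_nonneg hl.le]
        exact mul_le_mul_of_nonneg_left b2 hl.le
      have hAB : A ≤ Real.sqrt (A ^ 2 + B ^ 2) ∧ B ≤ Real.sqrt (A ^ 2 + B ^ 2) :=
        ⟨Real.le_sqrt_of_sq_le (by nlinarith [sq_nonneg B]),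
          Real.le_sqrt_of_sq_le (by nlinarith [sq_nonneg A])⟩
      set Q := Real.sqrt (A ^ 2 + B ^ 2)
      have hτ2 : 4 * (1 + l) * τ ≤ ε * μ := by
        have h1 : τ ≤ ε * μ / (4 * (1 + l)) := min_le_right _ _
        rw [le_div_iff₀ (by positivity)] at h1
        linarith
      rw [inv_mul_eq_div, div_le_iff₀ hx0]
      refine b3.trans ?_
      have hτA := mul_le_mul_of_nonneg_left hAB.1 (show 0 ≤ (1 + 2 * l) * τ by positivity)
      have hτB := mul_le_mul_of_nonneg_left hAB.2 hδ.le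
      have hQ : 0 ≤ Q := Real.sqrt_nonneg _
      nlinarith [mul_le_mul_of_nonneg_left hxn (mul_nonneg hε.le hQ),
        mul_le_mul_of_nonneg_right hτ2 hQ]

end P132
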