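import Vale.Agent.P132.Main
import Vale.Agent.P132.RouteA
import Vale.Agent.P132.RouteB
import Vale.Agent.P132.TypeIIIBridge

/-!
# P132: the bicentralizer theorem
-/

namespace P132

universe u

/-- The bicentralizer of every faithful normal state of a factor of type III₁ is trivial. -/
theorem bicentralizer_trivial {H : Type u} [NormedAddCommGroup H] [InnerProductSpace ℂ H]
    [CompleteSpace H] [TopologicalSpace.SeparableSpace H] {M : VonNeumannAlgebra H}
    (hM : IsTypeIII1 M) {φ : (H →L[ℂ] H) → ℂ} (hφ : IsNormalState M φ) (hf : IsFaithful M φ) :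
    bicentralizer M φ = scalars H :=
  bicentralizer_trivial_of_routes (fun _ _ _ _ _ D => routeA D) (fun _ _ _ _ _ D => routeB D)
    hM hφ hf

end P132
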