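import Vale.Agent.P132.Flow.Beta
import Vale.Agent.P132.Flow.Key

/-!
# P132: the bicentralizer flow
-/

noncomputable section

namespace P132

open Filter Topology Complex
open scoped InnerProductSpace

variable {H : Type*} [NormedAddCommGroup H] [InnerProductSpace ℂ H] [CompleteSpace H]

/-- Steps 1 and 2: the flow exists. -/
theorem exists_flow {S : Std H} (D : Modular S) (h : Homog S) (hb : BFacts D) :
    Nonempty (Flow D) := by
  have hexp : ∀ {n : ℕ} {L : Fin n → ℝ}, (∑ k, Real.exp (L k)) = 1 → ∀ k, L k ≤ 0 := fun hL k =>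
    Real.exp_le_one_iff.1 (hL ▸ Finset.single_le_sum (fun j _ => (Real.exp_pos _).le)
      (Finset.mem_univ k))
  refine ⟨⟨S.bflow, fun s x hx => D.bflow_mem h s hx, fun x hx => D.bflow_zero h hb hx,
    fun s t x hx => D.bflow_add h hb s t hx, fun s x hx y hy => D.bflow_map_add h hb s hx hy,
    fun s c x hx => D.bflow_map_smul h hb s c hx,
    fun s x hx y hy => D.bflow_map_mul h hb s hx hy, fun s x hx => D.bflow_map_star h hb s hx,
    fun s => D.bflow_one h hb s, fun s x hx => D.norm_bflow_le h hb s hx,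
    fun s x hx => D.φ_bflow h hb s hx, fun s t x hx => D.bflow_σ h hb s t hx,
    fun x hx => D.bflow_cont h hb hx, ?_, ?_⟩⟩
  · intro x hx hfix K ε hε
    obtain ⟨η, hη, hd⟩ := D.key_core h hx K hε
    refine ⟨η, hη, fun n L e hL he heK heL => le_of_eq_of_le ?_ (hd n L e hL he heK heL)⟩
    have hk : ∀ k, S.cmp (Real.exp (L k)) x = x := fun k => by
      rw [← Std.cmpExp, ← D.bflow_of_nonpos h hb (hexp hL k) hx, hfix]
    simp only [hk]
  · intro x hx K ε hε
    obtain ⟨η, hη, hd⟩ := D.key_core h hx K hε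
    refine ⟨η, hη, fun n L c e hL he heK heL => le_of_eq_of_le ?_
      (hd n L (fun k l => S.bflow (-c) (e k l)) hL (fun k l => (D.bflow_mem h _ (he k l)).1)
        (D.matBound_bflow h hb _ he heK) (D.matLip_bflow h hb _ he heL))⟩
    refine Finset.sum_congr rfl fun k _ => Finset.sum_congr rfl fun l _ => ?_
    congr 2
    have hbk : ∀ j, S.cmp (Real.exp (L j)) x ∈ S.B := fun j =>
      D.cmpExp_mem h (hexp hL j) hx
    have he' := fun k l => D.bflow_mem h (-c) (he k l)
    have hec : S.bflow c (S.bflow (-c) (e k l)) = e k l := by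
      rw [← D.bflow_add h hb c (-c) (he k l), add_neg_cancel, D.bflow_zero h hb (he k l)]
    have hbc : ∀ j, S.bflow c (S.cmp (Real.exp (L j)) x) = S.bflow (L j + c) x := fun j => by
      rw [← Std.cmpExp, ← D.bflow_of_nonpos h hb (hexp hL j) hx, ← D.bflow_add h hb c (L j) hx,
        add_comm]
    rw [← D.norm_bflow_Ω h hb c (x := S.cmp (Real.exp (L k)) x * S.bflow (-c) (e k l) -
        S.bflow (-c) (e k l) * S.cmp (Real.exp (L l)) x)
        (D.sub_mem_B hb (hb.mul _ (hbk k) _ (he' k l)) (hb.mul _ (he' k l) _ (hbk l))),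
      D.bflow_map_sub h hb c (hb.mul _ (hbk k) _ (he' k l)) (hb.mul _ (he' k l) _ (hbk l)),
      D.bflow_map_mul h hb c (hbk k) (he' k l), D.bflow_map_mul h hb c (he' k l) (hbk l),
      hec, hbc, hbc]

end P132
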