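import Vale.Agent.P132.Smear

/-!
# P132: the Gaussian kernel and the entire function `z ↦ ∫ G(t) e^{zt} σ_t x dt`
-/

noncomputable section

namespace P132

open Filter Topology Complex MeasureTheory ComplexConjugate

/-- The Gaussian kernel `t ↦ G_m (t - z)`, of total integral one. -/
def gk (m : ℝ) (z : ℂ) (t : ℝ) : ℂ :=
  ((m / Real.sqrt Real.pi : ℝ) : ℂ) * cexp (-(m : ℂ) ^ 2 * ((t : ℂ) - z) ^ 2)

lemma norm_gk {m : ℝ} (hm : 0 ≤ m) (z : ℂ) (t : ℝ) :
    ‖gk m z t‖ = m / Real.sqrt Real.pi * Real.exp (-(m ^ 2 * ((t - z.re) ^ 2 - z.im ^ 2))) := by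
  rw [gk, norm_mul, norm_exp, Complex.norm_real, Real.norm_of_nonneg (by positivity)]
  congr 2
  simp [sq, Complex.mul_re, Complex.mul_im]
  try ring

lemma norm_gk_eq {m : ℝ} (hm : 0 ≤ m) (z : ℂ) (t : ℝ) :
    ‖gk m z t‖ = m / Real.sqrt Real.pi * Real.exp (m ^ 2 * z.im ^ 2) *
      Real.exp (-(m ^ 2) * (t - z.re) ^ 2) := by
  rw [norm_gk hm, mul_assoc, ← Real.exp_add]
  ring_nf

lemma continuous_gk (m : ℝ) (z : ℂ) : Continuous fun t => gk m z t := by
  unfold gk; fun_prop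

lemma integrable_gk {m : ℝ} (hm : 0 < m) (z : ℂ) : Integrable fun t => gk m z t := by
  refine (integrable_norm_iff (continuous_gk m z).aestronglyMeasurable).1 ?_
  simp only [norm_gk_eq hm.le]
  exact ((integrable_exp_neg_mul_sq (pow_pos hm 2)).comp_sub_right z.re).const_mul _

lemma integrable_norm_gk_mul_abs {m : ℝ} (hm : 0 < m) (z : ℂ) :
    Integrable fun t => ‖gk m z t‖ * |t| := by
  have h1 := ((integrable_mul_exp_neg_mul_sq (pow_pos hm 2)).norm.comp_sub_right z.re).const_mul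
    (m / Real.sqrt Real.pi * Real.exp (m ^ 2 * z.im ^ 2))
  refine (h1.add ((integrable_gk hm z).norm.mul_const |z.re|)).mono'
    (((continuous_gk m z).norm.mul continuous_abs).aestronglyMeasurable)
    (Eventually.of_forall fun t => ?_)
  simp only [Pi.add_apply, norm_mul, Real.norm_eq_abs (t - z.re), Real.norm_eq_abs (Real.exp _), Real.abs_exp]
  have h : |t| ≤ |t - z.re| + |z.re| := by simpa using abs_add_le (t - z.re) z.re
  rw [norm_norm, Real.norm_eq_abs |t|, abs_abs]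
  refine (mul_le_mul_of_nonneg_left h (norm_nonneg _)).trans_eq ?_
  rw [norm_gk_eq hm.le]
  ring

lemma integral_gk {m : ℝ} (hm : 0 < m) (z : ℂ) : ∫ t, gk m z t = 1 := by
  have hb : (-(m : ℂ) ^ 2).re < 0 := by
    have h := pow_pos hm 2
    simp [sq] at h ⊢
    exact hm.ne'
  have h := integral_cexp_quadratic hb (2 * (m : ℂ) ^ 2 * z) (-(m : ℂ) ^ 2 * z ^ 2)
  have hm' : (m : ℂ) ≠ 0 := by exact_mod_cast hm.ne'
  simp only [gk, integral_const_mul]
  rw [show (fun t : ℝ => cexp (-(m : ℂ) ^ 2 * ((t : ℂ) - z) ^ 2)) = fun t : ℝ =>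
      cexp (-(m : ℂ) ^ 2 * (t : ℂ) ^ 2 + 2 * (m : ℂ) ^ 2 * z * t + -(m : ℂ) ^ 2 * z ^ 2) from
    funext fun t => by ring_nf, h,
    show -(m : ℂ) ^ 2 * z ^ 2 - (2 * (m : ℂ) ^ 2 * z) ^ 2 / (4 * -(m : ℂ) ^ 2) = 0 by
      field_simp; ring,
    show (Real.pi : ℂ) / -(-(m : ℂ) ^ 2) = ((Real.pi / m ^ 2 : ℝ) : ℂ) by push_cast; ring,
    show (1 / 2 : ℂ) = ((1 / 2 : ℝ) : ℂ) by norm_num,
    ← Complex.ofReal_cpow (by positivity), Complex.exp_zero, mul_one, ← Complex.ofReal_mul,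
    ← Real.sqrt_eq_rpow, Real.sqrt_div Real.pi_pos.le, Real.sqrt_sq hm.le]
  rw [← Complex.ofReal_one]
  congr 1
  have := Real.sqrt_pos.2 Real.pi_pos
  field_simp

lemma integral_norm_gk {m : ℝ} (hm : 0 < m) (z : ℂ) :
    ∫ t, ‖gk m z t‖ = Real.exp (m ^ 2 * z.im ^ 2) := by
  simp only [norm_gk_eq hm.le, integral_const_mul,
    integral_sub_right_eq_self (fun t => Real.exp (-(m ^ 2) * t ^ 2)) z.re, integral_gaussian]
  rw [Real.sqrt_div Real.pi_pos.le, Real.sqrt_sq hm.le]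
  have := Real.sqrt_pos.2 Real.pi_pos
  field_simp

lemma conj_gk (m : ℝ) (z : ℂ) (t : ℝ) : conj (gk m z t) = gk m (conj z) t := by
  simp [gk, ← Complex.exp_conj]

lemma gk_eq (m : ℝ) (z : ℂ) (t : ℝ) :
    gk m z t = cexp (-(m : ℂ) ^ 2 * z ^ 2) * (gk m 0 t * cexp (2 * (m : ℂ) ^ 2 * z * t)) := by
  rw [gk, gk, mul_left_comm, mul_assoc, ← Complex.exp_add, ← Complex.exp_add]
  congr 2
  ring

lemma gk_add (m : ℝ) (z : ℂ) (s t : ℝ) : gk m z (t - s) = gk m (z + s) t := by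
  simp only [gk, Complex.ofReal_sub]
  ring_nf

/-- `G_m(t) e^{ct}`. -/
def expKernel (m : ℝ) (c : ℂ) (t : ℝ) : ℂ := gk m 0 t * cexp (c * t)

lemma expKernel_eq {m : ℝ} (hm : 0 < m) (c : ℂ) : expKernel m c =
    fun t => cexp (c ^ 2 / (4 * (m : ℂ) ^ 2)) * gk m (c / (2 * (m : ℂ) ^ 2)) t := by
  funext t
  have hm' : (m : ℂ) ≠ 0 := by exact_mod_cast hm.ne'
  rw [expKernel, gk_eq m (c / _) t, ← mul_assoc, ← Complex.exp_add,
    show c ^ 2 / (4 * (m : ℂ) ^ 2) + -(m : ℂ) ^ 2 * (c / (2 * (m : ℂ) ^ 2)) ^ 2 = 0 by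
      field_simp; ring,
    show 2 * (m : ℂ) ^ 2 * (c / (2 * (m : ℂ) ^ 2)) = c by field_simp,
    Complex.exp_zero, one_mul]

lemma integrable_expKernel {m : ℝ} (hm : 0 < m) (c : ℂ) : Integrable (expKernel m c) := by
  rw [expKernel_eq hm c]
  exact (integrable_gk hm _).const_mul _

lemma integrable_expKernel_mul {m : ℝ} (hm : 0 < m) (c : ℂ) :
    Integrable fun t => expKernel m c t * (t : ℂ) := by
  refine (integrable_norm_iff ?_).1 ?_
  · exact (((continuous_gk m 0).mul (by fun_prop)).mul Complex.continuous_ofReal).aestronglyMeasurable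
  · simp only [expKernel_eq hm c, norm_mul, Complex.norm_real, Real.norm_eq_abs, mul_assoc]
    exact (integrable_norm_gk_mul_abs hm _).const_mul _

lemma taylor_expKernel_le {m : ℝ} (hm : 0 < m) (c h : ℂ) (hh : ‖h‖ ≤ 1) (t : ℝ) :
    ‖expKernel m (c + h) t - expKernel m c t - h * (expKernel m c t * t)‖ ≤
      ‖h‖ ^ 2 * (m / Real.sqrt Real.pi * (4 / m ^ 2) * Real.exp ((‖c‖ + 1) ^ 2 / m ^ 2) *
        Real.exp (-(m ^ 2 / 2) * t ^ 2)) := by
  have h1 : expKernel m (c + h) t - expKernel m c t - h * (expKernel m c t * t)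
      = expKernel m c t * (cexp (h * t) - 1 - h * t) := by
    simp only [expKernel, add_mul, Complex.exp_add]
    ring
  have h2 : ‖cexp (h * t) - 1 - h * t‖ ≤ ‖h * t‖ ^ 2 * Real.exp ‖h * t‖ := by
    simpa [Finset.sum_range_succ, sub_sub] using
      Complex.norm_exp_sub_sum_le_norm_mul_exp (h * t) 2
  have h3 : ‖expKernel m c t‖ ≤
      m / Real.sqrt Real.pi * Real.exp (-(m ^ 2) * t ^ 2 + ‖c‖ * |t|) := by
    rw [expKernel, norm_mul, norm_exp, norm_gk_eq hm.le, Real.exp_add, ← mul_assoc]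
    simp only [Complex.zero_im, Complex.zero_re, sub_zero, ne_eq, OfNat.ofNat_ne_zero,
      not_false_eq_true, zero_pow, mul_zero, Real.exp_zero, mul_one]
    gcongr
    refine (Complex.re_le_norm _).trans_eq ?_
    simp
  have h4 : ‖h * t‖ ≤ |t| := by
    rw [norm_mul, Complex.norm_real, Real.norm_eq_abs]
    exact mul_le_of_le_one_left (abs_nonneg _) hh
  have hm2 : 0 < m ^ 2 := pow_pos hm 2
  have h5 : t ^ 2 ≤ 4 / m ^ 2 * Real.exp (m ^ 2 * t ^ 2 / 4) := by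
    rw [div_mul_eq_mul_div, le_div_iff₀ hm2]
    nlinarith [Real.add_one_le_exp (m ^ 2 * t ^ 2 / 4)]
  have h6 : (‖c‖ + 1) * |t| ≤ m ^ 2 * t ^ 2 / 4 + (‖c‖ + 1) ^ 2 / m ^ 2 := by
    rw [← sub_nonneg, ← sq_abs t]
    have := sq_nonneg (m * |t| / 2 - (‖c‖ + 1) / m)
    field_simp at this ⊢
    nlinarith
  rw [h1, norm_mul]
  calc ‖expKernel m c t‖ * ‖cexp (h * t) - 1 - h * t‖
      ≤ m / Real.sqrt Real.pi * Real.exp (-(m ^ 2) * t ^ 2 + ‖c‖ * |t|) *
        (‖h * t‖ ^ 2 * Real.exp |t|) := by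
        refine mul_le_mul h3 (h2.trans ?_) (norm_nonneg _) (by positivity)
        gcongr
    _ = ‖h‖ ^ 2 * (m / Real.sqrt Real.pi *
        (t ^ 2 * Real.exp (-(m ^ 2) * t ^ 2 + (‖c‖ + 1) * |t|))) := by
        rw [norm_mul, mul_pow, Complex.norm_real, Real.norm_eq_abs, sq_abs,
          show -(m ^ 2) * t ^ 2 + (‖c‖ + 1) * |t| = -(m ^ 2) * t ^ 2 + ‖c‖ * |t| + |t| by ring,
          Real.exp_add (-(m ^ 2) * t ^ 2 + ‖c‖ * |t|) |t|]
        ring
    _ ≤ ‖h‖ ^ 2 * (m / Real.sqrt Real.pi *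
        (4 / m ^ 2 * Real.exp (m ^ 2 * t ^ 2 / 4) *
          Real.exp (-(m ^ 2) * t ^ 2 + (m ^ 2 * t ^ 2 / 4 + (‖c‖ + 1) ^ 2 / m ^ 2)))) := by
        gcongr
    _ = _ := by
        rw [show -(m ^ 2) * t ^ 2 + (m ^ 2 * t ^ 2 / 4 + (‖c‖ + 1) ^ 2 / m ^ 2)
            = -(m ^ 2 * t ^ 2 / 4) + ((‖c‖ + 1) ^ 2 / m ^ 2 + -(m ^ 2 / 2) * t ^ 2) by ring,
          Real.exp_add, Real.exp_add]
        have : Real.exp (m ^ 2 * t ^ 2 / 4) * Real.exp (-(m ^ 2 * t ^ 2 / 4)) = 1 := by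
          rw [← Real.exp_add, add_neg_cancel, Real.exp_zero]
        linear_combination (‖h‖ ^ 2 * (m / Real.sqrt Real.pi) * (4 / m ^ 2) *
          Real.exp ((‖c‖ + 1) ^ 2 / m ^ 2) * Real.exp (-(m ^ 2 / 2) * t ^ 2)) * this

namespace Modular

variable {H : Type*} [NormedAddCommGroup H] [InnerProductSpace ℂ H] [CompleteSpace H]
variable {S : Std H} (D : Modular S)

lemma hasDerivAt_smear_expKernel {m : ℝ} (hm : 0 < m) (x : H →L[ℂ] H) (c : ℂ) :
    HasDerivAt (fun c => D.smear (expKernel m c) x)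
      (D.smear (fun t => expKernel m c t * t) x) c := by
  rw [hasDerivAt_iff_isLittleO_nhds_zero]
  set K := ∫ t : ℝ, m / Real.sqrt Real.pi * (4 / m ^ 2) * Real.exp ((‖c‖ + 1) ^ 2 / m ^ 2) *
    Real.exp (-(m ^ 2 / 2) * t ^ 2) with hK
  have hi := (integrable_exp_neg_mul_sq (half_pos (pow_pos hm 2))).const_mul
    (m / Real.sqrt Real.pi * (4 / m ^ 2) * Real.exp ((‖c‖ + 1) ^ 2 / m ^ 2))
  refine (Asymptotics.IsBigO.of_bound (K * ‖x‖) ?_).trans_isLittleO
    (Asymptotics.isLittleO_pow_id (by norm_num : 1 < 2))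
  filter_upwards [Metric.closedBall_mem_nhds (0 : ℂ) one_pos] with h hh
  rw [mem_closedBall_zero_iff] at hh
  have h1 := integrable_expKernel hm (c + h)
  have h2 := integrable_expKernel hm c
  have h3 := (integrable_expKernel_mul hm c).const_mul h
  rw [← D.smear_const_mul h (integrable_expKernel_mul hm c), ← D.smear_sub h1 h2,
    ← D.smear_sub (f := fun t => expKernel m (c + h) t - expKernel m c t) (h1.sub h2) h3]
  refine (D.norm_smear_le ((h1.sub h2).sub h3) x).trans ?_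
  rw [norm_pow, mul_comm K, mul_assoc, mul_comm _ ‖x‖]
  gcongr
  rw [mul_comm K, hK, ← integral_const_mul]
  exact integral_mono_of_nonneg (Eventually.of_forall fun _ => norm_nonneg _)
    (hi.const_mul _) (Eventually.of_forall fun t => taylor_expKernel_le hm c h hh t)

lemma differentiable_smear_expKernel {m : ℝ} (hm : 0 < m) (x : H →L[ℂ] H) :
    Differentiable ℂ fun c => D.smear (expKernel m c) x :=
  fun c => (D.hasDerivAt_smear_expKernel hm x c).differentiableAt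

end Modular

end P132
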