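import Vale.Agent.P132.Defs

/-!
# P132: the hypothesis of type III₁

For a faithful normal state `φ` with vector `Ω` and modular operator `Δ`, a number `l > 0` is in
the spectrum of `Δ` iff for each `ε > 0` some `x` in the algebra has `φ (x⋆ x) = 1` and
`|φ (x y⋆) - l φ (y⋆ x)| ≤ ε √(φ (y⋆ y) + φ (y y⋆))` for all `y`: since
`φ (x y⋆) = ⟪Δ^½ y Ω, Δ^½ x Ω⟫` and `φ (y⋆ x) = ⟪y Ω, x Ω⟫`, this is the smallness of
`(Δ - l) x Ω` in the norm dual to the graph norm of `Δ^½`, whose core is `M Ω`.
States are weights, so `S(M) = [0, ∞)` implies `IsTypeIII1 M`.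
-/

noncomputable section

namespace P132

open scoped InnerProductSpace

variable {H : Type*} [NormedAddCommGroup H] [InnerProductSpace ℂ H] [CompleteSpace H]

/-- `l` lies in the spectrum of the modular operator of the state `φ` of `M`. -/
def InSpec (M : VonNeumannAlgebra H) (φ : (H →L[ℂ] H) → ℂ) (l : ℝ) : Prop :=
  ∀ ε : ℝ, 0 < ε → ∃ x ∈ M, φ (star x * x) = 1 ∧ ∀ y ∈ M,
    ‖φ (x * star y) - (l : ℂ) * φ (star y * x)‖ ≤
      ε * Real.sqrt ((φ (star y * y)).re + (φ (y * star y)).re)

/-- A factor of type III₁: for every faithful normal state all positive numbers are in the spectrum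
of the modular operator. -/
def IsTypeIII1 (M : VonNeumannAlgebra H) : Prop :=
  IsFactor M ∧ ∀ φ : (H →L[ℂ] H) → ℂ, IsNormalState M φ → IsFaithful M φ →
    ∀ l : ℝ, 0 < l → InSpec M φ l

end P132
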