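import Vale.Agent.P132.Setup
import Vale.Agent.P132.TypeIII

/-!
# P132: reduction to a cyclic separating vector

For a faithful normal state `φ = ∑ ⟪ξ n, · (ξ n)⟫` of `M` on `H` let `K` be the closure of
`{(x (ξ n))_n : x ∈ M}` in `ℓ²(ℕ; H)`. The compression of `diag x` to `K` is an isometric
*-isomorphism of `M` onto a von Neumann algebra with cyclic separating vector `(ξ n)_n`.
-/

noncomputable section

set_option maxSynthPendingDepth 5

namespace P132.Reduction

open Filter Topology TopologicalSpace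
open scoped InnerProductSpace ComplexStarModule

variable {H : Type*} [NormedAddCommGroup H] [InnerProductSpace ℂ H]

/-! ## `ℓ²(ℕ; H)` -/

/-- `ℓ²(ℕ; H)`. -/
abbrev L2 (H : Type*) [NormedAddCommGroup H] := lp (fun _ : ℕ => H) 2

theorem memℓp_map (x : H →L[ℂ] H) (f : L2 H) : Memℓp (fun n => x (f n)) 2 := by
  refine memℓp_gen ?_
  have hf := (lp.memℓp f).summable (by norm_num : 0 < (2 : ENNReal).toReal)
  refine (hf.mul_left (‖x‖ ^ (2 : ENNReal).toReal)).of_nonneg_of_le (fun n => by positivity)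
    fun n => ?_
  rw [← Real.mul_rpow (norm_nonneg _) (norm_nonneg _)]
  exact Real.rpow_le_rpow (norm_nonneg _) (x.le_opNorm _) (by norm_num)

/-- The diagonal operator. -/
def amp (x : H →L[ℂ] H) : L2 H →L[ℂ] L2 H :=
  LinearMap.mkContinuous
    { toFun := fun f => ⟨fun n => x (f n), memℓp_map x f⟩
      map_add' := fun f g => lp.ext (funext fun n => map_add x (f n) (g n))
      map_smul' := fun c f => by ext n; simp }
    ‖x‖ fun f => by
      refine lp.norm_le_of_tsum_le (by norm_num) (by positivity) ?_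
      have hf := (lp.memℓp f).summable (by norm_num : 0 < (2 : ENNReal).toReal)
      rw [Real.mul_rpow (norm_nonneg _) (norm_nonneg _), lp.norm_rpow_eq_tsum (by norm_num) f,
        ← tsum_mul_left]
      refine ((memℓp_map x f).summable (by norm_num)).tsum_le_tsum (fun n => ?_) (hf.mul_left _)
      rw [← Real.mul_rpow (norm_nonneg _) (norm_nonneg _)]
      exact Real.rpow_le_rpow (norm_nonneg _) (x.le_opNorm _) (by norm_num)

@[simp] theorem amp_apply (x : H →L[ℂ] H) (f : L2 H) (n : ℕ) : amp x f n = x (f n) := rfl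

theorem norm_amp_le (x : H →L[ℂ] H) : ‖amp x‖ ≤ ‖x‖ :=
  LinearMap.mkContinuous_norm_le _ (norm_nonneg _) _

theorem amp_one : amp (1 : H →L[ℂ] H) = 1 := by ext f n; simp
theorem amp_mul (x y : H →L[ℂ] H) : amp (x * y) = amp x * amp y := by ext f n; simp
theorem amp_add (x y : H →L[ℂ] H) : amp (x + y) = amp x + amp y := by ext f n; simp
theorem amp_smul (c : ℂ) (x : H →L[ℂ] H) : amp (c • x) = c • amp x := by ext f n; simp
theorem amp_zero : amp (0 : H →L[ℂ] H) = 0 := by ext f n; simp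

theorem amp_single (x : H →L[ℂ] H) (m : ℕ) (v : H) :
    amp x (lp.single 2 m v) = lp.single 2 m (x v) := by
  ext n
  rw [amp_apply, lp.single_apply, lp.single_apply]
  rcases eq_or_ne n m with rfl | h
  · simp
  · simp [Pi.single_eq_of_ne h]

variable [CompleteSpace H]

theorem star_amp (x : H →L[ℂ] H) : star (amp x) = amp (star x) := by
  refine ((ContinuousLinearMap.eq_adjoint_iff _ _).2 fun f g => ?_).symm
  rw [lp.inner_eq_tsum, lp.inner_eq_tsum]
  refine tsum_congr fun n => ?_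
  rw [amp_apply, amp_apply, ContinuousLinearMap.star_eq_adjoint,
    ContinuousLinearMap.adjoint_inner_left]

/-- The operator from the `n`-th to the `m`-th coordinate given by `y`. -/
def entry (m n : ℕ) (y : H →L[ℂ] H) : L2 H →L[ℂ] L2 H :=
  (lp.singleContinuousLinearMap ℂ (fun _ : ℕ => H) 2 m).comp
    (y.comp (lp.evalCLM ℂ (fun _ : ℕ => H) 2 n))

omit [CompleteSpace H] in
theorem entry_apply (m n : ℕ) (y : H →L[ℂ] H) (f : L2 H) :
    entry m n y f = lp.single 2 m (y (f n)) := rfl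

variable (M : VonNeumannAlgebra H)

/-- The operators commuting with the diagonal of `M`. -/
def ampComm : Set (L2 H →L[ℂ] L2 H) := {Y | ∀ x ∈ M, amp x * Y = Y * amp x}

variable {M}

theorem ampComm_star {Y : L2 H →L[ℂ] L2 H} (h : Y ∈ ampComm M) : star Y ∈ ampComm M := by
  intro x hx
  have h1 := congrArg star (h (star x) (star_mem hx))
  rw [star_mul, star_mul, star_amp, star_star] at h1
  exact h1.symm

theorem ampComm_mul {Y Z : L2 H →L[ℂ] L2 H} (hY : Y ∈ ampComm M) (hZ : Z ∈ ampComm M) :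
    Y * Z ∈ ampComm M := fun x hx => by
  rw [← mul_assoc, hY x hx, mul_assoc, hZ x hx, mul_assoc]

theorem one_mem_ampComm : (1 : L2 H →L[ℂ] L2 H) ∈ ampComm M := fun x _ => by simp

theorem entry_mem_ampComm {y : H →L[ℂ] H} (hy : y ∈ M.commutant) (m n : ℕ) :
    entry m n y ∈ ampComm M := fun x hx => by
  refine ContinuousLinearMap.ext fun f => ?_
  change amp x (entry m n y f) = entry m n y (amp x f)
  rw [entry_apply, entry_apply, amp_single, amp_apply]
  exact congrArg (lp.single 2 m)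
    (DFunLike.congr_fun (VonNeumannAlgebra.mem_commutant_iff.1 hy x hx) (f n))

theorem one_mem_commutant : (1 : H →L[ℂ] H) ∈ M.commutant :=
  VonNeumannAlgebra.mem_commutant_iff.2 fun x _ => by simp

/-- An operator commuting with everything commuting with the diagonal of `M` is diagonal. -/
theorem exists_amp_eq {T : L2 H →L[ℂ] L2 H} (h : ∀ Y ∈ ampComm M, Y * T = T * Y) :
    ∃ x ∈ M, T = amp x := by
  let x : H →L[ℂ] H := (lp.evalCLM ℂ (fun _ : ℕ => H) 2 0).comp
    (T.comp (lp.singleContinuousLinearMap ℂ (fun _ : ℕ => H) 2 0))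
  have key : ∀ y ∈ M.commutant, ∀ (m : ℕ) (f : L2 H), y ((T f) m) = x (y (f m)) := by
    intro y hy m f
    have := DFunLike.congr_fun (h _ (entry_mem_ampComm hy 0 m)) f
    simp only [ContinuousLinearMap.mul_def, ContinuousLinearMap.comp_apply, entry_apply] at this
    have h0 := congrArg (fun g : L2 H => g 0) this
    simp only [lp.single_apply_self] at h0
    exact h0
  refine ⟨x, ?_, ?_⟩
  · have h2 : x ∈ M.commutant.commutant := by
      refine VonNeumannAlgebra.mem_commutant_iff.2 fun y hy => ContinuousLinearMap.ext fun v => ?_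
      have h1 := key 1 one_mem_commutant 0 (lp.single 2 0 v)
      have h3 := key y hy 0 (lp.single 2 0 v)
      simp only [one_apply_eq_self, lp.single_apply_self] at h1 h3
      change y (x v) = x (y v)
      rw [← h1]
      exact h3
    rwa [M.commutant_commutant] at h2
  · refine ContinuousLinearMap.ext fun f => lp.ext (funext fun m => ?_)
    simpa using key 1 one_mem_commutant m f

/-! ## The cyclic subspace of a faithful normal state -/

variable (M) in
/-- A representing sequence of a faithful normal state. -/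
structure Rep where
  φ : (H →L[ℂ] H) → ℂ
  faithful : IsFaithful M φ
  ξ : ℕ → H
  summable : Summable fun n => ‖ξ n‖ ^ 2
  tsum_eq : ∑' n, ‖ξ n‖ ^ 2 = 1
  eq : ∀ x ∈ M, φ x = ∑' n, ⟪ξ n, x (ξ n)⟫_ℂ

namespace Rep

variable (R : Rep M)

/-- The vector `(ξ n)_n`. -/
def vec : L2 H := ⟨R.ξ, memℓp_gen (by simpa using R.summable)⟩

@[simp] theorem vec_apply (n : ℕ) : R.vec n = R.ξ n := rfl

theorem eq_zero {x : H →L[ℂ] H} (hx : x ∈ M) (h : ∀ n, x (R.ξ n) = 0) : x = 0 :=
  R.faithful x hx <| by simp [R.eq _ (mul_mem (star_mem hx) hx), h]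

/-- `x ↦ amp x (ξ n)_n`. -/
def orbit : (H →L[ℂ] H) →ₗ[ℂ] L2 H where
  toFun x := amp x R.vec
  map_add' x y := by rw [amp_add]; rfl
  map_smul' c x := by rw [amp_smul]; rfl

@[simp] theorem orbit_apply (x : H →L[ℂ] H) : R.orbit x = amp x R.vec := rfl

/-- The cyclic subspace. -/
def K : Submodule ℂ (L2 H) :=
  ((Subalgebra.toSubmodule M.toStarSubalgebra.toSubalgebra).map R.orbit).topologicalClosure

instance : CompleteSpace R.K :=
  (Submodule.isClosed_topologicalClosure _).completeSpace_coe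

theorem amp_vec_mem {x : H →L[ℂ] H} (hx : x ∈ M) : amp x R.vec ∈ R.K :=
  Submodule.le_topologicalClosure _ ⟨x, hx, rfl⟩

theorem vec_mem : R.vec ∈ R.K := by
  simpa [amp_one] using R.amp_vec_mem (one_mem M)

theorem amp_mem {x : H →L[ℂ] H} (hx : x ∈ M) {k : L2 H} (hk : k ∈ R.K) : amp x k ∈ R.K := by
  refine map_mem_closure (amp x).continuous hk fun v hv => ?_
  obtain ⟨y, hy, rfl⟩ := hv
  exact ⟨x * y, mul_mem (s := M) hx (show y ∈ M from hy), by simp [amp_mul]⟩

/-- The vector in `K`. -/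
def Ω : R.K := ⟨R.vec, R.vec_mem⟩

/-- The representation, as a compression. -/
def π (x : H →L[ℂ] H) : R.K →L[ℂ] R.K :=
  R.K.orthogonalProjectionOnto.comp ((amp x).comp R.K.subtypeL)

theorem coe_π {x : H →L[ℂ] H} (hx : x ∈ M) (k : R.K) : (R.π x k : L2 H) = amp x k :=
  congrArg Subtype.val
    (Submodule.orthogonalProjectionOnto_mem_subspace_eq_self (K := R.K) ⟨_, R.amp_mem hx k.2⟩)

theorem π_add (x y : H →L[ℂ] H) : R.π (x + y) = R.π x + R.π y := by
  simp only [π, amp_add, ContinuousLinearMap.add_comp, ContinuousLinearMap.comp_add]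

theorem π_smul (c : ℂ) (x : H →L[ℂ] H) : R.π (c • x) = c • R.π x := by
  simp only [π, amp_smul, ContinuousLinearMap.smul_comp, ContinuousLinearMap.comp_smul]

theorem π_one : R.π 1 = 1 :=
  ContinuousLinearMap.ext fun k => Subtype.ext <| by simp [R.coe_π (one_mem M), amp_one]

theorem π_zero : R.π 0 = 0 := by simp [π, amp_zero]

theorem π_sub (x y : H →L[ℂ] H) : R.π (x - y) = R.π x - R.π y :=
  eq_sub_of_add_eq (by rw [← R.π_add, sub_add_cancel])

theorem π_mul {x y : H →L[ℂ] H} (hx : x ∈ M) (hy : y ∈ M) : R.π (x * y) = R.π x * R.π y :=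
  ContinuousLinearMap.ext fun k => Subtype.ext <| by
    simp [R.coe_π (mul_mem hx hy), R.coe_π hx, R.coe_π hy, amp_mul]

theorem π_star (x : H →L[ℂ] H) : R.π (star x) = star (R.π x) := by
  rw [π, π, ← star_amp, ContinuousLinearMap.star_eq_adjoint, ContinuousLinearMap.star_eq_adjoint,
    ContinuousLinearMap.adjoint_comp, ContinuousLinearMap.adjoint_comp,
    Submodule.adjoint_subtypeL, Submodule.adjoint_orthogonalProjectionOnto,
    ContinuousLinearMap.comp_assoc]

theorem norm_π_le {x : H →L[ℂ] H} (hx : x ∈ M) : ‖R.π x‖ ≤ ‖x‖ := by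
  refine ContinuousLinearMap.opNorm_le_bound _ (norm_nonneg _) fun k => ?_
  rw [Submodule.coe_norm, R.coe_π hx]
  exact (amp x).le_of_opNorm_le (norm_amp_le x) _

theorem eq_zero_of_π {x : H →L[ℂ] H} (hx : x ∈ M) (h : R.π x R.Ω = 0) : x = 0 := by
  refine R.eq_zero hx fun n => ?_
  have := congrArg (fun k : R.K => (k : L2 H) n) h
  simpa [R.coe_π hx, Ω] using this

theorem π_injective {x y : H →L[ℂ] H} (hx : x ∈ M) (hy : y ∈ M) (h : R.π x = R.π y) : x = y :=
  sub_eq_zero.1 <| R.eq_zero_of_π (sub_mem hx hy) <| by simp [R.π_sub, h]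

/-- The vectors `y (ξ n)`, `y` in the commutant, span a dense subspace of `H`. -/
theorem dense_commutant :
    Dense (Submodule.span ℂ {v : H | ∃ y ∈ M.commutant, ∃ n, v = y (R.ξ n)} : Set H) := by
  set s := {v : H | ∃ y ∈ M.commutant, ∃ n, v = y (R.ξ n)}
  let V := (Submodule.span ℂ s).topologicalClosure
  have : CompleteSpace V := (Submodule.isClosed_topologicalClosure _).completeSpace_coe
  have hinv : ∀ y ∈ M.commutant, ∀ v ∈ V, y v ∈ V := by
    intro y hy v hv
    refine map_mem_closure y.continuous hv fun w hw => ?_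
    refine Submodule.span_induction ?_ (by simp) (fun a b _ _ ha hb => ?_) (fun c a _ ha => ?_) hw
    · rintro _ ⟨z, hz, n, rfl⟩
      exact Submodule.subset_span ⟨y * z, mul_mem hy hz, n, rfl⟩
    · simpa using add_mem ha hb
    · simpa using Submodule.smul_mem _ c ha
  have hq : V.starProjection ∈ M := by
    suffices V.starProjection ∈ M.commutant.commutant by rwa [M.commutant_commutant] at this
    refine VonNeumannAlgebra.mem_commutant_iff.2 fun y hy => ContinuousLinearMap.ext fun v => ?_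
    change y (V.starProjection v) = V.starProjection (y v)
    refine (Submodule.eq_starProjection_of_mem_orthogonal' (hinv y hy _ (V.starProjection_apply_mem v))
      (z := y (v - V.starProjection v)) (fun w hw => ?_) ?_).symm
    · rw [← ContinuousLinearMap.adjoint_inner_left]
      exact Submodule.inner_right_of_mem_orthogonal
        (hinv _ (star_mem hy) _ hw) (V.sub_starProjection_mem_orthogonal v)
    · rw [map_sub]; abel
  have h1 : V.starProjection = 1 := by
    refine (sub_eq_zero.1 (R.eq_zero (sub_mem (one_mem M) hq) fun n => ?_)).symm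
    have : R.ξ n ∈ V := Submodule.le_topologicalClosure _
      (Submodule.subset_span ⟨1, one_mem_commutant, n, rfl⟩)
    simp [Submodule.starProjection_eq_self_iff.2 this]
  intro v
  have : v ∈ V := by
    have := V.starProjection_apply_mem v
    rwa [h1] at this
  exact this

/-- Operators into `ℓ²` which agree on all `y (ξ n)` placed in one coordinate are equal. -/
theorem ext_entry {E : Type*} [NormedAddCommGroup E] [NormedSpace ℂ E]
    {S T : L2 H →L[ℂ] E}
    (h : ∀ y ∈ M.commutant, ∀ m n, S (lp.single 2 m (y (R.ξ n))) = T (lp.single 2 m (y (R.ξ n)))) :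
    S = T := by
  refine lp.ext_continuousLinearMap (by norm_num) fun m => ?_
  refine ContinuousLinearMap.ext_on R.dense_commutant ?_
  rintro _ ⟨y, hy, n, rfl⟩
  exact h y hy m n

/-- The index set of vectors `Y k`. -/
def pre : (↥(ampComm M) →₀ R.K) →ₗ[ℂ] L2 H :=
  Finsupp.lsum ℂ fun Y => ((Y : L2 H →L[ℂ] L2 H).comp R.K.subtypeL : R.K →ₗ[ℂ] L2 H)

theorem pre_single (Y : ↥(ampComm M)) (k : R.K) :
    R.pre (Finsupp.single Y k) = (Y : L2 H →L[ℂ] L2 H) k := by
  simp [pre]

theorem denseRange_pre : DenseRange R.pre := by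
  have key : (LinearMap.range R.pre).topologicalClosure = ⊤ := by
    refine eq_top_iff.2 fun f _ => ?_
    have hs : ∀ m v, lp.single 2 m v ∈ (LinearMap.range R.pre).topologicalClosure := by
      intro m v
      refine closure_minimal ?_ ((Submodule.isClosed_topologicalClosure _).preimage
        (lp.singleContinuousLinearMap ℂ (fun _ : ℕ => H) 2 m).continuous)
        (R.dense_commutant v)
      intro w hw
      refine (Submodule.span_le (p := Submodule.comap
        (lp.singleContinuousLinearMap ℂ (fun _ : ℕ => H) 2 m : H →ₗ[ℂ] L2 H)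
        (LinearMap.range R.pre).topologicalClosure)).2 ?_ hw
      rintro _ ⟨y, hy, n, rfl⟩
      exact Submodule.le_topologicalClosure _
        ⟨Finsupp.single ⟨_, entry_mem_ampComm hy m n⟩ R.Ω, R.pre_single _ _⟩
    exact (Submodule.isClosed_topologicalClosure _).mem_of_tendsto
      (lp.hasSum_single (by norm_num) f) (Eventually.of_forall fun s => sum_mem fun m _ => hs m _)
  rw [DenseRange, ← LinearMap.coe_range]
  exact (Submodule.dense_iff_topologicalClosure_eq_top).2 key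

/-- `π` as a set. -/
def image : Set (R.K →L[ℂ] R.K) := R.π '' M

theorem exists_of_unitary {u : R.K →L[ℂ] R.K} (hu : star u * u = 1)
    (hc : u ∈ Set.centralizer (Set.centralizer R.image)) :
    ∃ x ∈ M, ‖x‖ ≤ 1 ∧ R.π x = u := by
  -- the operators `k ↦ P (Z* (Y k))` commute with `π M`
  have hC : ∀ Y ∈ ampComm M, R.K.orthogonalProjectionOnto.comp
      (Y.comp R.K.subtypeL) ∈ Set.centralizer R.image := by
    rintro Y hY _ ⟨x, hx, rfl⟩
    refine ContinuousLinearMap.ext fun k => ?_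
    change R.π x (R.K.orthogonalProjectionOnto (Y k)) =
      R.K.orthogonalProjectionOnto (Y (R.π x k : L2 H))
    refine ext_inner_left ℂ fun j => ?_
    rw [R.coe_π hx, show Y (amp x (k : L2 H)) = amp x (Y (k : L2 H)) from
      (DFunLike.congr_fun (hY x hx) (k : L2 H)).symm, ← star_star x, R.π_star,
      ContinuousLinearMap.star_eq_adjoint, ContinuousLinearMap.adjoint_inner_right,
      Submodule.inner_orthogonalProjectionOnto_eq_of_mem_left,
      Submodule.inner_orthogonalProjectionOnto_eq_of_mem_left, R.coe_π (star_mem hx)]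
    conv_rhs => rw [star_star]
    change ⟪amp (star x) (j : L2 H), _⟫_ℂ = ⟪(j : L2 H), amp x _⟫_ℂ
    rw [← star_amp, ContinuousLinearMap.star_eq_adjoint, ContinuousLinearMap.adjoint_inner_left]
  have hinner : ∀ (Y Z : ↥(ampComm M)) (a b : R.K),
      ⟪(Y : L2 H →L[ℂ] L2 H) (u a : L2 H), (Z : L2 H →L[ℂ] L2 H) (u b : L2 H)⟫_ℂ =
        ⟪(Y : L2 H →L[ℂ] L2 H) (a : L2 H), (Z : L2 H →L[ℂ] L2 H) (b : L2 H)⟫_ℂ := by
    intro Y Z a b
    have h1 := DFunLike.congr_fun (hc _ (hC _ (ampComm_mul (ampComm_star Y.2) Z.2))) b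
    simp only [ContinuousLinearMap.mul_def, ContinuousLinearMap.comp_apply] at h1
    have e : ∀ a b : R.K, ⟪(Y : L2 H →L[ℂ] L2 H) (a : L2 H), (Z : L2 H →L[ℂ] L2 H) (b : L2 H)⟫_ℂ =
        ⟪a, R.K.orthogonalProjectionOnto
          ((star (Y : L2 H →L[ℂ] L2 H) * (Z : L2 H →L[ℂ] L2 H)) (b : L2 H))⟫_ℂ := fun a b => by
      rw [Submodule.inner_orthogonalProjectionOnto_eq_of_mem_left, ContinuousLinearMap.star_eq_adjoint,
        ContinuousLinearMap.mul_def, ContinuousLinearMap.comp_apply,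
        ContinuousLinearMap.adjoint_inner_right]
    rw [e, e]
    simp only [ContinuousLinearMap.mul_def, ContinuousLinearMap.comp_apply,
      Submodule.subtypeL_apply] at h1 ⊢
    rw [h1, ← ContinuousLinearMap.adjoint_inner_left, ← ContinuousLinearMap.star_eq_adjoint]
    exact congrArg (⟪·, _⟫_ℂ) (DFunLike.congr_fun hu a)
  let post : (↥(ampComm M) →₀ R.K) →ₗ[ℂ] L2 H :=
    Finsupp.lsum ℂ fun Y =>
      ((Y : L2 H →L[ℂ] L2 H).comp (R.K.subtypeL.comp u) : R.K →ₗ[ℂ] L2 H)
  have hnorm : ∀ f, ‖post f‖ ≤ 1 * ‖R.pre f‖ := by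
    intro f
    have h2 : ⟪post f, post f⟫_ℂ = ⟪R.pre f, R.pre f⟫_ℂ := by
      simp only [post, pre, Finsupp.lsum_apply, Finsupp.sum, sum_inner, inner_sum,
        ContinuousLinearMap.coe_coe, ContinuousLinearMap.comp_apply, Submodule.subtypeL_apply,
        hinner]
    rw [inner_self_eq_norm_sq_to_K, inner_self_eq_norm_sq_to_K] at h2
    rw [one_mul]
    exact le_of_eq ((pow_left_inj₀ (norm_nonneg _) (norm_nonneg _) two_ne_zero).1
      (by exact_mod_cast h2))
  let T := post.extendOfNorm R.pre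
  have hT : ∀ f, T (R.pre f) = post f := fun f =>
    LinearMap.extendOfNorm_eq R.denseRange_pre ⟨1, hnorm⟩ f
  have hT1 : ∀ (Y : ↥(ampComm M)) (k : R.K),
      T ((Y : L2 H →L[ℂ] L2 H) k) = (Y : L2 H →L[ℂ] L2 H) (u k : L2 H) := fun Y k => by
    rw [← R.pre_single, hT]; simp [post]
  obtain ⟨x, hx, hTx⟩ := exists_amp_eq (T := T) (M := M) fun Z hZ => by
    refine R.ext_entry fun y hy m n => ?_
    let Y : ↥(ampComm M) := ⟨_, entry_mem_ampComm hy m n⟩
    have : (lp.single 2 m (y (R.ξ n)) : L2 H) = (Y : L2 H →L[ℂ] L2 H) (R.Ω : L2 H) := rfl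
    rw [this]
    change Z (T _) = T (Z _)
    rw [hT1]
    exact (hT1 ⟨_, ampComm_mul hZ Y.2⟩ R.Ω).symm
  refine ⟨x, hx, ContinuousLinearMap.opNorm_le_bound _ zero_le_one fun v => ?_,
    ContinuousLinearMap.ext fun k => Subtype.ext ?_⟩
  · have hb : ‖T‖ ≤ 1 :=
      LinearMap.opNorm_extendOfNorm_le R.denseRange_pre zero_le_one hnorm
    have := T.le_of_opNorm_le hb (lp.single 2 0 v)
    rwa [hTx, amp_single, lp.norm_single (by norm_num), lp.norm_single (by norm_num)] at this
  · rw [R.coe_π hx, ← hTx]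
    exact hT1 ⟨1, one_mem_ampComm⟩ k

theorem exists_of_selfAdjoint {b : R.K →L[ℂ] R.K}
    (hb : b ∈ Set.centralizer (Set.centralizer R.image)) (hbs : IsSelfAdjoint b) :
    ∃ x ∈ M, ‖x‖ ≤ ‖b‖ ∧ R.π x = b := by
  rcases eq_or_ne b 0 with rfl | hb0
  · exact ⟨0, zero_mem M, by simp, R.π_zero⟩
  have hpos : 0 < ‖b‖ := norm_pos_iff.2 hb0
  let c : selfAdjoint (R.K →L[ℂ] R.K) := ⟨((‖b‖⁻¹ : ℝ) : ℂ) • b,
    (IsSelfAdjoint.smul (Complex.conj_ofReal _) hbs)⟩
  have hc1 : ‖c‖ ≤ 1 := by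
    change ‖((‖b‖⁻¹ : ℝ) : ℂ) • b‖ ≤ 1
    rw [norm_smul, Complex.norm_real, norm_inv, norm_norm, inv_mul_cancel₀ hpos.ne']
  have hcb : (c : R.K →L[ℂ] R.K) = ((‖b‖⁻¹ : ℝ) : ℂ) • b := rfl
  let u := selfAdjoint.unitarySelfAddISMul c hc1
  have huc : (u : R.K →L[ℂ] R.K) ∈ Set.centralizer (Set.centralizer R.image) := by
    intro d hd
    have h1 : Commute (c : R.K →L[ℂ] R.K) d := Commute.smul_left (hb d hd).symm _
    have h2 : Commute (1 - (c : R.K →L[ℂ] R.K) ^ 2) d :=
      (Commute.one_left d).sub_left (h1.pow_left 2)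
    have : NonUnitalContinuousFunctionalCalculus ℝ (R.K →L[ℂ] R.K) IsSelfAdjoint :=
      IsSelfAdjoint.instNonUnitalContinuousFunctionalCalculus
    exact ((h1.add_left ((h2.cfcₙ_nnreal NNReal.sqrt).smul_left Complex.I)).eq).symm
  obtain ⟨x, hx, hxn, hxe⟩ := R.exists_of_unitary (Unitary.coe_star_mul_self u) huc
  refine ⟨((‖b‖ / 2 : ℝ) : ℂ) • (x + star x),
    SMulMemClass.smul_mem (s := M.toStarSubalgebra) _ (add_mem hx (star_mem hx)), ?_, ?_⟩
  · rw [norm_smul, Complex.norm_real, Real.norm_of_nonneg (by positivity)]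
    calc ‖b‖ / 2 * ‖x + star x‖ ≤ ‖b‖ / 2 * 2 := by
          refine mul_le_mul_of_nonneg_left ((norm_add_le _ _).trans ?_) (by positivity)
          rw [norm_star]; linarith
      _ = ‖b‖ := by ring
  · have h3 := selfAdjoint.realPart_unitarySelfAddISMul c hc1
    rw [Subtype.ext_iff, realPart_apply_coe] at h3
    rw [R.π_smul, R.π_add, R.π_star, hxe]
    have h4 : ((‖b‖ / 2 : ℝ) : ℂ) • ((u : R.K →L[ℂ] R.K) + star (u : R.K →L[ℂ] R.K)) =
        (‖b‖ : ℂ) • (c : R.K →L[ℂ] R.K) := by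
      rw [← h3, ← Complex.coe_smul (2⁻¹ : ℝ), smul_smul]
      congr 1
      push_cast
      ring
    rw [h4]
    rw [hcb, smul_smul, Complex.ofReal_inv, mul_inv_cancel₀ (by exact_mod_cast hpos.ne'), one_smul]

theorem exists_of_bicommutant {a : R.K →L[ℂ] R.K}
    (hc : a ∈ Set.centralizer (Set.centralizer R.image)) :
    ∃ x ∈ M, ‖x‖ ≤ 2 * ‖a‖ ∧ R.π x = a := by
  have hstar : ∀ b ∈ Set.centralizer (Set.centralizer R.image),
      star b ∈ Set.centralizer (Set.centralizer R.image) := by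
    refine fun b hb => Set.star_mem_centralizer' (fun c hc => ?_) hb
    refine Set.star_mem_centralizer' ?_ hc
    rintro _ ⟨x, hx, rfl⟩
    exact ⟨star x, star_mem hx, R.π_star x⟩
  have hre : (ℜ a : R.K →L[ℂ] R.K) ∈ Set.centralizer (Set.centralizer R.image) := by
    intro c hcc
    simp only [realPart_apply_coe, mul_smul_comm, smul_mul_assoc, mul_add, add_mul, hc c hcc,
      hstar a hc c hcc]
  have him : (ℑ a : R.K →L[ℂ] R.K) ∈ Set.centralizer (Set.centralizer R.image) := by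
    intro c hcc
    simp only [imaginaryPart_apply_coe, mul_smul_comm, smul_mul_assoc, mul_sub, sub_mul,
      hc c hcc, hstar a hc c hcc]
  obtain ⟨x, hx, hxn, hxe⟩ := R.exists_of_selfAdjoint hre (ℜ a).2
  obtain ⟨y, hy, hyn, hye⟩ := R.exists_of_selfAdjoint him (ℑ a).2
  refine ⟨x + Complex.I • y, add_mem hx (SMulMemClass.smul_mem (s := M.toStarSubalgebra) _ hy),
    ?_, by rw [R.π_add, R.π_smul, hxe, hye, realPart_add_I_smul_imaginaryPart]⟩
  refine (norm_add_le _ _).trans ?_
  rw [norm_smul, Complex.norm_I, one_mul, two_mul]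
  exact add_le_add (hxn.trans (realPart.norm_le a)) (hyn.trans (imaginaryPart.norm_le a))

/-- The represented algebra. -/
def algebra : VonNeumannAlgebra R.K where
  carrier := R.image
  mul_mem' := by
    rintro _ _ ⟨x, hx, rfl⟩ ⟨y, hy, rfl⟩
    exact ⟨x * y, mul_mem hx hy, R.π_mul hx hy⟩
  one_mem' := ⟨1, one_mem M, R.π_one⟩
  add_mem' := by
    rintro _ _ ⟨x, hx, rfl⟩ ⟨y, hy, rfl⟩
    exact ⟨x + y, add_mem hx hy, R.π_add x y⟩
  zero_mem' := ⟨0, zero_mem M, R.π_zero⟩
  algebraMap_mem' c := ⟨c • 1, SMulMemClass.smul_mem (s := M.toStarSubalgebra) c (one_mem M),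
    by rw [R.π_smul, R.π_one, Algebra.algebraMap_eq_smul_one]⟩
  star_mem' := by
    rintro _ ⟨x, hx, rfl⟩
    exact ⟨star x, star_mem hx, R.π_star x⟩
  centralizer_centralizer' := by
    refine Set.Subset.antisymm (fun T hT => ?_) Set.subset_centralizer_centralizer
    obtain ⟨x, hx, _, rfl⟩ := R.exists_of_bicommutant hT
    exact ⟨x, hx, rfl⟩

theorem mem_algebra {T : R.K →L[ℂ] R.K} : T ∈ R.algebra ↔ ∃ x ∈ M, R.π x = T := Iff.rfl

theorem π_mem {x : H →L[ℂ] H} (hx : x ∈ M) : R.π x ∈ R.algebra := ⟨x, hx, rfl⟩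

/-- The standard datum of `(M, φ)`. -/
def std : Std R.K where
  M := R.algebra
  Ω := R.Ω
  norm_Ω := by
    change ‖R.vec‖ = 1
    have := lp.norm_rpow_eq_tsum (by norm_num : 0 < (2 : ENNReal).toReal) R.vec
    simp [R.tsum_eq] at this
    exact this.resolve_right (fun h => by linarith [norm_nonneg R.vec])
  cyclic := by
    intro k
    rw [IsInducing.subtypeVal.closure_eq_preimage_closure_image]
    refine closure_mono ?_ k.2
    rintro _ ⟨x, hx, rfl⟩
    exact ⟨R.π x R.Ω, ⟨R.π x, R.π_mem hx, rfl⟩, R.coe_π hx _⟩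
  separating := by
    rintro _ ⟨x, hx, rfl⟩ h
    rw [R.eq_zero_of_π hx h, R.π_zero]

theorem std_φ {x : H →L[ℂ] H} (hx : x ∈ M) : R.std.φ (R.π x) = R.φ x := by
  rw [R.eq x hx, Std.φ]
  change ⟪(R.Ω : L2 H), (R.π x R.Ω : L2 H)⟫_ℂ = _
  rw [R.coe_π hx, lp.inner_eq_tsum]
  rfl

theorem isFactor (h : IsFactor M) : IsFactor R.algebra := by
  rintro _ ⟨x, hx, rfl⟩ hz
  obtain ⟨c, rfl⟩ := h x hx <| VonNeumannAlgebra.mem_commutant_iff.2 fun y hy => by
    refine R.π_injective (mul_mem hy hx) (mul_mem hx hy) ?_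
    rw [R.π_mul hy hx, R.π_mul hx hy]
    exact VonNeumannAlgebra.mem_commutant_iff.1 hz _ (R.π_mem hy)
  exact ⟨c, by rw [R.π_smul, R.π_one]⟩

theorem isNormalState_pullback {ψ : (R.K →L[ℂ] R.K) → ℂ} (h : IsNormalState R.algebra ψ) :
    IsNormalState M (fun x => ψ (R.π x)) := by
  obtain ⟨η, hs, h1, he⟩ := h
  have hn : ∀ n, HasSum (fun m => ‖(η n : L2 H) m‖ ^ 2) (‖η n‖ ^ 2) := fun n => by
    have := lp.hasSum_norm (by norm_num : 0 < (2 : ENNReal).toReal) (η n : L2 H)
    simpa using this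
  have hpair : Summable fun p : ℕ × ℕ => ‖(η p.1 : L2 H) p.2‖ ^ 2 :=
    (summable_prod_of_nonneg fun p => by positivity).2
      ⟨fun n => (hn n).summable, by simp only [fun n => (hn n).tsum_eq]; exact hs⟩
  refine ⟨fun i => (η i.unpair.1 : L2 H) i.unpair.2, ?_, ?_, fun x hx => ?_⟩
  · exact (Nat.pairEquiv.symm.summable_iff (f := fun p : ℕ × ℕ => ‖(η p.1 : L2 H) p.2‖ ^ 2)).2 hpair
  · rw [← h1, ← tsum_congr fun n => (hn n).tsum_eq, ← hpair.tsum_prod]
    exact Nat.pairEquiv.symm.tsum_eq (fun p : ℕ × ℕ => ‖(η p.1 : L2 H) p.2‖ ^ 2)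
  · have hsum : Summable fun p : ℕ × ℕ => ⟪(η p.1 : L2 H) p.2, x ((η p.1 : L2 H) p.2)⟫_ℂ := by
      refine (hpair.mul_left ‖x‖).of_norm_bounded fun p => ?_
      refine (norm_inner_le_norm _ _).trans ?_
      calc ‖(η p.1 : L2 H) p.2‖ * ‖x ((η p.1 : L2 H) p.2)‖
          ≤ ‖(η p.1 : L2 H) p.2‖ * (‖x‖ * ‖(η p.1 : L2 H) p.2‖) :=
            mul_le_mul_of_nonneg_left (x.le_opNorm _) (norm_nonneg _)
        _ = _ := by ring
    have he' := he _ (R.π_mem hx)
    have e : ∀ n, ⟪η n, R.π x (η n)⟫_ℂ =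
        ∑' m, ⟪(η n : L2 H) m, x ((η n : L2 H) m)⟫_ℂ := fun n => by
      rw [Submodule.coe_inner, R.coe_π hx, lp.inner_eq_tsum]
      rfl
    rw [tsum_congr e, ← hsum.tsum_prod] at he'
    refine he'.trans ?_
    exact (Nat.pairEquiv.symm.tsum_eq
      (fun p : ℕ × ℕ => ⟪(η p.1 : L2 H) p.2, x ((η p.1 : L2 H) p.2)⟫_ℂ)).symm

theorem isFaithful_pullback {ψ : (R.K →L[ℂ] R.K) → ℂ} (h : IsFaithful R.algebra ψ) :
    IsFaithful M (fun x => ψ (R.π x)) := by
  intro x hx h0
  simp only [R.π_mul (star_mem hx) hx, R.π_star] at h0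
  exact R.π_injective hx (zero_mem M) (by rw [h _ (R.π_mem hx) h0, R.π_zero])

theorem isTypeIII1 (h : IsTypeIII1 M) : IsTypeIII1 R.algebra := by
  refine ⟨R.isFactor h.1, fun ψ hn hf l hl ε hε => ?_⟩
  obtain ⟨x, hx, h1, h2⟩ :=
    h.2 _ (R.isNormalState_pullback hn) (R.isFaithful_pullback hf) l hl ε hε
  refine ⟨R.π x, R.π_mem hx, ?_, ?_⟩
  · rw [← R.π_star, ← R.π_mul (star_mem hx) hx]; exact h1
  · rintro _ ⟨y, hy, rfl⟩
    have hsy := star_mem hy
    simp only [← R.π_star, ← R.π_mul hx hsy, ← R.π_mul hsy hx, ← R.π_mul hsy hy,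
      ← R.π_mul hy hsy]
    exact h2 y hy

theorem π_mem_B {a : H →L[ℂ] H} (ha : a ∈ bicentralizer M R.φ) : R.π a ∈ R.std.B := by
  refine ⟨R.π_mem ha.1, fun w hw => ?_⟩
  obtain ⟨hwm, ⟨C, hC⟩, hwc⟩ := hw
  have hwm' : ∀ n, ∃ x ∈ M, ‖x‖ ≤ 2 * ‖w n‖ ∧ R.π x = w n := fun n =>
    R.exists_of_bicommutant (Set.subset_centralizer_centralizer (hwm n))
  choose v hv hvn hve using hwm'
  have hvb : ∀ n, ‖v n‖ ≤ 2 * C := fun n => (hvn n).trans (by linarith [hC n])
  have hv2 : AsympCentralizes M R.φ v := by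
    refine ⟨hv, ⟨_, hvb⟩, fun ε hε => ?_⟩
    obtain ⟨N, hN⟩ := hwc ε hε
    refine ⟨N, fun n hn y hy => ?_⟩
    have := hN n hn _ (R.π_mem hy)
    rw [← hve n, ← R.π_mul hy (hv n), ← R.π_mul (hv n) hy, R.std_φ (mul_mem hy (hv n)),
      R.std_φ (mul_mem (hv n) hy)] at this
    exact this.trans (mul_le_mul_of_nonneg_left (R.norm_π_le hy) hε.le)
  have hd : ∀ n, a * v n - v n * a ∈ M := fun n =>
    sub_mem (mul_mem ha.1 (hv n)) (mul_mem (hv n) ha.1)
  have hdb : ∀ n, ‖amp (a * v n - v n * a)‖ ≤ 2 * ‖a‖ * (2 * C) := fun n => by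
    refine (norm_amp_le _).trans ((norm_sub_le _ _).trans ?_)
    have h1 : ‖a * v n‖ ≤ ‖a‖ * (2 * C) :=
      (norm_mul_le _ _).trans (mul_le_mul_of_nonneg_left (hvb n) (norm_nonneg _))
    have h2 : ‖v n * a‖ ≤ (2 * C) * ‖a‖ :=
      (norm_mul_le _ _).trans (mul_le_mul_of_nonneg_right (hvb n) (norm_nonneg _))
    linarith
  intro k
  have e : ∀ n, ((R.π a * w n - w n * R.π a) k : L2 H) = amp (a * v n - v n * a) k := fun n => by
    rw [← hve n, ← R.π_mul ha.1 (hv n), ← R.π_mul (hv n) ha.1, ← R.π_sub, R.coe_π (hd n)]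
  rw [tendsto_subtype_rng]
  simp only [e, Submodule.coe_zero]
  -- strong convergence passes to the amplification
  have hzero : ∀ (m : ℕ) (ξ : H),
      Tendsto (fun n => amp (a * v n - v n * a) (lp.single 2 m ξ)) atTop (𝓝 0) := fun m ξ => by
    have := ((lp.singleContinuousLinearMap ℂ (fun _ : ℕ => H) 2 m).continuous.tendsto 0).comp
      (ha.2 v hv2 ξ)
    simpa [Function.comp_def, amp_single] using this
  rw [Metric.tendsto_atTop]
  intro ε hε
  have hsum := lp.hasSum_single (by norm_num : (2 : ENNReal) ≠ ⊤) (k : L2 H)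
  set C' := 2 * ‖a‖ * (2 * C) with hC'
  have hC'0 : 0 ≤ C' := (norm_nonneg _).trans (hdb 0)
  obtain ⟨s, hs⟩ := (Metric.tendsto_nhds.1 hsum (ε / (2 * (C' + 1))) (by positivity)).exists
  have h2 : Tendsto (fun n => amp (a * v n - v n * a) (∑ m ∈ s, lp.single 2 m ((k : L2 H) m)))
      atTop (𝓝 0) := by
    simpa [map_sum] using tendsto_finsetSum s fun m _ => hzero m ((k : L2 H) m)
  obtain ⟨N, hN⟩ := (Metric.tendsto_atTop.1 h2) (ε / 2) (by positivity)
  refine ⟨N, fun n hn => ?_⟩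
  have h3 := hN n hn
  rw [dist_zero_right] at h3 ⊢
  rw [dist_eq_norm, norm_sub_rev] at hs
  have h4 : ‖amp (a * v n - v n * a) ((k : L2 H) - ∑ m ∈ s, lp.single 2 m ((k : L2 H) m))‖ ≤
      C' * (ε / (2 * (C' + 1))) :=
    ((amp (a * v n - v n * a)).le_of_opNorm_le (hdb n) _).trans
      (mul_le_mul_of_nonneg_left hs.le hC'0)
  have h5 : C' * (ε / (2 * (C' + 1))) ≤ ε / 2 := by
    rw [← mul_div_assoc, div_le_div_iff₀ (by positivity) two_pos]
    nlinarith
  rw [map_sub] at h4
  have h6 := norm_le_norm_sub_add (amp (a * v n - v n * a) (k : L2 H))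
    (amp (a * v n - v n * a) (∑ m ∈ s, lp.single 2 m ((k : L2 H) m)))
  linarith

theorem bicentralizer_eq (h : R.std.B = scalars R.K) : bicentralizer M R.φ = scalars H := by
  refine Set.Subset.antisymm (fun a ha => ?_) ?_
  · obtain ⟨c, hc⟩ := h ▸ R.π_mem_B ha
    refine ⟨c, R.π_injective (SMulMemClass.smul_mem (s := M.toStarSubalgebra) c (one_mem M))
      ha.1 ?_⟩
    rw [R.π_smul, R.π_one]; exact hc
  · rintro _ ⟨c, rfl⟩
    refine ⟨SMulMemClass.smul_mem (s := M.toStarSubalgebra) c (one_mem M), fun w _ ξ => ?_⟩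
    simp

end Rep

omit [CompleteSpace H] in
theorem separableSpace_L2 [SeparableSpace H] : SeparableSpace (L2 H) := by
  have h : IsSeparable (⋃ m, Set.range fun v : H => (lp.single 2 m v : L2 H)) :=
    .iUnion fun m => isSeparable_range
      (lp.singleContinuousLinearMap ℂ (fun _ : ℕ => H) 2 m).continuous
  refine isSeparable_univ_iff.1 ((h.span (R := ℂ)).closure.mono fun f _ => ?_)
  exact mem_closure_of_tendsto (lp.hasSum_single (by norm_num) f) (Eventually.of_forall fun s =>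
    sum_mem fun m _ => Submodule.subset_span (Set.mem_iUnion.2 ⟨m, f m, rfl⟩))

instance Rep.separableSpace [SeparableSpace H] (R : Rep M) : SeparableSpace R.K :=
  have := separableSpace_L2 (H := H)
  have : SecondCountableTopology (L2 H) := UniformSpace.secondCountable_of_separable _
  inferInstance

end P132.Reduction

namespace P132

universe u

/-- It suffices to treat the vector state of a cyclic separating vector. -/
theorem reduction
    (h : ∀ (K : Type u) [NormedAddCommGroup K] [InnerProductSpace ℂ K] [CompleteSpace K]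
      [TopologicalSpace.SeparableSpace K] (S : Std K), IsTypeIII1 S.M → S.B = scalars K)
    {H : Type u} [NormedAddCommGroup H] [InnerProductSpace ℂ H] [CompleteSpace H]
    [TopologicalSpace.SeparableSpace H] {M : VonNeumannAlgebra H} (hM : IsTypeIII1 M)
    {φ : (H →L[ℂ] H) → ℂ} (hφ : IsNormalState M φ) (hf : IsFaithful M φ) :
    bicentralizer M φ = scalars H := by
  obtain ⟨ξ, hs, h1, he⟩ := hφ
  let R : Reduction.Rep M := ⟨φ, hf, ξ, hs, h1, he⟩
  exact R.bicentralizer_eq (h R.K R.std (R.isTypeIII1 hM))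

end P132
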