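import Vale.Agent.P132.Endgame
import Vale.Agent.P132.Reduction
import Vale.Agent.P132.Tomita.Modular
import Vale.Agent.P132.Homog.Final
import Vale.Agent.P132.Basic
import Vale.Agent.P132.Flow

/-!
# P132: assembly
-/

namespace P132

universe u

/-- The bicentralizer of a cyclic separating vector is trivial once the modules are supplied. -/
theorem standard_of_modules {K : Type u} [NormedAddCommGroup K] [InnerProductSpace ℂ K]
    [CompleteSpace K] (S : Std K) (D : Modular S) (h : Homog S) (hb : BFacts D) (F : Flow D)
    (hA : GoalRouteA D) (hB : GoalRouteB D) : S.B = scalars K :=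
  endgame D hb F (hB h hb F) (hA hb F)

/-- The theorem, given the four remaining modules. -/
theorem bicentralizer_trivial_of_modules
    (hH : ∀ (K : Type u) [NormedAddCommGroup K] [InnerProductSpace ℂ K] [CompleteSpace K]
      [TopologicalSpace.SeparableSpace K] (S : Std K), IsTypeIII1 S.M → Homog S)
    (hb : ∀ (K : Type u) [NormedAddCommGroup K] [InnerProductSpace ℂ K] [CompleteSpace K]
      (S : Std K) (D : Modular S), Homog S → BFacts D)
    (hF : ∀ (K : Type u) [NormedAddCommGroup K] [InnerProductSpace ℂ K] [CompleteSpace K]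
      (S : Std K) (D : Modular S), Homog S → BFacts D → Nonempty (Flow D))
    (hA : ∀ (K : Type u) [NormedAddCommGroup K] [InnerProductSpace ℂ K] [CompleteSpace K]
      (S : Std K) (D : Modular S), GoalRouteA D)
    (hB : ∀ (K : Type u) [NormedAddCommGroup K] [InnerProductSpace ℂ K] [CompleteSpace K]
      (S : Std K) (D : Modular S), GoalRouteB D)
    {H : Type u} [NormedAddCommGroup H] [InnerProductSpace ℂ H] [CompleteSpace H]
    [TopologicalSpace.SeparableSpace H] {M : VonNeumannAlgebra H} (hM : IsTypeIII1 M)
    {φ : (H →L[ℂ] H) → ℂ} (hφ : IsNormalState M φ) (hf : IsFaithful M φ) :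
    bicentralizer M φ = scalars H := by
  refine reduction ?_ hM hφ hf
  intro K _ _ _ _ S hIII
  have h := hH K S hIII
  have hbf := hb K S S.modular h
  obtain ⟨F⟩ := hF K S S.modular h hbf
  exact standard_of_modules S S.modular h hbf F (hA K S _) (hB K S _)

/-- The theorem, given the two analytic routes. -/
theorem bicentralizer_trivial_of_routes
    (hA : ∀ (K : Type u) [NormedAddCommGroup K] [InnerProductSpace ℂ K] [CompleteSpace K]
      (S : Std K) (D : Modular S), GoalRouteA D)
    (hB : ∀ (K : Type u) [NormedAddCommGroup K] [InnerProductSpace ℂ K] [CompleteSpace K]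
      (S : Std K) (D : Modular S), GoalRouteB D)
    {H : Type u} [NormedAddCommGroup H] [InnerProductSpace ℂ H] [CompleteSpace H]
    [TopologicalSpace.SeparableSpace H] {M : VonNeumannAlgebra H} (hM : IsTypeIII1 M)
    {φ : (H →L[ℂ] H) → ℂ} (hφ : IsNormalState M φ) (hf : IsFaithful M φ) :
    bicentralizer M φ = scalars H :=
  bicentralizer_trivial_of_modules (fun _ _ _ _ _ S h => homog_of_typeIII1 S h)
    (fun _ _ _ _ _ D h => bFacts D h) (fun _ _ _ _ _ D h hb => exists_flow D h hb) hA hB hM hφ hf

end P132
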