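import Vale.Agent.P132.Sigma

/-!
# P132: integrating the modular orbit of an operator against an integrable function
-/

noncomputable section

namespace P132

open Filter Topology Complex MeasureTheory ComplexConjugate
open scoped InnerProductSpace

variable {H : Type*} [NormedAddCommGroup H] [InnerProductSpace ℂ H] [CompleteSpace H]
variable {S : Std H}

namespace Modular

variable (D : Modular S)

lemma integrable_smul_σ_apply {g : ℝ → ℂ} (hg : Integrable g) (x : H →L[ℂ] H) (v : H) :
    Integrable fun t => g t • D.σ t x v := by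
  refine (hg.norm.mul_const (‖x‖ * ‖v‖)).mono'
    (hg.aestronglyMeasurable.smul (D.continuous_σ_apply x v).aestronglyMeasurable)
    (Eventually.of_forall fun t => ?_)
  rw [norm_smul]
  exact mul_le_mul_of_nonneg_left
    (((D.σ t x).le_opNorm v).trans_eq (by rw [D.norm_σ])) (norm_nonneg _)

open Classical in
/-- `∫ g(t) σ_t x dt`, as a strong integral (zero if `g` is not integrable). -/
def smear (g : ℝ → ℂ) (x : H →L[ℂ] H) : H →L[ℂ] H :=
  if hg : Integrable g then
    LinearMap.mkContinuous
      { toFun := fun v => ∫ t, g t • D.σ t x v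
        map_add' := fun v w => by
          simp only [map_add, smul_add]
          exact integral_add (D.integrable_smul_σ_apply hg x v) (D.integrable_smul_σ_apply hg x w)
        map_smul' := fun c v => by
          simp only [map_smul, RingHom.id_apply, smul_comm (g _) c]
          exact integral_smul c _ }
      ((∫ t, ‖g t‖) * ‖x‖)
      fun v => by
        refine (norm_integral_le_of_norm_le (hg.norm.mul_const (‖x‖ * ‖v‖))
          (Eventually.of_forall fun t => ?_)).trans_eq (by rw [integral_mul_const, mul_assoc])
        rw [norm_smul]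
        exact mul_le_mul_of_nonneg_left
          (((D.σ t x).le_opNorm v).trans_eq (by rw [D.norm_σ])) (norm_nonneg _)
  else 0

lemma smear_apply {g : ℝ → ℂ} (hg : Integrable g) (x : H →L[ℂ] H) (v : H) :
    D.smear g x v = ∫ t, g t • D.σ t x v := by
  simp [smear, hg]

lemma smear_of_not_integrable {g : ℝ → ℂ} (hg : ¬Integrable g) (x : H →L[ℂ] H) :
    D.smear g x = 0 := by
  simp [smear, hg]

lemma norm_smear_le {g : ℝ → ℂ} (hg : Integrable g) (x : H →L[ℂ] H) :
    ‖D.smear g x‖ ≤ (∫ t, ‖g t‖) * ‖x‖ := by
  rw [smear, dif_pos hg]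
  exact LinearMap.mkContinuous_norm_le _
    (mul_nonneg (integral_nonneg fun _ => norm_nonneg _) (norm_nonneg _)) _

lemma smear_mem (g : ℝ → ℂ) {x : H →L[ℂ] H} (hx : x ∈ S.M) : D.smear g x ∈ S.M := by
  by_cases hg : Integrable g
  · refine (vN_mem_iff _).2 fun y hy v => ?_
    rw [D.smear_apply hg, D.smear_apply hg,
      ← y.integral_comp_comm (D.integrable_smul_σ_apply hg x v)]
    simp only [map_smul, (vN_mem_iff _).1 (D.σ_mem' _ hx) y hy v]
  · rw [D.smear_of_not_integrable hg]
    exact zero_mem _

lemma smear_add {f g : ℝ → ℂ} (hf : Integrable f) (hg : Integrable g) (x : H →L[ℂ] H) :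
    D.smear (fun t => f t + g t) x = D.smear f x + D.smear g x := by
  ext v
  rw [add_apply, D.smear_apply hf, D.smear_apply hg,
    D.smear_apply (hf.add hg : Integrable fun t => f t + g t),
    ← integral_add (D.integrable_smul_σ_apply hf x v) (D.integrable_smul_σ_apply hg x v)]
  simp only [add_smul]

lemma smear_const_mul (c : ℂ) {g : ℝ → ℂ} (hg : Integrable g) (x : H →L[ℂ] H) :
    D.smear (fun t => c * g t) x = c • D.smear g x := by
  ext v
  rw [smul_apply, D.smear_apply hg, D.smear_apply (hg.const_mul c),
    ← integral_smul]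
  simp only [mul_smul]

lemma smear_sub {f g : ℝ → ℂ} (hf : Integrable f) (hg : Integrable g) (x : H →L[ℂ] H) :
    D.smear (fun t => f t - g t) x = D.smear f x - D.smear g x := by
  ext v
  rw [sub_apply, D.smear_apply hf, D.smear_apply hg,
    D.smear_apply (hf.sub hg : Integrable fun t => f t - g t),
    ← integral_sub (D.integrable_smul_σ_apply hf x v) (D.integrable_smul_σ_apply hg x v)]
  simp only [sub_smul]

lemma σ_smear (s : ℝ) {g : ℝ → ℂ} (hg : Integrable g) (x : H →L[ℂ] H) :
    D.σ s (D.smear g x) = D.smear (fun t => g (t - s)) x := by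
  ext v
  rw [D.σ_apply, D.smear_apply hg, D.smear_apply (hg.comp_sub_right s),
    ← (D.U s).integral_comp_comm (D.integrable_smul_σ_apply hg x _),
    ← integral_sub_right_eq_self (fun t => D.U s (g t • D.σ t x (D.U (-s) v))) s]
  refine integral_congr_ae (Eventually.of_forall fun t => ?_)
  simp only [map_smul, ← D.σ_apply, D.σ_σ, add_sub_cancel]

lemma star_smear {g : ℝ → ℂ} (hg : Integrable g) (x : H →L[ℂ] H) :
    star (D.smear g x) = D.smear (fun t => conj (g t)) (star x) := by
  have hc : Integrable fun t => conj (g t) :=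
    hg.norm.mono' (Complex.continuous_conj.comp_aestronglyMeasurable hg.aestronglyMeasurable)
      (Eventually.of_forall fun t => le_of_eq (by simp))
  ext v
  refine ext_inner_left ℂ fun w => ?_
  rw [ContinuousLinearMap.star_eq_adjoint (D.smear g x), ContinuousLinearMap.adjoint_inner_right,
    D.smear_apply hg, D.smear_apply hc, ← integral_inner (D.integrable_smul_σ_apply hc _ v),
    ← inner_conj_symm, ← integral_inner (D.integrable_smul_σ_apply hg x w), ← integral_conj]
  refine integral_congr_ae (Eventually.of_forall fun t => ?_)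
  simp only [inner_smul_right, map_mul, inner_conj_symm, D.σ_star]
  rw [ContinuousLinearMap.star_eq_adjoint, ContinuousLinearMap.adjoint_inner_right]

/-- If the orbit of `x` lies in the bicentralizer, so does every smeared element. -/
lemma smear_mem_B (g : ℝ → ℂ) {x : H →L[ℂ] H} (hx : ∀ t, D.σ t x ∈ S.B) :
    D.smear g x ∈ S.B := by
  have hxM : x ∈ S.M := by simpa using (hx 0).1
  refine ⟨D.smear_mem g hxM, fun w hw ξ => ?_⟩
  by_cases hg : Integrable g
  · obtain ⟨C, hC⟩ := hw.2.1
    have h : ∀ n, (D.smear g x * w n - w n * D.smear g x) ξ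
        = ∫ t, g t • ((D.σ t x * w n - w n * D.σ t x) ξ) := by
      intro n
      change D.smear g x (w n ξ) - w n (D.smear g x ξ) = _
      rw [D.smear_apply hg, D.smear_apply hg,
        ← (w n).integral_comp_comm (D.integrable_smul_σ_apply hg x ξ),
        ← integral_sub (D.integrable_smul_σ_apply hg x (w n ξ))
          ((w n).integrable_comp (D.integrable_smul_σ_apply hg x ξ))]
      refine integral_congr_ae (Eventually.of_forall fun t => ?_)
      simp only [map_smul, ← smul_sub]
      rfl
    simp only [h]
    have := tendsto_integral_of_dominated_convergence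
      (F := fun n t => g t • ((D.σ t x * w n - w n * D.σ t x) ξ)) (f := fun _ => (0 : H))
      (fun t => ‖g t‖ * (2 * ‖x‖ * C * ‖ξ‖))
      (fun n => hg.aestronglyMeasurable.smul
        (((D.continuous_σ_apply x (w n ξ)).sub
          ((w n).continuous.comp (D.continuous_σ_apply x ξ))).aestronglyMeasurable))
      (hg.norm.mul_const _) (fun n => Eventually.of_forall fun t => ?_)
      (Eventually.of_forall fun t => ?_)
    · simpa using this
    · rw [norm_smul]
      refine mul_le_mul_of_nonneg_left (((D.σ t x * w n - w n * D.σ t x).le_opNorm ξ).trans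
        (mul_le_mul_of_nonneg_right ?_ (norm_nonneg _))) (norm_nonneg _)
      refine (norm_sub_le _ _).trans ?_
      have hC0 : 0 ≤ C := (norm_nonneg _).trans (hC n)
      have h1 : ‖D.σ t x * w n‖ ≤ ‖x‖ * C := (norm_mul_le _ _).trans (by
        rw [D.norm_σ]; exact mul_le_mul_of_nonneg_left (hC n) (norm_nonneg _))
      have h2 : ‖w n * D.σ t x‖ ≤ C * ‖x‖ := (norm_mul_le _ _).trans (by
        rw [D.norm_σ]; exact mul_le_mul_of_nonneg_right (hC n) (norm_nonneg _))
      linarith
    · simpa using ((hx t).2 w hw ξ).const_smul (g t)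
  · simp [D.smear_of_not_integrable hg]

end Modular

end P132
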